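import Vale.Agent.P322.Scalar.Path

/-!
# Courtade–Kumar: affine lower bounds for the children's information term
-/

namespace Vale.Agent.P322

open Real Set

lemma four_thirds_le_rateSlope {b : ℝ} (hb : 0 < b) : 4 / 3 ≤ rateSlope b := by
  have hd : ∀ x ∈ Ici (0 : ℝ), HasDerivAt (fun x => x * cosh x - sinh x - x ^ 3 / 3)
      (x * (sinh x - x)) x := fun x _ => by
    refine ((((hasDerivAt_id' x).mul (hasDerivAt_cosh x)).sub (hasDerivAt_sinh x)).sub
      ((hasDerivAt_pow 3 x).div_const 3)).congr_deriv ?_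
    push_cast; ring
  have hm : MonotoneOn (fun x => x * cosh x - sinh x - x ^ 3 / 3) (Ici 0) := by
    refine monotoneOn_of_hasDerivWithinAt_nonneg (convex_Ici 0)
      (fun x hx => (hd x hx).continuousAt.continuousWithinAt)
      (fun x hx => (hd x (interior_subset hx)).hasDerivWithinAt) fun x hx => ?_
    rw [interior_Ici] at hx
    exact mul_nonneg (le_of_lt hx) (sub_nonneg.2 (self_le_sinh_iff.2 (le_of_lt hx)))
  have h2 : (0 : ℝ) < 2 * b := by linarith
  have h := hm (mem_Ici.2 le_rfl) (mem_Ici.2 h2.le) h2.le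
  simp only [zero_mul, sinh_zero, sub_zero, zero_pow three_ne_zero, zero_div] at h
  have h1 : 1 / 3 ≤ (2 * b * cosh (2 * b) - sinh (2 * b)) / (2 * b) ^ 3 := by
    rw [le_div_iff₀ (by positivity)]; linarith
  have hc : 1 ≤ cosh b ^ 2 := one_le_pow₀ (one_le_cosh b)
  unfold rateSlope
  nlinarith

lemma four_thirds_slope {D : ℝ} (h0 : 0 ≤ D) (h1 : D < log 2) :
    2 * D + 2 / 3 * D ^ 2 ≤ F0 D := by
  have hr : ∀ t ∈ Icc 0 D, 2 + 4 / 3 * t ≤ rate (log 2 - t) := by
    intro t ht
    have hm : MonotoneOn (fun t => rate (log 2 - t) - 4 / 3 * t) (Icc 0 t) := by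
      refine monotoneOn_of_hasDerivWithinAt_nonneg
        (f' := fun s => rateSlope (zOf (log 2 - s)) - 4 / 3) (convex_Icc 0 t) ?_
        (fun s hs => ?_) fun s hs => ?_
      · refine (continuousOn_rate.comp (continuousOn_const.sub continuousOn_id) fun s hs => ?_).sub
          (by fun_prop)
        show 0 < log 2 - s
        linarith [hs.2, ht.2]
      all_goals rw [interior_Icc] at hs
      · refine (((hasDerivAt_rate (e := log 2 - s) (by linarith [hs.2, ht.2])
          (by linarith [hs.1])).comp s ((hasDerivAt_id' s).const_sub (log 2))).sub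
          ((hasDerivAt_id' s).const_mul (4 / 3 : ℝ))).hasDerivWithinAt.congr_deriv ?_
        ring
      · exact sub_nonneg.2 (four_thirds_le_rateSlope
          (zOf_pos (by linarith [hs.2, ht.2]) (by linarith [hs.1])))
    have := hm (left_mem_Icc.2 ht.1) (right_mem_Icc.2 ht.1) ht.1
    simp only [sub_zero, mul_zero] at this
    rw [show rate (log 2) = 2 from if_pos (zOf_of_log_two_le le_rfl)] at this
    linarith
  have hm : MonotoneOn (fun t => F0 t - (2 * t + 2 / 3 * t ^ 2)) (Icc 0 D) := by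
    refine monotoneOn_of_hasDerivWithinAt_nonneg
      (f' := fun t => rate (log 2 - t) - (2 + 4 / 3 * t)) (convex_Icc 0 D)
      ((continuousOn_F0.mono fun t ht => lt_of_le_of_lt ht.2 h1).sub (by fun_prop))
      (fun t ht => ?_) fun t ht => sub_nonneg.2 (hr t (interior_subset ht))
    rw [interior_Icc] at ht
    refine (((hasDerivAt_F0 ht.1 (by linarith [ht.2])).sub (((hasDerivAt_id' t).const_mul
      (2 : ℝ)).add ((hasDerivAt_pow 2 t).const_mul (2 / 3 : ℝ)))).hasDerivWithinAt).congr_deriv ?_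
    push_cast; ring
  have := hm (left_mem_Icc.2 h0) (right_mem_Icc.2 h0) h0
  simp only [F0_zero] at this
  linarith

/-- The affine bounds used for the children. -/
lemma affine_le_F0 {c c0 D : ℝ} (hc0 : c0 ≤ -3 / 8 * (c - 2) ^ 2) (h0 : 0 ≤ D) (h1 : D < log 2) :
    c * D + c0 ≤ F0 D := by
  have := four_thirds_slope h0 h1
  nlinarith [sq_nonneg (4 / 3 * D + 2 - c)]

end Vale.Agent.P322
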