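import Vale.Agent.P322.Scalar.CertDefs

/-!
# Courtade–Kumar: the tangent certificate for the edge term

`cert_pointwise` bounds the edge cost `(x - y) (artanh x - artanh y) / 4` below by the affine
certificate of a reference atom, `cert_tangent` says that the bound is attained at that atom and
`cert_sum` is the weighted form.

In the coordinates `x = tanh (p + q)`, `y = tanh (p - q)` the difference of the two sides is a
positive multiple of `zFn a b p q`. Its minimum over a box is a critical point, and the only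
critical point with `p ≥ 0` is `(a, b)`, because `gFn` increases in both variables while `rFn`
increases in the first and decreases in the second.
-/

namespace Vale.Agent.P322

open Real Set

/-! ### The atom -/

/-- Entropy of a sign with mean `tanh z`. -/
lemma ent_tanh (z : ℝ) : ent (tanh z) = log (2 * cosh z) - z * tanh z := by
  have hc : 0 < cosh z := cosh_pos z
  have h1 : (1 + tanh z) / 2 = exp z / (2 * cosh z) := by
    rw [tanh_eq_sinh_div_cosh, ← cosh_add_sinh z]; field_simp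
  have h2 : 1 - (1 + tanh z) / 2 = exp (-z) / (2 * cosh z) := by
    rw [tanh_eq_sinh_div_cosh, ← cosh_sub_sinh z]; field_simp; ring
  rw [ent, binEntropy_eq_negMulLog_add_negMulLog_one_sub, h2, h1, negMulLog, negMulLog,
    log_div (exp_pos z).ne' (by positivity), log_div (exp_pos (-z)).ne' (by positivity),
    log_exp, log_exp, tanh_eq_sinh_div_cosh]
  field_simp
  linear_combination (z - log (2 * cosh z)) * cosh_add_sinh z
    - (z + log (2 * cosh z)) * cosh_sub_sinh z

lemma uFn_pos (p q : ℝ) : 0 < uFn p q := add_pos (cosh_pos _) (cosh_pos _)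

lemma two_le_uFn (p q : ℝ) : 2 ≤ uFn p q := by
  have := one_le_cosh (2 * p); have := one_le_cosh (2 * q)
  unfold uFn; linarith

lemma cosh_mul_cosh_eq (p q : ℝ) : 2 * (cosh (p + q) * cosh (p - q)) = uFn p q := by
  rw [uFn, cosh_add, cosh_sub, cosh_two_mul, cosh_two_mul]
  linear_combination (2 * cosh p ^ 2 - 1) * cosh_sq q + (2 * sinh q ^ 2 + 1) * cosh_sq p

lemma atom_sub (a b : ℝ) :
    (tanh (a + b) - tanh (a - b)) / 2 = sinh (2 * b) / uFn a b := by
  rw [tanh_eq_sinh_div_cosh, tanh_eq_sinh_div_cosh, div_sub_div _ _ (cosh_pos _).ne' (cosh_pos _).ne',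
    ← sinh_sub, ← cosh_mul_cosh_eq, show a + b - (a - b) = 2 * b by ring]
  ring

lemma atom_add (a b : ℝ) :
    (tanh (a + b) + tanh (a - b)) / 2 = sinh (2 * a) / uFn a b := by
  rw [tanh_eq_sinh_div_cosh, tanh_eq_sinh_div_cosh, div_add_div _ _ (cosh_pos _).ne' (cosh_pos _).ne',
    ← sinh_add, ← cosh_mul_cosh_eq, show a + b + (a - b) = 2 * a by ring]
  ring

lemma exp_neg_add_cosh (a b : ℝ) :
    exp (-(2 * a)) + cosh (2 * b) = uFn a b - sinh (2 * a) := by
  rw [← cosh_sub_sinh, uFn]; ring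

lemma atom_compl (a b : ℝ) :
    1 - (tanh (a + b) + tanh (a - b)) / 2 = (exp (-(2 * a)) + cosh (2 * b)) / uFn a b := by
  rw [atom_add, exp_neg_add_cosh, sub_div, div_self (uFn_pos a b).ne']

lemma atom_ent (a b : ℝ) :
    (ent (tanh (a + b)) + ent (tanh (a - b))) / 2 = e2Fn a b / uFn a b := by
  have hu := (uFn_pos a b).ne'
  have hl : log (2 * cosh (a + b)) + log (2 * cosh (a - b)) = lFn a b := by
    rw [← log_mul (by positivity) (by positivity), lFn, ← cosh_mul_cosh_eq]
    ring_nf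
  have h1 := atom_add a b
  have h2 := atom_sub a b
  rw [ent_tanh, ent_tanh, e2Fn]
  field_simp at h1 h2 ⊢
  linear_combination uFn a b * hl - a * h1 - b * h2

/-! ### Elementary properties of the closed forms -/

/-- `log (1 + 2 c y + y^2)` where `y = exp (-2p)` and `c = cosh 2q`. -/
lemma lFn_sub (p q : ℝ) :
    lFn p q - 2 * p = log (1 + 2 * cosh (2 * q) * exp (-(2 * p)) + exp (-(2 * p)) ^ 2) := by
  have he : exp (2 * p) * exp (-(2 * p)) = 1 := by rw [← exp_add]; simp
  rw [lFn, show 2 * p = log (exp (2 * p)) from (log_exp _).symm,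
    ← log_div (by have := uFn_pos p q; positivity) (exp_pos _).ne', log_exp, uFn, cosh_eq,
    div_eq_mul_inv, ← exp_neg]
  congr 1
  linear_combination he

lemma e2Fn_neg (p q : ℝ) : e2Fn (-p) q = e2Fn p q := by
  simp [e2Fn, lFn, uFn]

lemma e2Fn_nonneg (p q : ℝ) : 0 ≤ e2Fn p q := by
  have h := atom_ent p q
  have : ∀ z, 0 ≤ ent (tanh z) := fun z => binEntropy_nonneg
    (by linarith [neg_one_lt_tanh z]) (by linarith [tanh_lt_one z])
  have hu := uFn_pos p q
  have : 0 ≤ e2Fn p q / uFn p q := by rw [← h]; linarith [this (p + q), this (p - q)]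
  exact (div_nonneg_iff.1 this).elim (fun h => h.1) fun h => absurd h.2 (not_le.2 hu)

/-- The quantity whose level sets are the critical curves in the first variable. -/
noncomputable def gFn (p q : ℝ) : ℝ :=
  exp (2 * p) * (sinh (2 * p) * lFn p q - 2 * p * cosh (2 * p))

/-- `rFn p q / sinh (2q) ^ 2` is minus the slope in `q` on the critical curve. -/
noncomputable def rFn (p q : ℝ) : ℝ := exp (2 * p) * uFn p q * (lFn p q - 2 * p)

/-- The reduced certificate gap. -/
noncomputable def zFn (a b p q : ℝ) : ℝ :=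
  q - certLam a b
    + certMu a b * (e2Fn p q + certNu a b * (exp (-(2 * p)) + cosh (2 * q))) / sinh (2 * q)

lemma certNu_eq (a b : ℝ) : certNu a b = gFn a b / 2 := rfl

lemma lFn_sub_pos (p q : ℝ) : 0 < lFn p q - 2 * p := by
  rw [lFn_sub]
  have := exp_pos (-(2 * p)); have := one_le_cosh (2 * q)
  exact log_pos (by nlinarith)

lemma rFn_pos (p q : ℝ) : 0 < rFn p q :=
  mul_pos (mul_pos (exp_pos _) (uFn_pos p q)) (lFn_sub_pos p q)

lemma certMu_eq (a b : ℝ) : certMu a b = sinh (2 * b) ^ 2 / rFn a b := rfl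

lemma hasDerivAt_lFn_fst (p q : ℝ) :
    HasDerivAt (fun t => lFn t q) (2 * sinh (2 * p) / uFn p q) p := by
  have h : HasDerivAt (fun t => 2 * uFn t q) (2 * (sinh (2 * p) * 2)) p := by
    simpa [uFn] using ((((hasDerivAt_id p).const_mul (2 : ℝ)).cosh).add_const
      (cosh (2 * q))).const_mul (2 : ℝ)
  refine (h.log (by have := uFn_pos p q; positivity)).congr_deriv ?_
  field_simp

lemma hasDerivAt_lFn_snd (p q : ℝ) :
    HasDerivAt (fun t => lFn p t) (2 * sinh (2 * q) / uFn p q) q := by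
  have h : HasDerivAt (fun t => 2 * uFn p t) (2 * (sinh (2 * q) * 2)) q := by
    simpa [uFn] using ((((hasDerivAt_id q).const_mul (2 : ℝ)).cosh).const_add
      (cosh (2 * p))).const_mul (2 : ℝ)
  refine (h.log (by have := uFn_pos p q; positivity)).congr_deriv ?_
  field_simp

lemma hasDerivAt_two_mul (p : ℝ) : HasDerivAt (fun t : ℝ => 2 * t) 2 p := by
  simpa using (hasDerivAt_id p).const_mul (2 : ℝ)

lemma hasDerivAt_e2Fn_fst (p q : ℝ) :
    HasDerivAt (fun t => e2Fn t q)
      (sinh (2 * p) * lFn p q - 2 * p * cosh (2 * p)) p := by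
  have hu : HasDerivAt (fun t => uFn t q) (sinh (2 * p) * 2) p :=
    ((hasDerivAt_two_mul p).cosh).add_const _
  have hs : HasDerivAt (fun t => t * sinh (2 * t))
      (1 * sinh (2 * p) + p * (cosh (2 * p) * 2)) p :=
    (hasDerivAt_id' p).mul (hasDerivAt_two_mul p).sinh
  have h := (((hu.mul (hasDerivAt_lFn_fst p q)).div_const 2).sub hs).sub_const (q * sinh (2 * q))
  refine h.congr_deriv ?_
  field_simp [(uFn_pos p q).ne']
  ring

lemma hasDerivAt_e2Fn_snd (p q : ℝ) :
    HasDerivAt (fun t => e2Fn p t)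
      (sinh (2 * q) * lFn p q - 2 * q * cosh (2 * q)) q := by
  have hu : HasDerivAt (fun t => uFn p t) (sinh (2 * q) * 2) q :=
    ((hasDerivAt_two_mul q).cosh).const_add _
  have hs : HasDerivAt (fun t => t * sinh (2 * t))
      (1 * sinh (2 * q) + q * (cosh (2 * q) * 2)) q :=
    (hasDerivAt_id' q).mul (hasDerivAt_two_mul q).sinh
  have h := (((hu.mul (hasDerivAt_lFn_snd p q)).div_const 2).sub_const (p * sinh (2 * p))).sub hs
  refine h.congr_deriv ?_
  field_simp [(uFn_pos p q).ne']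
  ring

/-! ### Monotonicity of `gFn` and `rFn` -/

lemma gFn_deriv_pos {p : ℝ} (q : ℝ) (hp : 0 ≤ p) :
    (1 + cosh (2 * q) * cosh (2 * p)) / uFn p q < exp (2 * p) * (lFn p q - 2 * p) := by
  rw [lFn_sub, uFn]
  set c := cosh (2 * q)
  set y := exp (-(2 * p)) with hy
  have hy0 : 0 < y := exp_pos _
  have hy1 : y ≤ 1 := exp_le_one_iff.2 (by linarith)
  have hc : 1 ≤ c := one_le_cosh _
  have he : exp (2 * p) = 1 / y := by rw [hy, exp_neg]; simp
  have hC : cosh (2 * p) = (1 / y + y) / 2 := by rw [cosh_eq, he]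
  rw [hC, he]
  set Q := 1 + 2 * c * y + y ^ 2 with hQ
  have hQ0 : 0 < Q := by positivity
  have hlog : 4 * y / (y + 2) + (1 - (1 + y) ^ 2 / Q) ≤ log Q := by
    have h1 := le_log_one_add_of_nonneg hy0.le
    have h2 : 1 - (1 + y) ^ 2 / Q ≤ log (Q / (1 + y) ^ 2) :=
      le_trans (by rw [inv_div]) (one_sub_inv_le_log_of_pos (by positivity))
    rw [log_div hQ0.ne' (by positivity), log_pow] at h2
    push_cast at h2
    rw [show 4 * y / (y + 2) = 2 * (2 * y / (y + 2)) by ring]
    linarith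
  have key : y * (2 * y + c * (1 + y ^ 2)) / Q < 4 * y / (y + 2) + (1 - (1 + y) ^ 2 / Q) := by
    rw [← sub_pos]
    have : 0 < 4 * y * Q + (Q - (1 + y) ^ 2) * (y + 2)
        - y * (2 * y + c * (1 + y ^ 2)) * (y + 2) := by
      have hd : 0 ≤ c - 1 := by linarith
      have e1 : 0 < y * (1 + y) ^ 2 * (2 - y) :=
        mul_pos (by positivity) (by linarith)
      have e2 : 0 ≤ y * (c - 1) * (y + 2) * (1 - y ^ 2) := by
        have : 0 ≤ 1 - y ^ 2 := by nlinarith
        positivity
      have e3 : 0 ≤ y ^ 2 * (c - 1) := by positivity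
      rw [hQ]
      linarith
    have h' : 4 * y / (y + 2) + (1 - (1 + y) ^ 2 / Q) - y * (2 * y + c * (1 + y ^ 2)) / Q
        = (4 * y * Q + (Q - (1 + y) ^ 2) * (y + 2)
          - y * (2 * y + c * (1 + y ^ 2)) * (y + 2)) / ((y + 2) * Q) := by
      field_simp
    rw [h']; positivity
  have h3 : (1 + c * ((1 / y + y) / 2)) / ((1 / y + y) / 2 + c)
      = (1 / y) * (y * (2 * y + c * (1 + y ^ 2)) / Q) := by
    rw [hQ]; field_simp; ring
  rw [h3]
  exact mul_lt_mul_of_pos_left (key.trans_le hlog) (by positivity)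

lemma gFn_zero (q : ℝ) : gFn 0 q = 0 := by simp [gFn]

lemma hasDerivAt_gFn_fst (p q : ℝ) :
    HasDerivAt (fun t => gFn t q) (2 * exp (2 * p) * (exp (2 * p) * (lFn p q - 2 * p)
      - (1 + cosh (2 * q) * cosh (2 * p)) / uFn p q)) p := by
  have h := (hasDerivAt_two_mul p).exp.mul
    (((hasDerivAt_two_mul p).sinh.mul (hasDerivAt_lFn_fst p q)).sub
      ((hasDerivAt_two_mul p).mul (hasDerivAt_two_mul p).cosh))
  refine h.congr_deriv ?_
  simp only [Pi.mul_apply, Pi.sub_apply]
  rw [← cosh_add_sinh (2 * p)]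
  field_simp [(uFn_pos p q).ne']
  rw [uFn]
  linear_combination (-1 : ℝ) * cosh_sq (2 * p)

lemma strictMonoOn_gFn (q : ℝ) : StrictMonoOn (fun t => gFn t q) (Ici 0) := by
  refine strictMonoOn_of_hasDerivWithinAt_pos (convex_Ici 0)
    (fun t _ => (hasDerivAt_gFn_fst t q).continuousAt.continuousWithinAt)
    (fun t _ => (hasDerivAt_gFn_fst t q).hasDerivWithinAt) fun t ht => ?_
  rw [interior_Ici] at ht
  have := gFn_deriv_pos q (le_of_lt ht)
  exact mul_pos (by positivity) (by linarith)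

lemma gFn_mono_snd {p q q' : ℝ} (hp : 0 ≤ p) (hq : 0 ≤ q) (h : q ≤ q') :
    gFn p q ≤ gFn p q' := by
  have hc : cosh (2 * q) ≤ cosh (2 * q') := by
    rw [cosh_le_cosh, abs_of_nonneg (by linarith), abs_of_nonneg (by linarith)]; linarith
  have hl : lFn p q ≤ lFn p q' := by
    have := uFn_pos p q
    exact log_le_log (by positivity) (by unfold uFn; linarith)
  have hs : 0 ≤ sinh (2 * p) := sinh_nonneg_iff.2 (by linarith)
  unfold gFn
  gcongr

lemma hasDerivAt_rFn_fst (p q : ℝ) :
    HasDerivAt (fun t => rFn t q) (2 * exp (2 * p) * ((exp (2 * p) + cosh (2 * q))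
      * (lFn p q - 2 * p) - (exp (-(2 * p)) + cosh (2 * q)))) p := by
  have hu : HasDerivAt (fun t => uFn t q) (sinh (2 * p) * 2) p :=
    ((hasDerivAt_two_mul p).cosh).add_const _
  have h := ((hasDerivAt_two_mul p).exp.mul hu).mul
    ((hasDerivAt_lFn_fst p q).sub (hasDerivAt_two_mul p))
  refine h.congr_deriv ?_
  simp only [Pi.mul_apply, Pi.sub_apply]
  rw [← cosh_add_sinh (2 * p), ← cosh_sub_sinh (2 * p)]
  field_simp [(uFn_pos p q).ne']
  rw [uFn]
  ring

lemma monotoneOn_rFn (q : ℝ) : MonotoneOn (fun t => rFn t q) (Ici 0) := by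
  refine monotoneOn_of_hasDerivWithinAt_nonneg (convex_Ici 0)
    (fun t _ => (hasDerivAt_rFn_fst t q).continuousAt.continuousWithinAt)
    (fun t _ => (hasDerivAt_rFn_fst t q).hasDerivWithinAt) fun t ht => ?_
  rw [interior_Ici] at ht
  refine mul_nonneg (by positivity) (sub_nonneg.2 ?_)
  rw [lFn_sub]
  set c := cosh (2 * q)
  set y := exp (-(2 * t)) with hy
  have hy0 : 0 < y := exp_pos _
  have hy1 : y ≤ 1 := exp_le_one_iff.2 (by linarith [mem_Ioi.1 ht])
  have hc : 1 ≤ c := one_le_cosh _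
  rw [show exp (2 * t) = 1 / y by rw [hy, exp_neg]; simp]
  have hlog := le_log_one_add_of_nonneg (show 0 ≤ 2 * c * y + y ^ 2 by positivity)
  rw [← add_assoc] at hlog
  refine le_trans ?_ (mul_le_mul_of_nonneg_left hlog (by positivity))
  rw [← sub_nonneg]
  have h' : (1 / y + c) * (2 * (2 * c * y + y ^ 2) / (2 * c * y + y ^ 2 + 2)) - (y + c)
      = (2 * c + 2 * c ^ 2 * y - c * y ^ 2 - y ^ 3) / (2 * c * y + y ^ 2 + 2) := by
    field_simp; ring
  rw [h']
  refine div_nonneg ?_ (by positivity)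
  nlinarith [mul_le_mul_of_nonneg_left hy1 hy0.le, mul_nonneg hy0.le (sq_nonneg c)]

lemma hasDerivAt_rFn_snd (p q : ℝ) :
    HasDerivAt (fun t => rFn p t)
      (exp (2 * p) * (2 * sinh (2 * q)) * (lFn p q - 2 * p + 1)) q := by
  have hu : HasDerivAt (fun t => uFn p t) (sinh (2 * q) * 2) q :=
    ((hasDerivAt_two_mul q).cosh).const_add _
  have h := (hu.const_mul (exp (2 * p))).mul ((hasDerivAt_lFn_snd p q).sub_const (2 * p))
  refine h.congr_deriv ?_
  field_simp [(uFn_pos p q).ne']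

lemma strictAntiOn_rFn_div (p : ℝ) :
    StrictAntiOn (fun t => rFn p t / sinh (2 * t) ^ 2) (Ioi 0) := by
  have hd : ∀ t, 0 < t → HasDerivAt (fun t => rFn p t / sinh (2 * t) ^ 2)
      (2 * exp (2 * p) * (sinh (2 * t) ^ 2 * (lFn p t - 2 * p + 1)
        - 2 * cosh (2 * t) * uFn p t * (lFn p t - 2 * p)) / sinh (2 * t) ^ 3) t := by
    intro t ht
    have hs : sinh (2 * t) ≠ 0 := (sinh_pos_iff.2 (by linarith)).ne'
    refine ((hasDerivAt_rFn_snd p t).div ((hasDerivAt_two_mul t).sinh.pow 2)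
      (pow_ne_zero 2 hs)).congr_deriv ?_
    simp only [rFn, Pi.pow_apply]
    field_simp
    ring
  refine strictAntiOn_of_hasDerivWithinAt_neg (convex_Ioi 0)
    (fun t ht => (hd t ht).continuousAt.continuousWithinAt)
    (fun t ht => (hd t (interior_subset ht)).hasDerivWithinAt) fun t ht => ?_
  have ht : 0 < t := interior_subset ht
  refine div_neg_of_neg_of_pos (mul_neg_of_pos_of_neg (by positivity) ?_)
    (pow_pos (sinh_pos_iff.2 (by linarith)) 3)
  rw [lFn_sub, sinh_sq, uFn]
  set c := cosh (2 * t)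
  set y := exp (-(2 * p)) with hy
  have hy0 : 0 < y := exp_pos _
  have hc : 1 ≤ c := one_le_cosh _
  have hC : cosh (2 * p) = (1 / y + y) / 2 := by rw [cosh_eq, hy, exp_neg]; simp
  rw [hC]
  set Q := 1 + 2 * c * y + y ^ 2 with hQ
  have hQ1 : 0 < Q := by positivity
  have hlog := one_sub_inv_le_log_of_pos hQ1
  have hcoef : c * Q / y = 2 * c * ((1 / y + y) / 2 + c) := by rw [hQ]; field_simp; ring
  have key : c ^ 2 - 1 < (c * Q / y - (c ^ 2 - 1)) * (1 - Q⁻¹) := by
    rw [← sub_pos]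
    have h' : (c * Q / y - (c ^ 2 - 1)) * (1 - Q⁻¹) - (c ^ 2 - 1)
        = ((c * Q - (c ^ 2 - 1) * y) * (Q - 1) - (c ^ 2 - 1) * y * Q) / (y * Q) := by
      field_simp
    rw [h']
    refine div_pos ?_ (by positivity)
    have e1 : 0 < y * Q := by positivity
    have e2 : 0 ≤ c * y * y * Q := by positivity
    have e3 : 0 ≤ (c ^ 2 - 1) * y := mul_nonneg (by nlinarith) hy0.le
    have e4 : Q - 1 = 2 * c * y + y ^ 2 := by rw [hQ]; ring
    have e5 : c ^ 2 * y ≤ c * Q / 2 := by
      rw [hQ]; nlinarith [mul_nonneg (le_trans zero_le_one hc) (sq_nonneg y)]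
    have e6 : c * Q / 2 ≤ c * Q - (c ^ 2 - 1) * y := by linarith
    have e7 : c * Q / 2 * (2 * c * y) ≤ (c * Q - (c ^ 2 - 1) * y) * (Q - 1) :=
      mul_le_mul e6 (by rw [e4]; nlinarith) (by positivity) (by linarith [e6, show 0 ≤ c * Q by positivity])
    nlinarith
  have hpos : 0 ≤ c * Q / y - (c ^ 2 - 1) := by
    rw [hcoef]
    have : 0 ≤ c * ((1 / y + y) / 2) := by positivity
    nlinarith
  have := key.trans_le (mul_le_mul_of_nonneg_left hlog hpos)
  rw [← hcoef]
  linarith

/-- Two points of one critical curve have different slopes. -/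
lemma crit_aux {p q p' q' : ℝ} (hp : 0 ≤ p) (hp' : 0 ≤ p') (hq : 0 < q) (hqq : q < q')
    (hg : gFn p q = gFn p' q') :
    rFn p' q' / sinh (2 * q') ^ 2 < rFn p q / sinh (2 * q) ^ 2 := by
  have hpp : p' ≤ p := by
    by_contra h
    push Not at h
    have h1 := gFn_mono_snd hp' hq.le hqq.le
    have h2 := strictMonoOn_gFn q hp hp' h
    linarith
  calc rFn p' q' / sinh (2 * q') ^ 2 ≤ rFn p q' / sinh (2 * q') ^ 2 :=
        div_le_div_of_nonneg_right (monotoneOn_rFn q' hp' hp hpp) (sq_nonneg _)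
    _ < _ := strictAntiOn_rFn_div p hq (hq.trans hqq) hqq

/-! ### Properties of the coefficients -/

lemma certMu_pos {a b : ℝ} (hb : 0 < b) : 0 < certMu a b := by
  rw [certMu_eq]
  exact div_pos (pow_pos (sinh_pos_iff.2 (by linarith)) 2) (rFn_pos a b)

lemma certNu_zero (b : ℝ) : certNu 0 b = 0 := by rw [certNu_eq, gFn_zero, zero_div]

lemma certNu_nonneg {a : ℝ} (ha : 0 ≤ a) (b : ℝ) : 0 ≤ certNu a b := by
  have h := (strictMonoOn_gFn b).monotoneOn self_mem_Ici ha ha
  simp only [gFn_zero] at h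
  rw [certNu_eq]; linarith

lemma certLam_nonneg {a b : ℝ} (ha : 0 ≤ a) (hb : 0 < b) : 0 ≤ certLam a b := by
  have := certMu_pos (a := a) hb
  have := certNu_nonneg ha b
  have := e2Fn_nonneg a b
  have : 0 < sinh (2 * b) := sinh_pos_iff.2 (by linarith)
  have := cosh_pos (2 * b)
  unfold certLam
  positivity

/-- The certificate is attained at the reference atom. -/
theorem cert_tangent {a b : ℝ} (hb : 0 < b) :
    certLam a b * (sinh (2 * b) / uFn a b)
      - certMu a b * (e2Fn a b / uFn a b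
        + certNu a b * ((exp (-(2 * a)) + cosh (2 * b)) / uFn a b))
      = b * (sinh (2 * b) / uFn a b) := by
  have : sinh (2 * b) ≠ 0 := (sinh_pos_iff.2 (by linarith)).ne'
  have := (uFn_pos a b).ne'
  rw [certLam]
  field_simp
  ring

/-! ### Global nonnegativity of the gap -/

lemma hasDerivAt_zFn_fst (a b p q : ℝ) :
    HasDerivAt (fun t => zFn a b t q)
      (certMu a b * exp (-(2 * p)) * (gFn p q - 2 * certNu a b) / sinh (2 * q)) p := by
  have h := ((((hasDerivAt_e2Fn_fst p q).add ((((hasDerivAt_two_mul p).neg.exp).add_const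
    (cosh (2 * q))).const_mul (certNu a b))).const_mul (certMu a b)).div_const
      (sinh (2 * q))).const_add (q - certLam a b)
  refine h.congr_deriv ?_
  have he : exp (-(2 * p)) * exp (2 * p) = 1 := by rw [← exp_add]; simp
  rw [gFn]
  congr 1
  linear_combination (-(certMu a b * (sinh (2 * p) * lFn p q - 2 * p * cosh (2 * p)))) * he

lemma hasDerivAt_zFn_snd (a b p : ℝ) {q : ℝ} (hq : 0 < q) :
    HasDerivAt (fun t => zFn a b p t)
      (1 + certMu a b * (((sinh (2 * q) * lFn p q - 2 * q * cosh (2 * q))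
          + certNu a b * (sinh (2 * q) * 2)) * sinh (2 * q)
        - (e2Fn p q + certNu a b * (exp (-(2 * p)) + cosh (2 * q))) * (cosh (2 * q) * 2))
        / sinh (2 * q) ^ 2) q := by
  have hs : sinh (2 * q) ≠ 0 := (sinh_pos_iff.2 (by linarith)).ne'
  have h := ((hasDerivAt_id' q).sub_const (certLam a b)).add
    ((((hasDerivAt_e2Fn_snd p q).add (((hasDerivAt_two_mul q).cosh.const_add
      (exp (-(2 * p)))).const_mul (certNu a b))).const_mul (certMu a b)).div
        (hasDerivAt_two_mul q).sinh hs)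
  refine h.congr_deriv ?_
  simp only [Pi.add_apply]
  ring

lemma slope_on_curve (p q : ℝ) :
    ((sinh (2 * q) * lFn p q - 2 * q * cosh (2 * q)) + gFn p q / 2 * (sinh (2 * q) * 2))
        * sinh (2 * q)
      - (e2Fn p q + gFn p q / 2 * (exp (-(2 * p)) + cosh (2 * q))) * (cosh (2 * q) * 2)
      = -rFn p q := by
  rw [e2Fn, rFn, gFn, uFn, ← cosh_add_sinh (2 * p), ← cosh_sub_sinh (2 * p)]
  linear_combination
    ((cosh (2 * p) + sinh (2 * p)) * (sinh (2 * p) * lFn p q - 2 * p * cosh (2 * p)) + lFn p q)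
      * sinh_sq (2 * q)
    + (sinh (2 * p) * lFn p q - 2 * p * cosh (2 * p)) * cosh (2 * q) * sinh_sq (2 * p)
    + lFn p q * cosh_sq (2 * p)

lemma e2Fn_lower {p q : ℝ} (hp : 0 ≤ p) :
    p + 1 / 2 - q * sinh (2 * q) ≤ e2Fn p q := by
  have hl := lFn_sub p q
  set c := cosh (2 * q) with hcdef
  set y := exp (-(2 * p)) with hy
  have hy0 : 0 < y := exp_pos _
  have hc : 1 ≤ c := one_le_cosh _
  set Q := 1 + 2 * c * y + y ^ 2 with hQ
  have hQ0 : 0 < Q := by positivity
  have he : e2Fn p q = uFn p q / 2 * (lFn p q - 2 * p) + p * (y + c) - q * sinh (2 * q) := by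
    rw [e2Fn, hy, ← cosh_sub_sinh, uFn, hcdef]; ring
  have hu : uFn p q = Q / (2 * y) := by
    rw [uFn, cosh_eq, hy, exp_neg, hQ, hcdef, hy, exp_neg]; field_simp; ring
  have h1 : (1 / 2 : ℝ) ≤ uFn p q / 2 * (lFn p q - 2 * p) := by
    rw [hl, hu]
    refine le_trans ?_ (mul_le_mul_of_nonneg_left (one_sub_inv_le_log_of_pos hQ0) (by positivity))
    rw [show Q / (2 * y) / 2 * (1 - Q⁻¹) = (Q - 1) / (4 * y) by field_simp; ring,
      le_div_iff₀ (by positivity), hQ]
    nlinarith
  have h2 : p ≤ p * (y + c) := le_mul_of_one_le_right hp (by linarith)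
  linarith

lemma zFn_atom (a b : ℝ) : zFn a b a b = 0 := by
  rw [zFn, certLam]; ring

lemma zFn_abs_le {a b p q : ℝ} (ha : 0 ≤ a) (hb : 0 < b) (hq : 0 < q) :
    zFn a b |p| q ≤ zFn a b p q := by
  have he : e2Fn |p| q = e2Fn p q := by
    rcases abs_choice p with h | h <;> simp [h, e2Fn_neg]
  have : exp (-(2 * |p|)) ≤ exp (-(2 * p)) := exp_le_exp.2 (by linarith [le_abs_self p])
  have := certMu_pos (a := a) hb
  have := certNu_nonneg ha b
  have : 0 < sinh (2 * q) := sinh_pos_iff.2 (by linarith)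
  unfold zFn
  rw [he]
  gcongr

theorem zFn_nonneg {a b : ℝ} (ha : 0 ≤ a) (hb : 0 < b) {p0 q0 : ℝ} (hq0 : 0 < q0) :
    0 ≤ zFn a b p0 q0 := by
  by_contra hneg
  push Not at hneg
  have hmu := certMu_pos (a := a) hb
  have hnu := certNu_nonneg ha b
  have hlam := certLam_nonneg ha hb
  set μ := certMu a b with hμ
  set lam := certLam a b with hlamdef
  have hF : ∀ p q, μ * e2Fn p q
      ≤ μ * (e2Fn p q + certNu a b * (exp (-(2 * p)) + cosh (2 * q))) := fun p q =>
    mul_le_mul_of_nonneg_left (le_add_of_nonneg_right (by positivity)) hmu.le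
  -- the box
  set e := min q0 (min (1 / 4) (arsinh (min (1 / 2) (μ / (4 * (lam + 1)))) / 2)) with he_def
  have he0 : 0 < e := by
    have : 0 < arsinh (min (1 / 2) (μ / (4 * (lam + 1)))) :=
      arsinh_pos_iff.2 (lt_min (by norm_num) (by positivity))
    simp only [he_def, lt_min_iff]
    exact ⟨hq0, by norm_num, by positivity⟩
  have hse : sinh (2 * e) ≤ min (1 / 2) (μ / (4 * (lam + 1))) := by
    conv_rhs => rw [← sinh_arsinh (min (1 / 2) (μ / (4 * (lam + 1))))]
    rw [sinh_le_sinh]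
    have := (min_le_right q0 _).trans (min_le_right (1 / 4)
      (arsinh (min (1 / 2) (μ / (4 * (lam + 1)))) / 2))
    rw [he_def]; linarith
  have he4 : e ≤ 1 / 4 := (min_le_right _ _).trans (min_le_left _ _)
  set B := q0 + lam + 1 with hB
  have heB : e < B := lt_of_le_of_lt (min_le_left _ _) (by linarith)
  have hsB : 0 < sinh (2 * B) := sinh_pos_iff.2 (by linarith)
  set A := |p0| + B * sinh (2 * B) + lam * sinh (2 * B) / μ + 1 with hA
  have hA0 : 0 < A := by positivity
  -- the gap is nonnegative on the sides of the box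
  have hlow : ∀ p, 0 ≤ p → 0 ≤ zFn a b p e := by
    intro p hp
    have hs : 0 < sinh (2 * e) := sinh_pos_iff.2 (by linarith)
    have h1 : e * sinh (2 * e) ≤ 1 / 4 * (1 / 2) :=
      mul_le_mul he4 (hse.trans (min_le_left _ _)) hs.le (by norm_num)
    have h2 : (1 : ℝ) / 4 ≤ e2Fn p e := by linarith [e2Fn_lower (q := e) hp]
    have h3 : lam + 1 ≤ μ * (1 / 4) / sinh (2 * e) := by
      rw [le_div_iff₀ hs]
      have := hse.trans (min_le_right _ _)
      rw [le_div_iff₀ (by positivity)] at this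
      linarith
    have h4 : μ * (1 / 4) / sinh (2 * e)
        ≤ μ * (e2Fn p e + certNu a b * (exp (-(2 * p)) + cosh (2 * e))) / sinh (2 * e) :=
      div_le_div_of_nonneg_right ((mul_le_mul_of_nonneg_left h2 hmu.le).trans (hF p e)) hs.le
    unfold zFn
    linarith
  have hhigh : ∀ p, 0 ≤ zFn a b p B := fun p => by
    have h : 0 ≤ μ * (e2Fn p B + certNu a b * (exp (-(2 * p)) + cosh (2 * B))) / sinh (2 * B) :=
      div_nonneg ((mul_nonneg hmu.le (e2Fn_nonneg p B)).trans (hF p B)) hsB.le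
    unfold zFn
    linarith
  have hright : ∀ q, e ≤ q → q ≤ B → 0 ≤ zFn a b A q := by
    intro q h1 h2
    have hq : 0 < q := he0.trans_le h1
    have hs : 0 < sinh (2 * q) := sinh_pos_iff.2 (by linarith)
    have hss : sinh (2 * q) ≤ sinh (2 * B) := sinh_le_sinh.2 (by linarith)
    have h4 : q * sinh (2 * q) ≤ B * sinh (2 * B) := mul_le_mul h2 hss hs.le (by linarith)
    have h3 : lam * sinh (2 * B) / μ ≤ e2Fn A q := by
      linarith [e2Fn_lower (q := q) hA0.le, abs_nonneg p0]
    rw [div_le_iff₀ hmu] at h3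
    have h5 : lam ≤ μ * (e2Fn A q + certNu a b * (exp (-(2 * A)) + cosh (2 * q)))
        / sinh (2 * q) := by
      rw [le_div_iff₀ hs]
      linarith [hF A q, mul_le_mul_of_nonneg_left hss hlam]
    unfold zFn
    linarith
  -- the minimum on the box
  have hcont : ContinuousOn (fun z : ℝ × ℝ => zFn a b z.1 z.2) (Icc (-A) A ×ˢ Icc e B) := by
    have hne : ∀ z ∈ Icc (-A) A ×ˢ Icc e B, sinh (2 * z.2) ≠ 0 := fun z hz =>
      (sinh_pos_iff.2 (by linarith [hz.2.1])).ne'
    have hl : Continuous fun z : ℝ × ℝ => lFn z.1 z.2 := by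
      unfold lFn
      refine Continuous.log ?_ fun z => by have := uFn_pos z.1 z.2; positivity
      unfold uFn; fun_prop
    unfold zFn e2Fn uFn
    refine ((continuous_snd.sub continuous_const).continuousOn).add
      (ContinuousOn.div ?_ (by fun_prop) hne)
    exact Continuous.continuousOn (by fun_prop)
  obtain ⟨⟨p1, q1⟩, ⟨hp1, hq1⟩, hmin⟩ :=
    (isCompact_Icc.prod isCompact_Icc).exists_isMinOn
      (⟨(0, e), ⟨by constructor <;> linarith, le_rfl, heB.le⟩⟩ :
        (Icc (-A) A ×ˢ Icc e B).Nonempty) hcont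
  have hq1pos : 0 < q1 := he0.trans_le hq1.1
  have hp2 : |p1| ≤ A := abs_le.2 hp1
  have hmin' : ∀ p ∈ Icc (-A) A, ∀ q ∈ Icc e B, zFn a b |p1| q1 ≤ zFn a b p q :=
    fun p hp q hq => (zFn_abs_le ha hb hq1pos).trans (hmin (mk_mem_prod hp hq))
  have hval : zFn a b |p1| q1 < 0 := by
    refine lt_of_le_of_lt (hmin' p0 (abs_le.1 ?_) q0 ⟨min_le_left _ _, by linarith⟩) hneg
    have : 0 ≤ B * sinh (2 * B) + lam * sinh (2 * B) / μ := by positivity
    linarith
  set p2 := |p1| with hp2def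
  have hp20 : 0 ≤ p2 := abs_nonneg _
  have hqe : e < q1 := hq1.1.lt_of_ne fun h => by
    subst h; linarith [hlow p2 hp20]
  have hqB : q1 < B := hq1.2.lt_of_ne fun h => by
    subst h; linarith [hhigh p2]
  have hpA : p2 < A := hp2.lt_of_ne fun h => by
    rw [h] at hval; linarith [hright q1 hq1.1 hq1.2]
  -- it is a critical point
  have hloc1 : IsLocalMin (fun t => zFn a b t q1) p2 :=
    IsMinOn.isLocalMin (s := Icc (-A) A) (fun t ht => hmin' t ht q1 hq1)
      (Icc_mem_nhds (by linarith) hpA)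
  have hd1 := hloc1.hasDerivAt_eq_zero (hasDerivAt_zFn_fst a b p2 q1)
  have hs1 : 0 < sinh (2 * q1) := sinh_pos_iff.2 (by linarith)
  have hg : gFn p2 q1 = 2 * certNu a b := by
    simp only [div_eq_zero_iff, mul_eq_zero, (exp_pos _).ne', hs1.ne', or_false,
      sub_eq_zero] at hd1
    exact hd1.resolve_left hmu.ne'
  have hloc2 : IsLocalMin (fun t => zFn a b p2 t) q1 :=
    IsMinOn.isLocalMin (s := Icc e B)
      (fun t ht => hmin' p2 ⟨by linarith, hpA.le⟩ t ht) (Icc_mem_nhds hqe hqB)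
  have hd2 := hloc2.hasDerivAt_eq_zero (hasDerivAt_zFn_snd a b p2 hq1pos)
  rw [show certNu a b = gFn p2 q1 / 2 by rw [hg]; ring, slope_on_curve] at hd2
  have hsb : 0 < sinh (2 * b) := sinh_pos_iff.2 (by linarith)
  have hr : rFn p2 q1 / sinh (2 * q1) ^ 2 = rFn a b / sinh (2 * b) ^ 2 := by
    rw [certMu_eq] at hd2
    have := rFn_pos a b
    field_simp at hd2 ⊢
    linarith
  have hg' : gFn p2 q1 = gFn a b := by rw [hg, certNu_eq]; ring
  -- the critical point is the atom
  rcases lt_trichotomy q1 b with h | h | h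
  · linarith [crit_aux hp20 ha hq1pos h hg']
  · subst h
    have : p2 = a := (strictMonoOn_gFn q1).injOn hp20 ha hg'
    rw [this, zFn_atom] at hval
    exact lt_irrefl _ hval
  · linarith [crit_aux ha hp20 hb h hg'.symm]

/-- The edge cost dominates the affine certificate of every reference atom. -/
theorem cert_pointwise {a b : ℝ} (ha : 0 ≤ a) (hb : 0 < b) {x y : ℝ}
    (hx : x ∈ Ioo (-1 : ℝ) 1) (hy : y ∈ Ioo (-1 : ℝ) 1) :
    certLam a b * ((x - y) / 2)
        - certMu a b * ((ent x + ent y) / 2 + certNu a b * (1 - (x + y) / 2))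
      ≤ (x - y) * (artanh x - artanh y) / 4 := by
  obtain ⟨p, q, hpq1, hpq2⟩ : ∃ p q, p + q = artanh x ∧ p - q = artanh y :=
    ⟨(artanh x + artanh y) / 2, (artanh x - artanh y) / 2, by ring, by ring⟩
  have hx' : x = tanh (p + q) := by rw [hpq1, tanh_artanh hx]
  have hy' : y = tanh (p - q) := by rw [hpq2, tanh_artanh hy]
  rw [← hpq1, ← hpq2, hx', hy', atom_sub, atom_compl, atom_ent]
  have hu := uFn_pos p q
  have hmu := certMu_pos (a := a) hb
  have hnu := certNu_nonneg ha b
  have hlam := certLam_nonneg ha hb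
  have key : 0 ≤ sinh (2 * q) * (q - certLam a b)
      + certMu a b * (e2Fn p q + certNu a b * (exp (-(2 * p)) + cosh (2 * q))) := by
    rcases le_or_gt q 0 with hq | hq
    · have hs : sinh (2 * q) ≤ 0 := sinh_nonpos_iff.2 (by linarith)
      have := e2Fn_nonneg p q
      have := cosh_pos (2 * q)
      have : 0 ≤ sinh (2 * q) * (q - certLam a b) :=
        mul_nonneg_of_nonpos_of_nonpos hs (by linarith)
      positivity
    · have hs : 0 < sinh (2 * q) := sinh_pos_iff.2 (by linarith)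
      have h := mul_nonneg hs.le (zFn_nonneg (p0 := p) ha hb hq)
      rw [zFn, mul_add, mul_div_cancel₀ _ hs.ne'] at h
      exact h
  rw [show tanh (p + q) - tanh (p - q) = 2 * (sinh (2 * q) / uFn p q) by
    linear_combination 2 * atom_sub p q]
  rw [← sub_nonneg]
  have h' : 2 * (sinh (2 * q) / uFn p q) * (p + q - (p - q)) / 4
      - (certLam a b * (sinh (2 * q) / uFn p q)
        - certMu a b * (e2Fn p q / uFn p q
          + certNu a b * ((exp (-(2 * p)) + cosh (2 * q)) / uFn p q)))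
      = (sinh (2 * q) * (q - certLam a b)
          + certMu a b * (e2Fn p q + certNu a b * (exp (-(2 * p)) + cosh (2 * q)))) / uFn p q := by
    field_simp
    ring
  rw [h']
  exact div_nonneg key hu.le

/-- Weighted form of `cert_pointwise`. -/
theorem cert_sum {a b : ℝ} (ha : 0 ≤ a) (hb : 0 < b) {ι : Type} [Fintype ι] (w x y : ι → ℝ)
    (hw : ∀ i, 0 ≤ w i) (hw1 : ∑ i, w i = 1) (hx : ∀ i, x i ∈ Ioo (-1 : ℝ) 1)
    (hy : ∀ i, y i ∈ Ioo (-1 : ℝ) 1) :
    certLam a b * ((∑ i, w i * x i - ∑ i, w i * y i) / 2)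
        - certMu a b * ((∑ i, w i * ent (x i) + ∑ i, w i * ent (y i)) / 2
          + certNu a b * (1 - (∑ i, w i * x i + ∑ i, w i * y i) / 2))
      ≤ (∑ i, w i * ((x i - y i) * (artanh (x i) - artanh (y i)))) / 4 := by
  have h : ∑ i, w i * (certLam a b * ((x i - y i) / 2)
      - certMu a b * ((ent (x i) + ent (y i)) / 2 + certNu a b * (1 - (x i + y i) / 2)))
      ≤ ∑ i, w i * ((x i - y i) * (artanh (x i) - artanh (y i)) / 4) :=
    Finset.sum_le_sum fun i _ => mul_le_mul_of_nonneg_left (cert_pointwise ha hb (hx i) (hy i)) (hw i)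
  calc certLam a b * ((∑ i, w i * x i - ∑ i, w i * y i) / 2)
        - certMu a b * ((∑ i, w i * ent (x i) + ∑ i, w i * ent (y i)) / 2
          + certNu a b * (1 - (∑ i, w i * x i + ∑ i, w i * y i) / 2))
      = ∑ i, (certLam a b / 2 * (w i * x i) - certLam a b / 2 * (w i * y i)
          - certMu a b / 2 * (w i * ent (x i)) - certMu a b / 2 * (w i * ent (y i))
          - certMu a b * certNu a b * w i + certMu a b * certNu a b / 2 * (w i * x i)
          + certMu a b * certNu a b / 2 * (w i * y i)) := by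
        simp only [Finset.sum_add_distrib, Finset.sum_sub_distrib, ← Finset.mul_sum, hw1]
        ring
    _ = _ := Finset.sum_congr rfl fun i _ => by ring
    _ ≤ _ := h
    _ = _ := by rw [Finset.sum_div]; exact Finset.sum_congr rfl fun i _ => by ring

end Vale.Agent.P322
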