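import Vale.Agent.P322.Scalar.Defs

/-!
# Courtade–Kumar: coefficients of the tangent certificate for the edge term

For a reference atom `(x, y) = (tanh (a + b), tanh (a - b))` with `a ≥ 0`, `b > 0`, the edge cost
`(x - y) (artanh x - artanh y) / 4` has the global affine minorant
`certLam * (x - y) / 2 - certMu * ((ent x + ent y) / 2 + certNu * (1 - (x + y) / 2))`,
which is tight at the reference atom.
-/

namespace Vale.Agent.P322

open Real

/-- `cosh 2a + cosh 2b`. -/
noncomputable def uFn (a b : ℝ) : ℝ := cosh (2 * a) + cosh (2 * b)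

/-- `log (2 (cosh 2a + cosh 2b))`. -/
noncomputable def lFn (a b : ℝ) : ℝ := log (2 * uFn a b)

/-- `E2 a b = uFn a b * (ent (tanh (a+b)) + ent (tanh (a-b))) / 2`, in closed form. -/
noncomputable def e2Fn (a b : ℝ) : ℝ :=
  uFn a b * lFn a b / 2 - a * sinh (2 * a) - b * sinh (2 * b)

/-- Tilt of the certificate. -/
noncomputable def certNu (a b : ℝ) : ℝ :=
  exp (2 * a) * (sinh (2 * a) * lFn a b - 2 * a * cosh (2 * a)) / 2

/-- Entropy price of the certificate. -/
noncomputable def certMu (a b : ℝ) : ℝ :=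
  sinh (2 * b) ^ 2 / (exp (2 * a) * uFn a b * (lFn a b - 2 * a))

/-- Slope of the certificate. -/
noncomputable def certLam (a b : ℝ) : ℝ :=
  b + certMu a b * (e2Fn a b + certNu a b * (exp (-(2 * a)) + cosh (2 * b))) / sinh (2 * b)

end Vale.Agent.P322
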