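import Vale.Agent.P322.Scalar.Compare

/-!
# Courtade–Kumar: the saturation profile

`Phi2` is `Phi` continued linearly beyond `1/4`; it is the upper envelope of the tangents of `Phi`
at points of `(0, 1/4]`. `persp2` is its perspective.
-/

namespace Vale.Agent.P322

open Real Set

/-- `Phi` continued by its tangent beyond `1/4`. -/
noncomputable def Phi2 (e : ℝ) : ℝ :=
  if e ≤ 1 / 4 then Phi e else Phi (1 / 4) - rate (1 / 4) * (e - 1 / 4)

/-- The value at `0` of the tangent of `Phi` at `e`. -/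
noncomputable def alphaT (e : ℝ) : ℝ := Phi e + rate e * e

/-- The contact point of the tangent defining `Phi2 e`. -/
noncomputable def eCap (e : ℝ) : ℝ := min e (1 / 4)

/-- Perspective of `Phi2`. -/
noncomputable def persp2 (u H : ℝ) : ℝ := u * Phi2 (H / u)

lemma quarter_le_log_two : (1 / 4 : ℝ) ≤ log 2 := by linarith [log_two_gt_d9]

lemma eCap_mem {x : ℝ} (hx : 0 < x) : eCap x ∈ Ioc (0 : ℝ) (1 / 4) :=
  ⟨lt_min hx (by norm_num), min_le_right _ _⟩

lemma Phi2_eq_tangent (x : ℝ) : Phi2 x = alphaT (eCap x) - rate (eCap x) * x := by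
  unfold Phi2 alphaT eCap
  split_ifs with h
  · rw [min_eq_left h]; ring
  · rw [min_eq_right (le_of_not_ge h)]; ring

lemma tangent_le_Phi {e x : ℝ} (he : e ∈ Ioc (0 : ℝ) (1 / 4)) (hx : 0 < x) :
    alphaT e - rate e * x ≤ Phi x := by
  have := Phi_tangent ⟨he.1, he.2.trans quarter_le_log_two⟩ hx
  unfold alphaT
  linarith

lemma Phi2_le_Phi {x : ℝ} (hx : 0 < x) : Phi2 x ≤ Phi x := by
  rw [Phi2_eq_tangent]; exact tangent_le_Phi (eCap_mem hx) hx

lemma tangent_le_Phi2 {e x : ℝ} (he : e ∈ Ioc (0 : ℝ) (1 / 4)) (hx : 0 < x) :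
    alphaT e - rate e * x ≤ Phi2 x := by
  rcases le_or_gt x (1 / 4) with h | h
  · rw [Phi2, if_pos h]; exact tangent_le_Phi he hx
  · rw [Phi2, if_neg (not_le.2 h)]
    have h1 := tangent_le_Phi he (show (0 : ℝ) < 1 / 4 by norm_num)
    have h2 : rate (1 / 4) ≤ rate e := antitoneOn_rate he.1 (by norm_num : (0 : ℝ) < 1 / 4) he.2
    nlinarith

lemma convexOn_Phi2 : ConvexOn ℝ (Ioi 0) Phi2 := by
  refine ⟨convex_Ioi 0, fun x hx y hy a b ha hb hab => ?_⟩
  have hz : 0 < a * x + b * y := convex_Ioi (0 : ℝ) hx hy ha hb hab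
  simp only [smul_eq_mul]
  set e := eCap (a * x + b * y) with he
  have h1 := tangent_le_Phi2 (eCap_mem hz) hx
  have h2 := tangent_le_Phi2 (eCap_mem hz) hy
  rw [← he] at h1 h2
  calc Phi2 (a * x + b * y) = a * (alphaT e - rate e * x) + b * (alphaT e - rate e * y) := by
        rw [Phi2_eq_tangent, ← he, show b = 1 - a by linarith]; ring
    _ ≤ a * Phi2 x + b * Phi2 y := by gcongr

lemma antitoneOn_Phi2 : AntitoneOn Phi2 (Ioi 0) := by
  intro x hx y hy hxy
  have h := tangent_le_Phi2 (eCap_mem hy) hx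
  rw [Phi2_eq_tangent y]
  nlinarith [two_le_rate (eCap y)]

lemma alphaT_nonneg {e : ℝ} (he : 0 ≤ e) : 0 ≤ alphaT e := by
  have := Phi_nonneg e; have := two_le_rate e
  unfold alphaT; positivity

lemma alphaT_anti {e e' : ℝ} (he : 0 < e) (h : e ≤ e') (h' : e' ≤ 1 / 4) :
    alphaT e' ≤ alphaT e := by
  have h1 := tangent_le_Phi (e := e') ⟨he.trans_le h, h'⟩ he
  have h2 : rate e' ≤ rate e := antitoneOn_rate he (show (0 : ℝ) < e' from he.trans_le h) h
  unfold alphaT at h1 ⊢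
  nlinarith

lemma alphaT_eCap_anti {x y : ℝ} (hx : 0 < x) (h : x ≤ y) :
    alphaT (eCap y) ≤ alphaT (eCap x) :=
  alphaT_anti (eCap_mem hx).1 (min_le_min h le_rfl) (min_le_right _ _)

lemma persp2_eq_tangent {u H : ℝ} (hu : u ≠ 0) :
    persp2 u H = u * alphaT (eCap (H / u)) - rate (eCap (H / u)) * H := by
  rw [persp2, Phi2_eq_tangent]; field_simp

lemma tangent_le_persp2 {e u H : ℝ} (he : e ∈ Ioc (0 : ℝ) (1 / 4)) (hu : 0 < u) (hH : 0 < H) :
    u * alphaT e - rate e * H ≤ persp2 u H := by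
  have h := mul_le_mul_of_nonneg_left (tangent_le_Phi2 he (div_pos hH hu)) hu.le
  refine le_trans (le_of_eq ?_) h
  field_simp

lemma persp2_mono {u u' H : ℝ} (hu : 0 < u) (h : u ≤ u') (hH : 0 < H) :
    persp2 u H ≤ persp2 u' H := by
  have he := eCap_mem (div_pos hH hu)
  refine le_trans ?_ (tangent_le_persp2 he (hu.trans_le h) hH)
  rw [persp2_eq_tangent hu.ne']
  have := alphaT_nonneg he.1.le
  nlinarith

/-- Joint convexity of `persp2`. -/
lemma persp2_convex {a b u0 u1 H0 H1 : ℝ} (ha : 0 ≤ a) (hb : 0 ≤ b) (hu0 : 0 < u0) (hu1 : 0 < u1)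
    (hH0 : 0 < H0) (hH1 : 0 < H1) (hu : 0 < a * u0 + b * u1) (hH : 0 < a * H0 + b * H1) :
    persp2 (a * u0 + b * u1) (a * H0 + b * H1) ≤ a * persp2 u0 H0 + b * persp2 u1 H1 := by
  have he := eCap_mem (div_pos hH hu)
  rw [persp2_eq_tangent hu.ne']
  have h1 := mul_le_mul_of_nonneg_left (tangent_le_persp2 he hu0 hH0) ha
  have h2 := mul_le_mul_of_nonneg_left (tangent_le_persp2 he hu1 hH1) hb
  linarith

/-- `1 - 7 d^2 / 8 - d^4 / 8`, the child weight of the centred state. -/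
noncomputable def uChild (d : ℝ) : ℝ := 1 - 7 / 8 * d ^ 2 - d ^ 4 / 8

lemma uChild_pos {d : ℝ} (h0 : 0 ≤ d) (h1 : d < 1) : 0 < uChild d := by
  have h2 : d ^ 2 < 1 := by nlinarith
  unfold uChild; nlinarith

lemma satWeight_le_one (m : ℝ) : satWeight m ≤ 1 := by
  unfold satWeight; nlinarith [sq_nonneg m, mul_nonneg (sq_nonneg m) (sq_nonneg m)]

/-- The children of `(m, d)` dominate the children of the centred state `(0, d / satWeight m)`. -/
theorem mul_uChild_le {m d : ℝ} (hm : m ∈ Ioo (-1 : ℝ) 1) :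
    satWeight m * uChild (d / satWeight m)
      ≤ (satWeight (m + d) + satWeight (m - d)) / 2 := by
  have hw := satWeight_pos hm
  have hw1 := satWeight_le_one m
  have hs : 0 ≤ m ^ 2 := sq_nonneg m
  have hs1 : m ^ 2 ≤ 1 := by nlinarith [hm.1, hm.2]
  have key : (7 / 8 + 3 * m ^ 2 / 4) * satWeight m ≤ 7 / 8 := by
    unfold satWeight
    nlinarith [mul_nonneg hs hs, mul_nonneg (mul_nonneg hs hs) hs,
      mul_le_mul_of_nonneg_left hs1 hs]
  rw [satWeight_avg, ← sub_nonneg]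
  set w := satWeight m with hwdef
  have e : w - d ^ 2 * (7 / 8 + 3 * m ^ 2 / 4 + d ^ 2 / 8) - w * uChild (d / w)
      = d ^ 2 / w * (7 / 8 - (7 / 8 + 3 * m ^ 2 / 4) * w) + d ^ 4 / (8 * w ^ 3) * (1 - w ^ 3) := by
    unfold uChild; field_simp; ring
  rw [e]
  have : w ^ 3 ≤ 1 := pow_le_one₀ hw.le hw1
  exact add_nonneg (mul_nonneg (by positivity) (sub_nonneg.2 key))
    (mul_nonneg (by positivity) (sub_nonneg.2 this))

/-- The saturation step through the children's saturation terms, reduced to the centred state. -/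
theorem persp2_transfer {m d H K : ℝ} (hm : m ∈ Ioo (-1 : ℝ) 1) (hd : 0 ≤ d)
    (hdw : d < satWeight m) (hH : 0 < H)
    (h : Phi2 (H / satWeight m)
      ≤ K / satWeight m + persp2 (uChild (d / satWeight m)) (H / satWeight m)) :
    persp2 (satWeight m) H
      ≤ K + persp2 ((satWeight (m + d) + satWeight (m - d)) / 2) H := by
  have hw := satWeight_pos hm
  set w := satWeight m with hwdef
  have hu := uChild_pos (div_nonneg hd hw.le) ((div_lt_one hw).2 hdw)
  refine le_trans ?_ (add_le_add le_rfl (persp2_mono (mul_pos hw hu) (mul_uChild_le hm) hH))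
  have h' := mul_le_mul_of_nonneg_left h hw.le
  rw [mul_add, mul_div_cancel₀ _ hw.ne'] at h'
  refine h'.trans (le_of_eq ?_)
  rw [persp2, persp2, div_div]
  ring

end Vale.Agent.P322
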