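import Vale.Agent.P322.Scalar.Phi2

/-!
# Courtade–Kumar: an atom dominates every tangent of the saturation term

For `0 ≤ a ≤ b`, `1 ≤ b` the edge cost of the atom is at least each tangent of the saturation
term at its midpoint.
-/

namespace Vale.Agent.P322

open Real Set

/-- `log (2 cosh X) - X coth X ≥ -0.474` for `0 < X ≤ 1`. -/
lemma tilt_base_small {X : ℝ} (h0 : 0 < X) (h1 : X ≤ 1) :
    -0.474 * sinh X ≤ sinh X * log (2 * cosh X) - X * cosh X := by
  have hs : 0 < sinh X := sinh_pos_iff.2 h0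
  have hq : (X + X ^ 2) / (1 + X + X ^ 2) ≤ tanh X := by
    rw [tanh_eq_sinh_div_cosh, sinh_eq, cosh_eq, exp_neg]
    have hE := quadratic_le_exp_of_nonneg (show 0 ≤ 2 * X by linarith)
    have he : exp (2 * X) = exp X * exp X := by rw [← exp_add]; ring_nf
    have hp := exp_pos X
    rw [div_le_div_iff₀ (by positivity) (by positivity)]
    field_simp
    nlinarith
  have hlc : log 2 + X ^ 2 / (2 + X ^ 2) ≤ log (2 * cosh X) := by
    rw [log_mul two_ne_zero (cosh_pos X).ne']
    have h : 1 + X ^ 2 / 2 ≤ cosh X := by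
      rw [cosh_eq]
      have h1 := sum_le_exp_of_nonneg h0.le 4
      norm_num [Finset.sum_range_succ, Nat.factorial] at h1
      have h2 : 1 - X + X ^ 2 / 2 - X ^ 3 / 6 ≤ exp (-X) := by
        have hd : ∀ y : ℝ, HasDerivAt (fun y => exp (-y) - (1 - y + y ^ 2 / 2 - y ^ 3 / 6))
            (-exp (-y) + 1 - y + y ^ 2 / 2) y := by
          intro y
          refine ((hasDerivAt_id' y).neg.exp.sub ((((hasDerivAt_id' y).const_sub 1).add
            ((hasDerivAt_pow 2 y).div_const 2)).sub ((hasDerivAt_pow 3 y).div_const 6))).congr_deriv ?_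
          simp only [Pi.neg_apply]
          push_cast
          ring
        have hm : MonotoneOn (fun y => exp (-y) - (1 - y + y ^ 2 / 2 - y ^ 3 / 6)) (Ici 0) := by
          refine monotoneOn_of_hasDerivWithinAt_nonneg (convex_Ici 0)
            (fun y _ => (hd y).continuousAt.continuousWithinAt)
            (fun y _ => (hd y).hasDerivWithinAt) fun y hy => ?_
          have hy0 : 0 ≤ y := interior_subset (s := Ici (0 : ℝ)) hy
          have h := quadratic_le_exp_of_nonneg hy0
          have he : exp (-y) * exp y = 1 := by rw [← exp_add]; simp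
          have hp := exp_pos (-y)
          have h' := mul_le_mul_of_nonneg_left h hp.le
          nlinarith [sq_nonneg (y ^ 2)]
        have := hm self_mem_Ici (show X ∈ Ici 0 from h0.le) h0.le
        simp at this
        linarith
      linarith
    have := log_le_log (by positivity) h
    have h3 := one_sub_inv_le_log_of_pos (show (0 : ℝ) < 1 + X ^ 2 / 2 by positivity)
    have e : 1 - (1 + X ^ 2 / 2)⁻¹ = X ^ 2 / (2 + X ^ 2) := by field_simp; ring
    linarith
  have hc : X * cosh X ≤ sinh X * ((1 + X + X ^ 2) / (1 + X)) := by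
    rw [tanh_eq_sinh_div_cosh, div_le_div_iff₀ (by positivity) (cosh_pos X)] at hq
    rw [mul_div_assoc', le_div_iff₀ (by linarith)]
    linarith
  have hk : -0.474 ≤ log (2 * cosh X) - (1 + X + X ^ 2) / (1 + X) := by
    have hb : (1 + X + X ^ 2) / (1 + X) = 1 + X ^ 2 / (1 + X) := by field_simp
    have hd : X ^ 2 / (1 + X) - X ^ 2 / (2 + X ^ 2) ≤ 1 / 6 := by
      rw [div_sub_div _ _ (by linarith) (by positivity), div_le_iff₀ (by positivity)]
      nlinarith [mul_nonneg h0.le (sub_nonneg.2 h1), pow_nonneg h0.le 3,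
        mul_nonneg (mul_nonneg h0.le h0.le) (sub_nonneg.2 h1),
        mul_nonneg (pow_nonneg h0.le 3) (sub_nonneg.2 h1)]
    have := log_two_gt_d9
    rw [hb]
    linarith
  have := mul_le_mul_of_nonneg_left hk hs.le
  linarith

/-- `log (2 cosh X) - X coth X ≥ -0.195` for `1 ≤ X`. -/
lemma tilt_base_large {X : ℝ} (h1 : 1 ≤ X) :
    -0.195 * sinh X ≤ sinh X * log (2 * cosh X) - X * cosh X := by
  have hs : 0 < sinh X := sinh_pos_iff.2 (by linarith)
  set q := exp (-(2 * X)) with hq
  have hq0 : 0 < q := exp_pos _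
  have hlog : log (2 * cosh X) = X + log (1 + q) := by
    rw [show 2 * cosh X = exp X * (1 + q) by
      rw [hq, cosh_eq, two_mul X, neg_add, exp_add, exp_neg]; field_simp,
      log_mul (exp_pos X).ne' (by positivity), log_exp]
  have hsc : sinh X - cosh X = -(sinh X * (2 * q / (1 - q))) := by
    have h2 : q < 1 := exp_lt_one_iff.2 (by linarith)
    have : (1 : ℝ) - q ≠ 0 := by linarith
    field_simp
    rw [hq, sinh_eq, cosh_eq, two_mul X, neg_add, exp_add, exp_neg]
    have := exp_pos X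
    field_simp
    ring
  have hl : q / (1 + q) ≤ log (1 + q) := by
    have := one_sub_inv_le_log_of_pos (show (0 : ℝ) < 1 + q by positivity)
    have e : 1 - (1 + q)⁻¹ = q / (1 + q) := by field_simp; ring
    linarith
  have hq1 : q ≤ 0.1354 := by
    refine (exp_le_exp.2 (show -(2 * X) ≤ -2 by linarith)).trans ?_
    rw [exp_neg, inv_le_comm₀ (exp_pos _) (by norm_num), show (2 : ℝ) = 1 + 1 by norm_num, exp_add]
    have := exp_one_gt_d9
    calc (0.1354 : ℝ)⁻¹ ≤ 2.7182818283 * 2.7182818283 := by norm_num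
      _ ≤ _ := by gcongr
  have hk : -0.195 ≤ q / (1 + q) - X * (2 * q / (1 - q)) := by
    have a1 : 2 * q / (1 - q) ≤ 2.314 * q := by
      rw [div_le_iff₀ (by linarith)]; nlinarith
    have a2 : 0.8807 * q ≤ q / (1 + q) := by
      rw [le_div_iff₀ (by positivity)]; nlinarith
    have a3 : q * (2.314 * X - 0.8807) ≤ 0.1354 * 1.4333 := by
      have he : q * exp (2 * (X - 1)) = exp (-2) := by rw [hq, ← exp_add]; ring_nf
      have h2 := add_one_le_exp (2 * (X - 1))
      have h3 : 2.314 * X - 0.8807 ≤ 1.4333 * exp (2 * (X - 1)) := by linarith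
      have h4 : exp (-2 : ℝ) ≤ 0.1354 := by
        rw [exp_neg, inv_le_comm₀ (exp_pos _) (by norm_num), show (2 : ℝ) = 1 + 1 by norm_num,
          exp_add]
        have := exp_one_gt_d9
        calc (0.1354 : ℝ)⁻¹ ≤ 2.7182818283 * 2.7182818283 := by norm_num
          _ ≤ _ := by gcongr
      calc q * (2.314 * X - 0.8807) ≤ q * (1.4333 * exp (2 * (X - 1))) :=
            mul_le_mul_of_nonneg_left h3 hq0.le
        _ = 1.4333 * exp (-2) := by rw [← he]; ring
        _ ≤ _ := by linarith
    have a4 := mul_le_mul_of_nonneg_left a1 (show 0 ≤ X by linarith)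
    linarith
  have h := mul_le_mul_of_nonneg_left (hk.trans (by linarith :
    q / (1 + q) - X * (2 * q / (1 - q)) ≤ log (1 + q) - X * (2 * q / (1 - q)))) hs.le
  rw [hlog]
  have e : X * sinh X - X * cosh X = -(X * (sinh X * (2 * q / (1 - q)))) := by
    rw [← mul_sub, hsc]; ring
  linarith

/-- The sign of the derivative in `a`. -/
lemma tilt_deriv_key {a b : ℝ} (ha : 0 < a) (hab : a ≤ b) (hb : 1 ≤ b) :
    2 * sinh (2 * a) * (1 - 7 / 4 * (cosh (2 * a) / uFn a b)
        + 7 / 8 * (cosh (2 * a) / uFn a b) ^ 2)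
      ≤ 7 / 4 * (sinh (2 * a) * lFn a b - 2 * a * cosh (2 * a)) := by
  have hC := cosh_pos (2 * a)
  have hu := uFn_pos a b
  have hs : 0 < sinh (2 * a) := sinh_pos_iff.2 (by linarith)
  set k := cosh (2 * a) / uFn a b with hk
  have hk0 : 0 < k := div_pos hC hu
  have hCc : cosh (2 * a) ≤ cosh (2 * b) := by
    rw [cosh_le_cosh, abs_of_nonneg (by linarith), abs_of_nonneg (by linarith)]; linarith
  have hk2 : k ≤ 1 / 2 := by
    rw [hk, div_le_iff₀ hu, uFn]; linarith
  have hl : lFn a b = log (2 * cosh (2 * a)) - log k := by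
    rw [hk, log_div hC.ne' hu.ne', lFn, log_mul two_ne_zero hC.ne', log_mul two_ne_zero hu.ne']
    ring
  have hL := log_two_gt_d9
  suffices h : ∃ g, g * sinh (2 * a)
      ≤ sinh (2 * a) * log (2 * cosh (2 * a)) - 2 * a * cosh (2 * a) ∧
        2 * (1 - 7 / 4 * k + 7 / 8 * k ^ 2) ≤ 7 / 4 * (g - log k) by
    obtain ⟨g, hg, hf⟩ := h
    have := mul_le_mul_of_nonneg_left hf hs.le
    rw [hl]
    linarith
  rcases le_or_gt (2 * a) 1 with h | h
  · refine ⟨-0.474, tilt_base_small (by linarith) h, ?_⟩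
    have hk3 : k ≤ 0.292 := by
      have h1 : cosh (2 * a) ≤ cosh 1 := by
        rw [cosh_le_cosh, abs_of_nonneg (by linarith), abs_of_nonneg (by norm_num)]; linarith
      have h2 : cosh 2 ≤ cosh (2 * b) := by
        rw [cosh_le_cosh, abs_of_nonneg (by norm_num), abs_of_nonneg (by linarith)]; linarith
      have h3 : cosh 2 = 2 * cosh 1 ^ 2 - 1 := by
        rw [show (2 : ℝ) = 2 * 1 by norm_num, cosh_two_mul, sinh_sq]; ring
      have h4 : cosh 1 ≤ 1.5433 ∧ 1.543 ≤ cosh 1 := by
        rw [cosh_eq, exp_neg]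
        have h5 := exp_one_gt_d9; have h6 := exp_one_lt_d9
        have h7 : (exp 1)⁻¹ ≤ (2.7182818283 : ℝ)⁻¹ := inv_anti₀ (by norm_num) h5.le
        have h8 : (2.7182818286 : ℝ)⁻¹ ≤ (exp 1)⁻¹ := inv_anti₀ (exp_pos _) h6.le
        norm_num at h5 h6 h7 h8 ⊢
        constructor <;> linarith
      rw [hk, div_le_iff₀ hu, uFn]
      nlinarith
    have hlk : log k ≤ log 0.292 + (k / 0.292 - 1) := by
      have := log_le_sub_one_of_pos (show 0 < k / 0.292 by positivity)
      rw [log_div hk0.ne' (by norm_num)] at this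
      linarith
    have h292 : log (0.292 : ℝ) ≤ -1.23 := by
      rw [log_le_iff_le_exp (by norm_num), exp_neg, le_inv_comm₀ (by norm_num) (exp_pos _),
        show (1.23 : ℝ) = 1 + 0.23 by norm_num, exp_add]
      have := exp_one_lt_d9
      have h2 : exp (0.23 : ℝ) ≤ 1.2587 := by
        refine (exp_bound' (by norm_num) (by norm_num) (n := 5) (by norm_num)).trans ?_
        norm_num [Finset.sum_range_succ, Nat.factorial]
      calc exp 1 * exp 0.23 ≤ 2.7182818286 * 1.2587 := by gcongr
        _ ≤ _ := by norm_num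
    have hlk2 : log k ≤ -123 / 100 + (k * (250 / 73) - 1) := by
      refine hlk.trans ?_
      rw [show k / (0.292 : ℝ) = k * (250 / 73) by norm_num; ring]
      gcongr
      exact h292.trans_eq (by norm_num)
    have h2 : k * k ≤ 73 / 250 * k :=
      mul_le_mul_of_nonneg_right (hk3.trans_eq (by norm_num)) hk0.le
    norm_num at hk3 ⊢
    linarith
  · refine ⟨-0.195, tilt_base_large h.le, ?_⟩
    have hlk : log k ≤ -log 2 + (2 * k - 1) := by
      have := log_le_sub_one_of_pos (show 0 < 2 * k by linarith)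
      rw [log_mul two_ne_zero hk0.ne'] at this
      linarith
    nlinarith

/-- **An atom dominates each tangent of the saturation term.** -/
theorem edge_ge_tangent {a b e : ℝ} (ha : 0 ≤ a) (hab : a ≤ b) (hb : 1 ≤ b)
    (he : e ∈ Ioc (0 : ℝ) (1 / 4)) :
    satWeight ((tanh (a + b) + tanh (a - b)) / 2) * alphaT e
        - rate e * ((ent (tanh (a + b)) + ent (tanh (a - b))) / 2)
      ≤ b * ((tanh (a + b) - tanh (a - b)) / 2) := by
  set P : ℝ → ℝ := fun t => uFn t b - 7 / 8 * (sinh (2 * t) ^ 2 / uFn t b)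
    - sinh (2 * t) ^ 4 / uFn t b ^ 3 / 8 with hP
  set φ : ℝ → ℝ := fun t => b * sinh (2 * b) - alphaT e * P t + rate e * e2Fn t b with hφ
  have hα := alphaT_nonneg he.1.le
  have hd : ∀ t, HasDerivAt φ
      (rate e * (sinh (2 * t) * lFn t b - 2 * t * cosh (2 * t))
        - alphaT e * (2 * sinh (2 * t) * (1 - 7 / 4 * (cosh (2 * t) / uFn t b)
          + 7 / 8 * (sinh (2 * t) / uFn t b) ^ 2
          - 1 / 2 * (sinh (2 * t) / uFn t b) ^ 2 * (cosh (2 * t) / uFn t b)
          + 3 / 8 * (sinh (2 * t) / uFn t b) ^ 4))) t := by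
    intro t
    have hu := uFn_pos t b
    have hU : HasDerivAt (fun t => uFn t b) (sinh (2 * t) * 2) t :=
      ((hasDerivAt_two_mul t).cosh).add_const _
    have hS : HasDerivAt (fun t => sinh (2 * t)) (cosh (2 * t) * 2) t :=
      (hasDerivAt_two_mul t).sinh
    have hPd := (hU.sub (((hS.pow 2).div hU hu.ne').const_mul (7 / 8 : ℝ))).sub
      (((hS.pow 4).div (hU.pow 3) (pow_ne_zero 3 hu.ne')).div_const 8)
    have := ((hPd.const_mul (alphaT e)).const_sub (b * sinh (2 * b))).add
      ((hasDerivAt_e2Fn_fst t b).const_mul (rate e))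
    refine this.congr_deriv ?_
    simp only [Pi.pow_apply]
    field_simp
    ring
  have hmono : MonotoneOn φ (Icc 0 b) := by
    refine monotoneOn_of_hasDerivWithinAt_nonneg (convex_Icc 0 b)
      (fun t _ => (hd t).continuousAt.continuousWithinAt)
      (fun t _ => (hd t).hasDerivWithinAt) fun t ht => ?_
    rw [interior_Icc] at ht
    have hu := uFn_pos t b
    have key := tilt_deriv_key ht.1 ht.2.le hb
    set S := sinh (2 * t)
    set σ := S / uFn t b with hσ
    set k := cosh (2 * t) / uFn t b with hk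
    have hS0 : 0 ≤ S := sinh_nonneg_iff.2 (by linarith [ht.1])
    have hσ0 : 0 ≤ σ := div_nonneg hS0 hu.le
    have hσk : σ ≤ k := div_le_div_of_nonneg_right (sinh_lt_cosh _).le hu.le
    have hk2 : k ≤ 1 / 2 := by
      have : cosh (2 * t) ≤ cosh (2 * b) := by
        rw [cosh_le_cosh, abs_of_nonneg (by linarith [ht.1]), abs_of_nonneg (by linarith)]
        linarith [ht.2]
      rw [hk, div_le_iff₀ hu, uFn]
      linarith
    have hB : 1 - 7 / 4 * k + 7 / 8 * σ ^ 2 - 1 / 2 * σ ^ 2 * k + 3 / 8 * σ ^ 4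
        ≤ 1 - 7 / 4 * k + 7 / 8 * k ^ 2 := by
      have h1 : σ ^ 2 ≤ k ^ 2 := pow_le_pow_left₀ hσ0 hσk 2
      have h2 : 3 / 8 * σ ^ 2 ≤ 1 / 2 * k := by
        have := mul_le_mul hσk (hσk.trans hk2) hσ0 (hσ0.trans hσk)
        linarith [this, show σ ^ 2 = σ * σ by ring, hσ0.trans hσk]
      have := mul_le_mul_of_nonneg_left h2 (sq_nonneg σ)
      linarith
    have hB' := mul_le_mul_of_nonneg_left hB (show 0 ≤ 2 * S by linarith)
    have hB0 : 0 ≤ 2 * S * (1 - 7 / 4 * k + 7 / 8 * k ^ 2) :=
      mul_nonneg (by linarith) (by nlinarith)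
    have hR : 7 / 4 * alphaT e ≤ rate e := by
      have := tangent_value_le_rate he.1 he.2
      unfold alphaT; linarith
    have hI : 0 ≤ S * lFn t b - 2 * t * cosh (2 * t) := by linarith
    have a1 := mul_le_mul_of_nonneg_right hR hI
    have a2 := mul_le_mul_of_nonneg_left (hB'.trans key) hα
    linarith
  have h := hmono (left_mem_Icc.2 (by linarith)) ⟨ha, hab⟩ ha
  have hu := uFn_pos a b
  have h0 : 0 ≤ φ 0 := by
    have hu0 := uFn_pos 0 b
    have ht := tangent_le_Phi he (ent_tanh_pos b)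
    rw [Phi_ent_tanh (show 0 ≤ b by linarith)] at ht
    have e1 := atom_ent 0 b
    have e2 := atom_sub 0 b
    rw [zero_add, zero_sub, tanh_neg, ent_neg] at e1
    rw [zero_add, zero_sub, tanh_neg] at e2
    have hE : ent (tanh b) = e2Fn 0 b / uFn 0 b := by linarith
    have hT : tanh b = sinh (2 * b) / uFn 0 b := by linarith
    have h' : (alphaT e - rate e * ent (tanh b)) * uFn 0 b ≤ b * tanh b * uFn 0 b :=
      mul_le_mul_of_nonneg_right ht hu0.le
    rw [hE, hT] at h'
    simp only [hφ, hP, mul_zero, sinh_zero]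
    field_simp at h'
    ring_nf at h' ⊢
    norm_num
    linarith
  rw [atom_add, atom_sub, atom_ent]
  have hfin : 0 ≤ φ a := h0.trans h
  have e3 : satWeight (sinh (2 * a) / uFn a b) = P a / uFn a b := by
    rw [satWeight, hP]; field_simp; ring
  rw [e3]
  have e4 : P a / uFn a b * alphaT e - rate e * (e2Fn a b / uFn a b)
      = (alphaT e * P a - rate e * e2Fn a b) / uFn a b := by ring
  rw [e4, ← mul_div_assoc, div_le_div_iff_of_pos_right hu]
  simp only [hφ] at hfin
  linarith

end Vale.Agent.P322
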