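import Vale.Agent.P322.Scalar.OneStep

/-!
# Courtade–Kumar: the saturation term against a single atom

For an atom `x = tanh (a + b)`, `y = tanh (a - b)` the saturation term at the midpoint is paid
by the edge cost of the atom alone.
-/

namespace Vale.Agent.P322

open Real Set

/-- The half difference of an atom is at most `tanh b` times `1 - M²`. -/
lemma atom_half_le (a : ℝ) {b : ℝ} (hb : 0 ≤ b) :
    (tanh (a + b) - tanh (a - b)) / 2
      ≤ tanh b * (1 - ((tanh (a + b) + tanh (a - b)) / 2) ^ 2) := by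
  rw [atom_sub, atom_add]
  have hu := uFn_pos a b
  have ht : tanh b = sinh (2 * b) / (1 + cosh (2 * b)) := by
    rw [tanh_eq_sinh_div_cosh, cosh_two_mul, sinh_two_mul,
      div_eq_div_iff (cosh_pos b).ne' (by positivity), sinh_sq]
    ring
  have hs : 0 ≤ sinh (2 * b) := sinh_nonneg_iff.2 (by linarith)
  have hc := one_le_cosh (2 * b)
  have hC := one_le_cosh (2 * a)
  have hS : sinh (2 * a) ^ 2 = cosh (2 * a) ^ 2 - 1 := sinh_sq _
  rw [ht, div_mul_eq_mul_div, le_div_iff₀ (by linarith),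
    show 1 - (sinh (2 * a) / uFn a b) ^ 2
      = (uFn a b ^ 2 - sinh (2 * a) ^ 2) / uFn a b ^ 2 by field_simp,
    mul_div_assoc', div_mul_eq_mul_div, div_le_div_iff₀ hu (by positivity), hS, uFn]
  nlinarith [mul_nonneg (mul_nonneg hs hu.le) (mul_nonneg (sub_nonneg.2 hC) (sub_nonneg.2 hc)),
    uFn]

/-- The saturation term at the midpoint of an atom is at most its edge cost. -/
theorem satTerm_le_edge {a b : ℝ} (ha : 0 ≤ a) (hb : 0 < b) :
    satWeight ((tanh (a + b) + tanh (a - b)) / 2)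
        * Phi ((ent (tanh (a + b)) + ent (tanh (a - b))) / 2
          / satWeight ((tanh (a + b) + tanh (a - b)) / 2))
      ≤ b * (tanh (a + b) - tanh (a - b)) / 2 := by
  set x := tanh (a + b) with hx
  set y := tanh (a - b) with hy
  have hx1 : x ∈ Ioo (-1 : ℝ) 1 := ⟨neg_one_lt_tanh _, tanh_lt_one _⟩
  have hy1 : y ∈ Ioo (-1 : ℝ) 1 := ⟨neg_one_lt_tanh _, tanh_lt_one _⟩
  set M := (x + y) / 2 with hMdef
  have hM : M ∈ Ioo (-1 : ℝ) 1 := ⟨by linarith [hx1.1, hy1.1], by linarith [hx1.2, hy1.2]⟩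
  have hw := satWeight_pos hM
  set w := satWeight M with hwdef
  set H := (ent x + ent y) / 2 with hH
  have ht : 0 < tanh b := by simpa using strictMono_tanh' hb
  have hphi := phiFn_tanh_pos hb
  have hhalf : 0 ≤ (x - y) / 2 := by
    have := (strictMono_tanh' (show a - b < a + b by linarith)).le
    linarith
  have hrhs : 0 ≤ b * (x - y) / 2 := by nlinarith
  by_cases hz : log 2 ≤ H / w
  · rw [Phi_of_log_two_le hz, mul_zero]; exact hrhs
  push Not at hz
  have hzw : 0 < log 2 - H / w := sub_pos.2 hz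
  have hslope : gapEnt x y ≤ phiFn (tanh b) / tanh b * ((x - y) / 2) := gapEnt_le_slope ha hb
  have hzle : w * (log 2 - H / w) ≤ gapEnt x y := by
    have := satWeight_mul_log_two_le_ent (x := M) ⟨hM.1.le, hM.2.le⟩
    rw [mul_sub, mul_div_cancel₀ _ hw.ne', gapEnt]
    linarith
  have hw0 : (x - y) / 2 ≤ tanh b * w := by
    have hMw : 1 - M ^ 2 ≤ w := by
      have : 0 ≤ 1 - M ^ 2 := by nlinarith [hM.1, hM.2]
      rw [hwdef, satWeight]
      nlinarith [mul_nonneg this (sq_nonneg M)]
    exact (atom_half_le a hb.le).trans (mul_le_mul_of_nonneg_left hMw ht.le)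
  have hD : log 2 - H / w ≤ phiFn (tanh b) := by
    refine le_of_mul_le_mul_left ?_ hw
    calc w * (log 2 - H / w) ≤ phiFn (tanh b) / tanh b * ((x - y) / 2) := hzle.trans hslope
      _ ≤ phiFn (tanh b) / tanh b * (tanh b * w) :=
        mul_le_mul_of_nonneg_left hw0 (div_nonneg hphi.le ht.le)
      _ = w * phiFn (tanh b) := by field_simp
  have hF := F0_le_mul hzw.le hD hphi (sub_lt_self _ (ent_tanh_pos b))
  rw [F0, sub_sub_cancel, show F0 (phiFn (tanh b)) = b * tanh b by
    rw [F0, phiFn, sub_sub_cancel, Phi_ent_tanh hb.le]] at hF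
  calc w * Phi (H / w) ≤ w * ((log 2 - H / w) / phiFn (tanh b) * (b * tanh b)) :=
        mul_le_mul_of_nonneg_left hF hw.le
    _ = (w * (log 2 - H / w)) * (b * tanh b / phiFn (tanh b)) := by ring
    _ ≤ phiFn (tanh b) / tanh b * ((x - y) / 2) * (b * tanh b / phiFn (tanh b)) :=
        mul_le_mul_of_nonneg_right (hzle.trans hslope) (by positivity)
    _ = b * (x - y) / 2 := by field_simp

end Vale.Agent.P322
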