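import Vale.Agent.P322.Scalar.PathCond

/-!
# Courtade–Kumar: the path lemma

Along the tilted path (an atom mixed with the corner `(1, 1)`) and along the symmetric path (a
centred atom mixed with both corners) the ratio `(F0 D - F0 T) / λ` increases as long as
`D ≤ log 2 - 1/4`. Hence the first term of the profile passes the step there, given the bound at
`D = log 2 - 1/4` as a hypothesis.
-/

namespace Vale.Agent.P322

open Real Set

lemma F0_zero : F0 0 = 0 := by rw [F0, sub_zero, Phi_of_log_two_le le_rfl]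

lemma hasDerivAt_F0 {D : ℝ} (h0 : 0 < D) (h1 : D < log 2) :
    HasDerivAt F0 (rate (log 2 - D)) D :=
  ((hasDerivAt_Phi (by linarith) (by linarith)).comp D
    ((hasDerivAt_id' D).const_sub (log 2))).congr_deriv (by ring)

lemma continuousOn_F0 : ContinuousOn F0 (Iio (log 2)) :=
  continuousOn_Phi.comp (continuousOn_const.sub continuousOn_id) fun x hx =>
    show (0 : ℝ) < log 2 - x from sub_pos.2 hx

/-- The numerator of the derivative of the ratio along a path. -/
lemma ratio_deriv_nonneg {D g κ J : ℝ} (hg : 0 ≤ g) (hgD : g ≤ D) (hD : D ≤ log 2 - 1 / 4)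
    (h : (rate (log 2 - D) - rate (log 2 - (D - g))) * (κ - (D - g / 2))
      ≤ rate (log 2 - (D - g)) * J) :
    0 ≤ rate (log 2 - D) * (D - κ) - rate (log 2 - (D - g)) * (D - g - (κ + J))
      - (F0 D - F0 (D - g)) := by
  have hl := legendre_bound (e1 := log 2 - D) (e2 := log 2 - (D - g)) (by linarith) (by linarith)
    (by linarith)
  simp only [sub_sub_cancel] at hl
  rw [F0, F0]
  rw [show log 2 - (log 2 - D + (log 2 - (D - g))) / 2 = D - g / 2 by ring] at hl
  linarith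

/-- A path along which the ratio increases. -/
lemma ratio_le_of_path {D g κ J D' T' : ℝ → ℝ} {l0 l1 : ℝ} (h0 : 0 < l0) (h01 : l0 ≤ l1)
    (hDc : ContinuousOn D (Icc l0 l1)) (hTc : ContinuousOn (fun l => D l - g l) (Icc l0 l1))
    (hX : ∀ l ∈ Icc l0 l1, D l ≤ log 2 - 1 / 4)
    (hgT : ∀ l ∈ Icc l0 l1, 0 ≤ g l ∧ 0 ≤ D l - g l)
    (hT : ∀ l ∈ Ioo l0 l1, 0 < D l - g l)
    (hD' : ∀ l ∈ Ioo l0 l1, HasDerivAt D (D' l) l)
    (hT' : ∀ l ∈ Ioo l0 l1, HasDerivAt (fun t => D t - g t) (T' l) l)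
    (hDk : ∀ l ∈ Ioo l0 l1, l * D' l = D l - κ l)
    (hTk : ∀ l ∈ Ioo l0 l1, l * T' l = D l - g l - (κ l + J l))
    (hcond : ∀ l ∈ Ioo l0 l1, (rate (log 2 - D l) - rate (log 2 - (D l - g l)))
      * (κ l - (D l - g l / 2)) ≤ rate (log 2 - (D l - g l)) * J l) :
    (F0 (D l0) - F0 (D l0 - g l0)) / l0 ≤ (F0 (D l1) - F0 (D l1 - g l1)) / l1 := by
  have hm : MonotoneOn (fun l => (F0 (D l) - F0 (D l - g l)) / l) (Icc l0 l1) := by
    refine monotoneOn_of_hasDerivWithinAt_nonneg (convex_Icc l0 l1)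
      (f' := fun l => ((rate (log 2 - D l) * D' l - rate (log 2 - (D l - g l)) * T' l) * l
        - (F0 (D l) - F0 (D l - g l)) * 1) / l ^ 2) ?_ (fun l hl => ?_) fun l hl => ?_
    · have hlt : ∀ l ∈ Icc l0 l1, D l < log 2 := fun l hl => by linarith [hX l hl]
      refine ContinuousOn.div ((continuousOn_F0.comp hDc hlt).sub
        (continuousOn_F0.comp hTc fun l hl => ?_)) continuousOn_id fun l hl => ?_
      · show D l - g l < log 2
        linarith [hlt l hl, (hgT l hl).1]
      · exact (h0.trans_le hl.1).ne'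
    all_goals rw [interior_Icc] at hl
    · have hI := Ioo_subset_Icc_self hl
      have hpos := hT l hl
      have hX' := hX l hI
      have hg := (hgT l hI).1
      exact ((((hasDerivAt_F0 (by linarith) (by linarith)).comp l (hD' l hl)).sub
        ((hasDerivAt_F0 hpos (by linarith)).comp l (hT' l hl))).div (hasDerivAt_id' l)
          (h0.trans hl.1).ne').hasDerivWithinAt
    · refine div_nonneg ?_ (sq_nonneg l)
      have hI := Ioo_subset_Icc_self hl
      have := ratio_deriv_nonneg (hgT l hI).1 (by linarith [(hgT l hI).2]) (hX l hI) (hcond l hl)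
      rw [← hDk l hl, ← hTk l hl] at this
      linarith
  exact hm (left_mem_Icc.2 h01) (right_mem_Icc.2 h01) h01

lemma ent_sub_mul_artanh {x : ℝ} (h1 : -1 < x) (h2 : x < 1) :
    ent x - (1 - x) * artanh x = -log ((1 + x) / 2) := by
  rw [ent, binEntropy_eq_negMulLog_add_negMulLog_one_sub, negMulLog, negMulLog,
    show 1 - (1 + x) / 2 = (1 - x) / 2 by ring, artanh_eq_half_log ⟨h1.le, h2.le⟩,
    log_div (by linarith) (by norm_num), log_div (by linarith) (by norm_num),
    log_div (by linarith) (by linarith)]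
  ring

lemma ent_convex_comb_lt {x z w : ℝ} (hx : x ∈ Ioo (-1 : ℝ) 1) (hz : z ∈ Icc (-1 : ℝ) 1)
    (hxz : x ≠ z) (hw : w ∈ Ioo (0 : ℝ) 1) :
    w * ent x + (1 - w) * ent z < ent (w * x + (1 - w) * z) := by
  have h := strictConcave_binEntropy.2 (x := (1 + x) / 2) ⟨by linarith [hx.1], by linarith [hx.2]⟩
    (y := (1 + z) / 2) ⟨by linarith [hz.1], by linarith [hz.2]⟩
    (fun h => hxz (by linarith)) hw.1 (sub_pos.2 hw.2) (by ring)
  simp only [smul_eq_mul] at h
  rw [ent, ent, ent, show (1 + (w * x + (1 - w) * z)) / 2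
    = w * ((1 + x) / 2) + (1 - w) * ((1 + z) / 2) by ring]
  exact h

/-- `x` mixed with the corner `1`: weight `l` on `x`. -/
noncomputable def toCorner (l x : ℝ) : ℝ := 1 - l * (1 - x)

lemma toCorner_mem {l x : ℝ} (hl : 0 < l) (hl1 : l ≤ 1) (hx : x ∈ Ioo (-1 : ℝ) 1) :
    toCorner l x ∈ Ioo (-1 : ℝ) 1 := by
  unfold toCorner
  constructor <;> nlinarith [hx.1, hx.2]

lemma hasDerivAt_ent_toCorner {l x : ℝ} (hl : 0 < l) (hl1 : l ≤ 1) (hx : x ∈ Ioo (-1 : ℝ) 1) :
    HasDerivAt (fun t => ent (toCorner t x)) ((1 - x) * artanh (toCorner l x)) l := by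
  have h := toCorner_mem hl hl1 hx
  refine ((Skel.hasDerivAt_hbin h.1 h.2).comp l
    (((hasDerivAt_id' l).mul_const (1 - x)).const_sub 1)).congr_deriv ?_
  ring

/-- Information of the tilted path at weight `l`. -/
noncomputable def tiltD (x y l : ℝ) : ℝ :=
  ent (toCorner l ((x + y) / 2)) - l * ((ent x + ent y) / 2)

lemma continuous_ent_toCorner (x : ℝ) : Continuous fun l => ent (toCorner l x) :=
  continuous_ent.comp (by unfold toCorner; fun_prop)

lemma continuous_tiltD (x y : ℝ) : Continuous (tiltD x y) :=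
  (continuous_ent_toCorner _).sub (by fun_prop)

lemma tiltD_sub_gap (x y l : ℝ) :
    tiltD x y l - gapEnt (toCorner l x) (toCorner l y)
      = (ent (toCorner l x) + ent (toCorner l y)) / 2 - l * ((ent x + ent y) / 2) := by
  rw [tiltD, gapEnt, show (toCorner l x + toCorner l y) / 2 = toCorner l ((x + y) / 2) by
    unfold toCorner; ring]
  ring

/-- The tilted remainder is positive inside the path and vanishes at its end. -/
lemma tilt_rest_pos {x y l : ℝ} (hx : x ∈ Ioo (-1 : ℝ) 1) (hy : y ∈ Ioo (-1 : ℝ) 1) (h0 : 0 < l)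
    (h1 : l < 1) : 0 < tiltD x y l - gapEnt (toCorner l x) (toCorner l y) := by
  rw [tiltD_sub_gap]
  have a := ent_convex_comb_lt hx (z := 1) ⟨by norm_num, le_rfl⟩ hx.2.ne ⟨h0, h1⟩
  have b := ent_convex_comb_lt hy (z := 1) ⟨by norm_num, le_rfl⟩ hy.2.ne ⟨h0, h1⟩
  simp only [ent_one, mul_zero, add_zero] at a b
  rw [show l * x + (1 - l) * 1 = toCorner l x by unfold toCorner; ring] at a
  rw [show l * y + (1 - l) * 1 = toCorner l y by unfold toCorner; ring] at b
  linarith

lemma tilt_rest_nonneg {x y l : ℝ} (hx : x ∈ Ioo (-1 : ℝ) 1) (hy : y ∈ Ioo (-1 : ℝ) 1) (h0 : 0 < l)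
    (h1 : l ≤ 1) : 0 ≤ tiltD x y l - gapEnt (toCorner l x) (toCorner l y) := by
  rcases h1.eq_or_lt with rfl | h
  · rw [tiltD_sub_gap]; simp [toCorner]
  · exact (tilt_rest_pos hx hy h0 h).le

/-- The convexity surplus of the tilted path. -/
noncomputable def tiltJ (x y l : ℝ) : ℝ :=
  -(1 / 2) * log (1 - (l * ((x - y) / 2) / (1 + toCorner l ((x + y) / 2))) ^ 2)

lemma tiltJ_eq {x y l : ℝ} (hx : x ∈ Ioo (-1 : ℝ) 1) (hy : y ∈ Ioo (-1 : ℝ) 1) (h0 : 0 < l)
    (h1 : l ≤ 1) :
    -log ((1 + toCorner l ((x + y) / 2)) / 2) + tiltJ x y l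
      = (-log ((1 + toCorner l x) / 2) + -log ((1 + toCorner l y) / 2)) / 2 := by
  have hx' := toCorner_mem h0 h1 hx
  have hy' := toCorner_mem h0 h1 hy
  have hM : 0 < 1 + toCorner l ((x + y) / 2) := by
    have e : toCorner l ((x + y) / 2) = (toCorner l x + toCorner l y) / 2 := by
      unfold toCorner; ring
    rw [e]; linarith [hx'.1, hy'.1]
  rw [tiltJ]
  set m := toCorner l ((x + y) / 2) with hm
  set q := l * ((x - y) / 2) / (1 + m) with hq
  have px : 1 + toCorner l x = (1 + m) * (1 + q) := by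
    rw [hq, mul_add, mul_one, mul_div_cancel₀ _ hM.ne', hm]; unfold toCorner; ring
  have py : 1 + toCorner l y = (1 + m) * (1 - q) := by
    rw [hq, mul_sub, mul_one, mul_div_cancel₀ _ hM.ne', hm]; unfold toCorner; ring
  have q1 : 0 < 1 + q :=
    (mul_pos_iff_of_pos_left hM).1 (by rw [← px]; linarith [hx'.1])
  have q2 : 0 < 1 - q :=
    (mul_pos_iff_of_pos_left hM).1 (by rw [← py]; linarith [hy'.1])
  rw [px, py, mul_div_right_comm, mul_div_right_comm (1 + m) (1 - q),
    log_mul (by positivity) q1.ne', log_mul (by positivity) q2.ne',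
    show 1 - q ^ 2 = (1 + q) * (1 - q) by ring, log_mul q1.ne' q2.ne']
  ring

lemma tilt_rest_deriv {x y l : ℝ} (hx : x ∈ Ioo (-1 : ℝ) 1) (hy : y ∈ Ioo (-1 : ℝ) 1) (h0 : 0 < l)
    (h1 : l ≤ 1) :
    l * (((1 - x) * artanh (toCorner l x) + (1 - y) * artanh (toCorner l y)) / 2
        - (ent x + ent y) / 2)
      = tiltD x y l - gapEnt (toCorner l x) (toCorner l y)
        - (-log ((1 + toCorner l ((x + y) / 2)) / 2) + tiltJ x y l) := by
  have hx' := toCorner_mem h0 h1 hx
  have hy' := toCorner_mem h0 h1 hy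
  rw [tiltD_sub_gap, tiltJ_eq hx hy h0 h1, ← ent_sub_mul_artanh hx'.1 hx'.2,
    ← ent_sub_mul_artanh hy'.1 hy'.2]
  unfold toCorner
  ring

lemma tilt_cond {x y l : ℝ} (hx : x ∈ Ioo (-1 : ℝ) 1) (hy : y ∈ Ioo (-1 : ℝ) 1)
    (hyx : y ≤ x) (hm : 0 ≤ x + y) (h0 : 0 < l) (h1 : l ≤ 1)
    (hX : tiltD x y l ≤ log 2 - 1 / 4) :
    (rate (log 2 - tiltD x y l)
        - rate (log 2 - (tiltD x y l - gapEnt (toCorner l x) (toCorner l y))))
        * (-log ((1 + toCorner l ((x + y) / 2)) / 2)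
          - (tiltD x y l - gapEnt (toCorner l x) (toCorner l y) / 2))
      ≤ rate (log 2 - (tiltD x y l - gapEnt (toCorner l x) (toCorner l y))) * tiltJ x y l := by
  have hxy : toCorner l ((x + y) / 2) + l * ((x - y) / 2) = toCorner l x := by
    unfold toCorner; ring
  have hxy' : toCorner l ((x + y) / 2) - l * ((x - y) / 2) = toCorner l y := by
    unfold toCorner; ring
  have hnn : 0 ≤ toCorner l ((x + y) / 2) := by
    unfold toCorner; nlinarith [hx.2, hy.2]
  have := path_cond_tilt (D := tiltD x y l) hnn (mul_nonneg h0.le (by linarith : 0 ≤ (x - y) / 2))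
    (by rw [hxy]; exact (toCorner_mem h0 h1 hx).2)
    (by rw [hxy, hxy']; exact sub_nonneg.1 (tilt_rest_nonneg hx hy h0 h1)) hX
  rw [hxy, hxy'] at this
  exact this

/-- The tilted ratio increases while `tiltD ≤ log 2 - 1/4`. -/
lemma tilt_ratio_le {x y l0 l1 : ℝ} (hx : x ∈ Ioo (-1 : ℝ) 1) (hy : y ∈ Ioo (-1 : ℝ) 1)
    (hyx : y ≤ x) (hm : 0 ≤ x + y) (h0 : 0 < l0) (h01 : l0 ≤ l1) (h1 : l1 ≤ 1)
    (hX : ∀ l ∈ Icc l0 l1, tiltD x y l ≤ log 2 - 1 / 4) :
    (F0 (tiltD x y l0) - F0 (tiltD x y l0 - gapEnt (toCorner l0 x) (toCorner l0 y))) / l0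
      ≤ (F0 (tiltD x y l1) - F0 (tiltD x y l1 - gapEnt (toCorner l1 x) (toCorner l1 y))) / l1 := by
  have hM : (x + y) / 2 ∈ Ioo (-1 : ℝ) 1 := ⟨by linarith [hx.1], by linarith [hx.2, hy.2]⟩
  have hsub : ∀ l ∈ Icc l0 l1, 0 < l ∧ l ≤ 1 := fun l hl => ⟨h0.trans_le hl.1, hl.2.trans h1⟩
  refine ratio_le_of_path (κ := fun l => -log ((1 + toCorner l ((x + y) / 2)) / 2))
    (J := tiltJ x y) (g := fun l => gapEnt (toCorner l x) (toCorner l y))
    (D' := fun l => (1 - (x + y) / 2) * artanh (toCorner l ((x + y) / 2)) - (ent x + ent y) / 2)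
    (T' := fun l => ((1 - x) * artanh (toCorner l x) + (1 - y) * artanh (toCorner l y)) / 2
      - (ent x + ent y) / 2)
    h0 h01 (continuous_tiltD x y).continuousOn ?_ hX ?_ ?_ ?_ ?_ ?_ ?_ ?_
  · simp only [tiltD_sub_gap]
    exact ((((continuous_ent_toCorner x).add (continuous_ent_toCorner y)).div_const 2).sub
      (by fun_prop)).continuousOn
  · intro l hl
    obtain ⟨l0', l1'⟩ := hsub l hl
    exact ⟨gapEnt_nonneg (Ioo_subset_Icc_self (toCorner_mem l0' l1' hx))
      (Ioo_subset_Icc_self (toCorner_mem l0' l1' hy)), tilt_rest_nonneg hx hy l0' l1'⟩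
  · exact fun l hl => tilt_rest_pos hx hy (h0.trans hl.1) (hl.2.trans_le h1)
  all_goals intro l hl; obtain ⟨l0', l1'⟩ := hsub l (Ioo_subset_Icc_self hl)
  · refine ((hasDerivAt_ent_toCorner l0' l1' hM).sub
      ((hasDerivAt_id' l).mul_const ((ent x + ent y) / 2))).congr_deriv ?_
    ring
  · simp only [tiltD_sub_gap]
    refine ((((hasDerivAt_ent_toCorner l0' l1' hx).add
      (hasDerivAt_ent_toCorner l0' l1' hy)).div_const 2).sub
      ((hasDerivAt_id' l).mul_const ((ent x + ent y) / 2))).congr_deriv ?_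
    ring
  · have h := toCorner_mem l0' l1' hM
    rw [tiltD, ← ent_sub_mul_artanh h.1 h.2]
    unfold toCorner
    ring
  · exact tilt_rest_deriv hx hy l0' l1'
  · exact tilt_cond hx hy hyx hm l0' l1' (hX l (Ioo_subset_Icc_self hl))

/-- The information along the tilted path lies below its tangents. -/
lemma tiltD_le_tangent {x y l t : ℝ} (hx : x ∈ Ioo (-1 : ℝ) 1) (hy : y ∈ Ioo (-1 : ℝ) 1)
    (h0 : 0 < l) (hlt : l ≤ t) (h1 : t ≤ 1) :
    (tiltD x y t - tiltD x y l) * l
      ≤ (tiltD x y l - -log ((1 + toCorner l ((x + y) / 2)) / 2)) * (t - l) := by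
  have hM : (x + y) / 2 ∈ Ioo (-1 : ℝ) 1 :=
    ⟨by linarith [hx.1, hy.1], by linarith [hx.2, hy.2]⟩
  have hl := toCorner_mem h0 (hlt.trans h1) hM
  have ht := toCorner_mem (h0.trans_le hlt) h1 hM
  rcases hlt.eq_or_lt with rfl | hlt'
  · simp
  set u := toCorner l ((x + y) / 2) with hu
  set v := toCorner t ((x + y) / 2) with hv
  have hvu : v < u := by
    rw [hu, hv, toCorner, toCorner]
    linarith [mul_lt_mul_of_pos_right hlt' (sub_pos.2 hM.2)]
  have h := concaveOn_ent.le_slope_of_hasDerivAt (Ioo_subset_Icc_self ht) (Ioo_subset_Icc_self hl)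
    hvu (Skel.hasDerivAt_hbin hl.1 hl.2)
  rw [slope_def_field, le_div_iff₀ (sub_pos.2 hvu)] at h
  have e := ent_sub_mul_artanh hl.1 hl.2
  rw [← e, tiltD, tiltD, ← hu, ← hv]
  have euv : u - v = (t - l) * (1 - (x + y) / 2) := by rw [hu, hv, toCorner, toCorner]; ring
  have e1 : 1 - u = l * (1 - (x + y) / 2) := by rw [hu, toCorner]; ring
  rw [euv] at h
  rw [e1]
  linarith [mul_le_mul_of_nonneg_right h h0.le]

/-- **Tilted path lemma.** If the bound holds whenever the path meets `D = log 2 - 1/4`, it holds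
whenever `D ≤ log 2 - 1/4`. -/
theorem tilt_path {a b l : ℝ} (ha : 0 ≤ a) (hb : 0 < b) (hl0 : 0 < l) (hl1 : l ≤ 1)
    (hexit : ∀ t ∈ Ioc (0 : ℝ) 1, tiltD (tanh (a + b)) (tanh (a - b)) t = log 2 - 1 / 4 →
      -log ((1 + toCorner t ((tanh (a + b) + tanh (a - b)) / 2)) / 2) ≤ log 2 - 1 / 4 →
      F0 (tiltD (tanh (a + b)) (tanh (a - b)) t)
          - F0 (tiltD (tanh (a + b)) (tanh (a - b)) t
            - gapEnt (toCorner t (tanh (a + b))) (toCorner t (tanh (a - b))))
        ≤ t * (b * (tanh (a + b) - tanh (a - b)) / 2))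
    (hD : tiltD (tanh (a + b)) (tanh (a - b)) l ≤ log 2 - 1 / 4) :
    F0 (tiltD (tanh (a + b)) (tanh (a - b)) l)
        - F0 (tiltD (tanh (a + b)) (tanh (a - b)) l
          - gapEnt (toCorner l (tanh (a + b))) (toCorner l (tanh (a - b))))
      ≤ l * (b * (tanh (a + b) - tanh (a - b)) / 2) := by
  set x := tanh (a + b) with hxdef
  set y := tanh (a - b) with hydef
  have hx : x ∈ Ioo (-1 : ℝ) 1 := ⟨neg_one_lt_tanh _, tanh_lt_one _⟩
  have hy : y ∈ Ioo (-1 : ℝ) 1 := ⟨neg_one_lt_tanh _, tanh_lt_one _⟩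
  have hyx : y ≤ x := strictMono_tanh'.monotone (by linarith)
  have hm : 0 ≤ x + y := by
    have := strictMono_tanh'.monotone (show -(a - b) ≤ a + b by linarith)
    rw [tanh_neg] at this
    linarith
  -- the first exit, or the end of the path
  obtain ⟨l1, hl1', hle, hval⟩ : ∃ l1 ∈ Icc l 1, (∀ t ∈ Icc l l1, tiltD x y t ≤ log 2 - 1 / 4) ∧
      F0 (tiltD x y l1) - F0 (tiltD x y l1 - gapEnt (toCorner l1 x) (toCorner l1 y))
        ≤ l1 * (b * (x - y) / 2) := by
    by_cases hex : ∃ t ∈ Icc l 1, log 2 - 1 / 4 < tiltD x y t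
    · set S := Icc l 1 ∩ tiltD x y ⁻¹' Ici (log 2 - 1 / 4) with hS
      have hSc : IsClosed S := isClosed_Icc.inter (isClosed_Ici.preimage (continuous_tiltD x y))
      have hSn : S.Nonempty := let ⟨t, ht, ht'⟩ := hex; ⟨t, ht, ht'.le⟩
      have hSb : BddBelow S := ⟨l, fun t ht => ht.1.1⟩
      have hmem := hSc.csInf_mem hSn hSb
      set l1 := sInf S
      have hbefore : ∀ t ∈ Icc l l1, tiltD x y t ≤ log 2 - 1 / 4 := by
        intro t ht
        by_contra hcon
        push Not at hcon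
        obtain ⟨s, hs, hs'⟩ := intermediate_value_Icc ht.1 (continuous_tiltD x y).continuousOn
          ⟨hD, hcon.le⟩
        have : l1 ≤ s := csInf_le hSb ⟨⟨hs.1, hs.2.trans (ht.2.trans hmem.1.2)⟩, hs'.ge⟩
        have hst : s = t := le_antisymm hs.2 (ht.2.trans this)
        rw [hst] at hs'
        linarith
      have hl1pos : 0 < l1 := hl0.trans_le hmem.1.1
      have heq : tiltD x y l1 = log 2 - 1 / 4 :=
        le_antisymm (hbefore l1 ⟨hmem.1.1, le_rfl⟩) hmem.2
      refine ⟨l1, hmem.1, hbefore, hexit l1 ⟨hl1pos, hmem.1.2⟩ heq ?_⟩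
      obtain ⟨t, ht, htX⟩ := hex
      have hlt : l1 < t := lt_of_le_of_ne (csInf_le hSb ⟨ht, htX.le⟩) fun e => by
        rw [← e, heq] at htX; exact lt_irrefl _ htX
      have hrise := tiltD_le_tangent hx hy hl1pos hlt.le ht.2
      by_contra hcon
      push Not at hcon
      have : (tiltD x y l1 - -log ((1 + toCorner l1 ((x + y) / 2)) / 2)) * (t - l1) ≤ 0 :=
        mul_nonpos_of_nonpos_of_nonneg (by linarith) (sub_nonneg.2 hlt.le)
      have h2 : 0 < (tiltD x y t - tiltD x y l1) * l1 := mul_pos (by linarith) hl1pos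
      linarith
    · push Not at hex
      refine ⟨1, right_mem_Icc.2 hl1, hex, ?_⟩
      have h := F0_gapEnt_le_edge ha hb
      have hT : tiltD x y 1 - gapEnt (toCorner 1 x) (toCorner 1 y) = 0 := by
        rw [tiltD_sub_gap]; simp [toCorner]
      rw [hT, F0_zero, sub_zero, show tiltD x y 1 = gapEnt x y by
        simp [tiltD, toCorner, gapEnt], one_mul]
      exact h
  have hl1p : 0 < l1 := hl0.trans_le hl1'.1
  have h := tilt_ratio_le hx hy hyx hm hl0 hl1'.1 hl1'.2 hle
  rw [div_le_iff₀ hl0] at h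
  refine h.trans ?_
  rw [mul_comm l, ← sub_nonneg]
  have h2 : (F0 (tiltD x y l1) - F0 (tiltD x y l1 - gapEnt (toCorner l1 x) (toCorner l1 y))) / l1
      ≤ b * (x - y) / 2 := by rw [div_le_iff₀ hl1p]; linarith
  exact sub_nonneg.2 (mul_le_mul_of_nonneg_right h2 hl0.le)

/-- Information of the symmetric path: mean `m`, weight `l` on the atom `(r, -r)`. -/
noncomputable def symD (m r l : ℝ) : ℝ := ent m - l * ent r

lemma symD_sub_gap (m r l : ℝ) :
    symD m r l - gapEnt (m + l * r) (m - l * r)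
      = (ent (m + l * r) + ent (m - l * r)) / 2 - l * ent r := by
  rw [symD, gapEnt]; ring_nf

lemma mixture_lt {m r l : ℝ} (hr : r ∈ Ioo (-1 : ℝ) 1) (hm : 0 ≤ m) (hl : 0 < l)
    (h : l < 1 - m) : l * ent r < ent (m + l * r) := by
  have hl1 : l < 1 := by linarith
  have hz : m / (1 - l) ∈ Ioo (-1 : ℝ) 1 := by
    refine ⟨lt_of_lt_of_le (by norm_num) (div_nonneg hm (by linarith)), ?_⟩
    rw [div_lt_one (by linarith)]; linarith
  have hc := concaveOn_ent.2 (Ioo_subset_Icc_self hr) (Ioo_subset_Icc_self hz) hl.le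
    (sub_nonneg.2 hl1.le) (by ring)
  simp only [smul_eq_mul, mul_div_cancel₀ _ (sub_ne_zero.2 hl1.ne')] at hc
  have := mul_pos (sub_pos.2 hl1) (Skel.hbin_pos hz.1 hz.2)
  rw [add_comm m]
  linarith

/-- **Symmetric path lemma.** -/
theorem sym_path {b m l : ℝ} (hb : 0 < b) (hm : 0 ≤ m) (hm1 : m < 1) (hl0 : 0 < l)
    (hl : l ≤ 1 - m) (hD : symD m (tanh b) l ≤ log 2 - 1 / 4)
    (hexit : ∀ t ∈ Ioc (0 : ℝ) 1, tiltD (tanh b) (-tanh b) t = log 2 - 1 / 4 →
      -log ((1 + toCorner t ((tanh b + -tanh b) / 2)) / 2) ≤ log 2 - 1 / 4 →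
      F0 (tiltD (tanh b) (-tanh b) t)
          - F0 (tiltD (tanh b) (-tanh b) t
            - gapEnt (toCorner t (tanh b)) (toCorner t (-tanh b)))
        ≤ t * (b * tanh b)) :
    F0 (symD m (tanh b) l)
        - F0 (symD m (tanh b) l - gapEnt (m + l * tanh b) (m - l * tanh b))
      ≤ l * (b * tanh b) := by
  set r := tanh b with hr
  have hrI : r ∈ Ioo (-1 : ℝ) 1 := ⟨neg_one_lt_tanh _, tanh_lt_one _⟩
  have hr0 : 0 < r := by simpa using strictMono_tanh' hb
  have hrn : -r ∈ Ioo (-1 : ℝ) 1 := ⟨by linarith [hrI.2], by linarith⟩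
  have hL0 : 0 < 1 - m := by linarith
  have hIoo : ∀ t ∈ Icc l (1 - m),
      m + t * r ∈ Ioo (-1 : ℝ) 1 ∧ m - t * r ∈ Ioo (-1 : ℝ) 1 := by
    intro t ht
    have t0 : 0 < t := hl0.trans_le ht.1
    have h2 : t * r < t := mul_lt_of_lt_one_right t0 hrI.2
    have h3 : 0 < t * r := mul_pos t0 hr0
    exact ⟨⟨by linarith, by linarith [ht.2]⟩, ⟨by linarith [ht.2], by linarith [ht.2]⟩⟩
  have hnn : ∀ t ∈ Icc l (1 - m),
      0 ≤ symD m r t - gapEnt (m + t * r) (m - t * r) := by
    intro t ht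
    rw [symD_sub_gap]
    rcases ht.2.eq_or_lt with rfl | hlt
    · rcases hm.eq_or_lt with rfl | hm0
      · simp [ent_neg]
      · have hw : 1 - m ∈ Ioo (0 : ℝ) 1 := ⟨hL0, by linarith⟩
        have a := ent_convex_comb_lt hrI (z := 1) ⟨by norm_num, le_rfl⟩ hrI.2.ne hw
        have c := ent_convex_comb_lt hrn (z := 1) ⟨by norm_num, le_rfl⟩ hrn.2.ne hw
        simp only [ent_one, mul_zero, add_zero, ent_neg] at a c
        rw [show (1 - m) * r + (1 - (1 - m)) * 1 = m + (1 - m) * r by ring] at a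
        rw [show (1 - m) * -r + (1 - (1 - m)) * 1 = m - (1 - m) * r by ring] at c
        linarith
    · have a := mixture_lt hrI hm (hl0.trans_le ht.1) hlt
      have c := mixture_lt hrn hm (hl0.trans_le ht.1) hlt
      rw [ent_neg, mul_neg, ← sub_eq_add_neg] at c
      linarith
  have hX : ∀ t ∈ Icc l (1 - m), symD m r t ≤ log 2 - 1 / 4 := fun t ht => by
    have := mul_le_mul_of_nonneg_right ht.1 (Skel.hbin_nonneg hrI.1.le hrI.2.le)
    unfold symD at hD ⊢
    linarith
  have h := ratio_le_of_path (D := symD m r) (g := fun t => gapEnt (m + t * r) (m - t * r))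
    (κ := fun _ => ent m)
    (J := fun t => t * r / 2 * (artanh (m + t * r) - artanh (m - t * r))
      - gapEnt (m + t * r) (m - t * r))
    (D' := fun _ => -ent r)
    (T' := fun t => (-artanh (m + t * r) * r + artanh (m - t * r) * r) / 2 - ent r)
    hl0 hl (by unfold symD; fun_prop)
    (by
      simp only [symD_sub_gap]
      exact ((((continuous_ent.comp (by fun_prop)).add (continuous_ent.comp (by fun_prop))).div_const
        2).sub (by fun_prop)).continuousOn)
    hX
    (fun t ht => ⟨gapEnt_nonneg (Ioo_subset_Icc_self (hIoo t ht).1)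
      (Ioo_subset_Icc_self (hIoo t ht).2), hnn t ht⟩)
    (fun t ht => by
      rw [symD_sub_gap]
      have a := mixture_lt hrI hm (hl0.trans ht.1) ht.2
      have c := mixture_lt hrn hm (hl0.trans ht.1) ht.2
      rw [ent_neg, mul_neg, ← sub_eq_add_neg] at c
      linarith)
    (fun t _ => by
      refine (((hasDerivAt_id' t).mul_const (ent r)).const_sub (ent m)).congr_deriv ?_
      ring)
    (fun t ht => by
      obtain ⟨h1, h2⟩ := hIoo t (Ioo_subset_Icc_self ht)
      simp only [symD_sub_gap]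
      refine (((((Skel.hasDerivAt_hbin h1.1 h1.2).comp t
        (((hasDerivAt_id' t).mul_const r).const_add m)).add
        ((Skel.hasDerivAt_hbin h2.1 h2.2).comp t
          (((hasDerivAt_id' t).mul_const r).const_sub m))).div_const 2).sub
        ((hasDerivAt_id' t).mul_const (ent r))).congr_deriv ?_
      ring)
    (fun t _ => by unfold symD; ring)
    (fun t _ => by rw [symD_sub_gap, gapEnt]; ring_nf)
    (fun t ht => by
      obtain ⟨h1, h2⟩ := hIoo t (Ioo_subset_Icc_self ht)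
      exact path_cond_sym hm (mul_pos (hl0.trans ht.1) hr0).le h1.2
        (sub_nonneg.1 (hnn t (Ioo_subset_Icc_self ht))) (hX t (Ioo_subset_Icc_self ht)))
  -- the end of the symmetric path lies on the tilted path of the centred atom
  have e1 : tiltD r (-r) (1 - m) = symD m r (1 - m) := by
    simp [tiltD, toCorner, symD, ent_neg]
  have e2 : toCorner (1 - m) r = m + (1 - m) * r := by unfold toCorner; ring
  have e3 : toCorner (1 - m) (-r) = m - (1 - m) * r := by unfold toCorner; ring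
  have ht := tilt_path (a := 0) le_rfl hb hL0 (by linarith)
    (by
      simp only [zero_add, zero_sub, tanh_neg, ← hr, show (r - -r) / 2 = r by ring, mul_div_assoc]
      exact hexit)
    (by
      simpa [← hr, tanh_neg, e1] using hX (1 - m) (right_mem_Icc.2 hl))
  simp only [zero_add, zero_sub, tanh_neg, ← hr, e1, e2, e3, show (r - -r) / 2 = r by ring,
    mul_div_assoc] at ht
  rw [div_le_iff₀ hl0] at h
  refine h.trans ?_
  rw [mul_comm l]
  refine mul_le_mul_of_nonneg_right ?_ hl0.le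
  rw [div_le_iff₀ hL0]
  linarith

end Vale.Agent.P322
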