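import Vale.Agent.P322.Scalar.OneStep
import Vale.Agent.P322.Scalar.Cert

/-!
# Courtade–Kumar: the reference atom of a state

A state `(m, d, H)` is either `l` times a centred atom, or it lies on the path from an atom to the
corner `(1, 1)`. At the reference atom the tangent certificate is exact, so the edge term is at
least the path weight times the edge cost of the atom.
-/

namespace Vale.Agent.P322

open Real Set

/-- Every `(d, H)` with `d, H > 0` is a multiple of a centred atom. -/
theorem exists_centred {d H : ℝ} (hd : 0 < d) (hH : 0 < H) :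
    ∃ b l : ℝ, 0 < b ∧ 0 < l ∧ d = l * tanh b ∧ H = l * ent (tanh b) := by
  obtain ⟨r, hr, hr0⟩ := intermediate_value_Icc zero_le_one
    (f := fun r => H * r - d * ent r) ((continuous_const.mul continuous_id).sub
      (continuous_const.mul continuous_ent)).continuousOn
    (show (0 : ℝ) ∈ Icc (H * 0 - d * ent 0) (H * 1 - d * ent 1) by
      rw [ent_zero, ent_one]
      have := mul_pos hd (log_pos one_lt_two)
      constructor <;> linarith)
  have h1 : r ≠ 1 := by
    rintro rfl
    simp only [ent_one] at hr0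
    linarith
  have h0 : r ≠ 0 := by
    rintro rfl
    simp only [ent_zero] at hr0
    have := mul_pos hd (log_pos one_lt_two)
    linarith
  have hrI : r ∈ Ioo (-1 : ℝ) 1 := ⟨by linarith [hr.1], lt_of_le_of_ne hr.2 h1⟩
  have hrp : 0 < r := lt_of_le_of_ne hr.1 (Ne.symm h0)
  have ht : tanh (artanh r) = r := tanh_artanh hrI
  refine ⟨artanh r, d / r, ?_, div_pos hd hrp, ?_, ?_⟩
  · exact strictMono_tanh'.lt_iff_lt.1 (by rw [tanh_zero, ht]; exact hrp)
  · rw [ht]; field_simp
  · rw [ht]
    simp only at hr0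
    field_simp
    linarith

/-- A state with `1 - m < l`, where `(d, H)` is `l` times a centred atom, lies on the path from an
atom with nonnegative midpoint to the corner `(1, 1)`. -/
theorem exists_tilted {m d H b l : ℝ} (hm : 0 ≤ m) (hd : 0 < d) (hmd : m + d < 1)
    (hH : H ≤ (ent (m + d) + ent (m - d)) / 2) (hb : 0 < b) (hl : 1 - m < l)
    (hd2 : d = l * tanh b) (hH2 : H = l * ent (tanh b)) :
    ∃ a c t : ℝ, 0 ≤ a ∧ 0 < c ∧ 0 < t ∧ t ≤ 1 ∧
      m = 1 - t * (1 - (tanh (a + c) + tanh (a - c)) / 2) ∧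
      d = t * ((tanh (a + c) - tanh (a - c)) / 2) ∧
      H = t * ((ent (tanh (a + c)) + ent (tanh (a - c))) / 2) := by
  have hm1 : 0 < 1 - m := by linarith
  have hr0 : 0 < tanh b := by simpa using strictMono_tanh' hb
  set f : ℝ → ℝ := fun t =>
    t * ((ent (1 - (1 - m - d) / t) + ent (1 - (1 - m + d) / t)) / 2) with hf
  have hcont : ContinuousOn f (Icc (1 - m) 1) := by
    refine continuousOn_id.mul ((ContinuousOn.add ?_ ?_).div_const 2)
    all_goals
      refine continuous_ent.comp_continuousOn (continuousOn_const.sub ?_)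
      exact continuousOn_const.div continuousOn_id fun t ht => (hm1.trans_le ht.1).ne'
  -- at `t = 1 - m` the atom is centred and carries less entropy
  have hlow : f (1 - m) < H := by
    set q := d / (1 - m) with hq
    have e1 : 1 - (1 - m - d) / (1 - m) = q := by rw [hq]; field_simp; ring
    have e2 : 1 - (1 - m + d) / (1 - m) = -q := by rw [hq]; field_simp; ring
    have hrq : tanh b < q := by
      rw [hq, lt_div_iff₀ hm1, hd2, mul_comm l]
      exact mul_lt_mul_of_pos_left hl hr0
    have hq1 : q < 1 := by rw [hq, div_lt_one hm1]; linarith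
    have hent : ent q < ent (tanh b) := Skel.strictAntiOn_hbin ⟨hr0.le, (tanh_lt_one b).le⟩
      ⟨(hr0.trans hrq).le, hq1.le⟩ hrq
    have hpos := ent_tanh_pos b
    simp only [hf, e1, e2, ent_neg]
    rw [hH2]
    nlinarith
  have hhigh : H ≤ f 1 := by
    simp only [hf, div_one, one_mul]
    convert hH using 4 <;> ring
  obtain ⟨t, ht, htH⟩ := intermediate_value_Icc (by linarith) hcont ⟨hlow.le, hhigh⟩
  have ht0 : 0 < t := hm1.trans_le ht.1
  have htm : 1 - m < t := by
    refine lt_of_le_of_ne ht.1 fun h => ?_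
    rw [← h] at htH
    exact hlow.ne htH
  set x := 1 - (1 - m - d) / t with hx
  set y := 1 - (1 - m + d) / t with hy
  have hxI : x ∈ Ioo (-1 : ℝ) 1 := by
    have h1 : 0 < (1 - m - d) / t := div_pos (by linarith) ht0
    have h2 : (1 - m - d) / t < 2 := by rw [div_lt_iff₀ ht0]; linarith
    constructor <;> simp only [hx] <;> linarith
  have hyI : y ∈ Ioo (-1 : ℝ) 1 := by
    have h1 : 0 < (1 - m + d) / t := div_pos (by linarith) ht0
    have h2 : (1 - m + d) / t < 2 := by rw [div_lt_iff₀ ht0]; linarith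
    constructor <;> simp only [hy] <;> linarith
  obtain ⟨a, c, hac, hac'⟩ : ∃ a c : ℝ, a + c = artanh x ∧ a - c = artanh y :=
    ⟨(artanh x + artanh y) / 2, (artanh x - artanh y) / 2, by ring, by ring⟩
  have hxt : tanh (a + c) = x := by rw [hac, tanh_artanh hxI]
  have hyt : tanh (a - c) = y := by rw [hac', tanh_artanh hyI]
  have hxy : y < x := by
    simp only [hx, hy]
    gcongr
    linarith
  have hsum : -y ≤ x := by
    have h : (1 - m - d) / t + (1 - m + d) / t ≤ 2 := by
      rw [← add_div, div_le_iff₀ ht0]; linarith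
    simp only [hx, hy]
    linarith
  have hc : a - c < a + c := strictMono_tanh'.lt_iff_lt.1 (by rw [hxt, hyt]; exact hxy)
  have ha : -(a - c) ≤ a + c :=
    strictMono_tanh'.le_iff_le.1 (by rw [tanh_neg, hxt, hyt]; exact hsum)
  refine ⟨a, c, t, by linarith, by linarith, ht0, ht.2, ?_, ?_, ?_⟩
  · rw [hxt, hyt, hx, hy]; field_simp; ring
  · rw [hxt, hyt, hx, hy]; field_simp; ring
  · rw [hxt, hyt]; exact htH.symm

/-- At a reference atom the certificate gives the edge cost of the atom times the path weight. -/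
theorem edge_ge_atom {m d H K a b t : ℝ}
    (hK : ∀ a b : ℝ, 0 ≤ a → 0 < b →
      certLam a b * d - certMu a b * (H + certNu a b * (1 - m)) ≤ K)
    (ha : 0 ≤ a) (hb : 0 < b)
    (hm : m = 1 - t * (1 - (tanh (a + b) + tanh (a - b)) / 2))
    (hd : d = t * ((tanh (a + b) - tanh (a - b)) / 2))
    (hH : H = t * ((ent (tanh (a + b)) + ent (tanh (a - b))) / 2)) :
    t * (b * ((tanh (a + b) - tanh (a - b)) / 2)) ≤ K := by
  refine le_trans (le_of_eq ?_) (hK a b ha hb)
  rw [hm, hd, hH, atom_sub, atom_compl, atom_ent, sub_sub_cancel]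
  rw [← cert_tangent (a := a) hb]
  ring

/-- The centred certificate does not see the mean. -/
theorem edge_ge_centred {m d H K b l : ℝ}
    (hK : ∀ a b : ℝ, 0 ≤ a → 0 < b →
      certLam a b * d - certMu a b * (H + certNu a b * (1 - m)) ≤ K)
    (hb : 0 < b) (hd : d = l * tanh b) (hH : H = l * ent (tanh b)) :
    l * (b * tanh b) ≤ K := by
  have h := cert_tangent (a := 0) hb
  have e1 : sinh (2 * b) / uFn 0 b = tanh b := by
    rw [← atom_sub, zero_add, zero_sub, tanh_neg]; ring
  have e2 : e2Fn 0 b / uFn 0 b = ent (tanh b) := by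
    rw [← atom_ent, zero_add, zero_sub, tanh_neg, ent_neg]; ring
  rw [e1, e2, certNu_zero, zero_mul, add_zero] at h
  refine le_trans (le_of_eq ?_) (hK 0 b le_rfl hb)
  rw [certNu_zero, hd, hH, zero_mul, add_zero, ← h]
  ring

end Vale.Agent.P322
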