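import Vale.Agent.P322.Scalar.Compare

/-!
# Courtade–Kumar: the saturation piece for a small half difference

For `|m| + d < 1`, `d ≤ 2/5` and `H ≤ 0.262 * satWeight m` the loss of the saturation piece
under averaging is paid by `d * g` for every `g` with `d * ent (tanh g) ≤ H * tanh g`.
-/

namespace Vale.Agent.P322

open Real Set

/-- `θ ↦ exp (θ x) - 1 - θ x` lies below `θ² (exp x - 1 - x)` on `[0, 1]`. -/
lemma exp_sub_line_le {x θ : ℝ} (hx : 0 ≤ x) (h0 : 0 ≤ θ) (h1 : θ ≤ 1) :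
    exp (θ * x) - 1 - θ * x ≤ θ ^ 2 * (exp x - 1 - x) := by
  set f : ℝ → ℝ := fun y => θ ^ 2 * (exp y - 1 - y) - (exp (θ * y) - 1 - θ * y) with hf
  have hd : ∀ y, HasDerivAt f (θ ^ 2 * (exp y - 1) - (exp (θ * y) * θ - θ)) y := by
    intro y
    have e1 := (((hasDerivAt_exp y).sub_const 1).sub (hasDerivAt_id' y)).const_mul (θ ^ 2)
    have e2 := ((((hasDerivAt_id' y).const_mul θ).exp).sub_const 1).sub
      ((hasDerivAt_id' y).const_mul θ)
    refine (e1.sub e2).congr_deriv ?_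
    ring
  have hm : MonotoneOn f (Ici 0) := by
    refine monotoneOn_of_hasDerivWithinAt_nonneg (convex_Ici 0)
      (fun y _ => (hd y).continuousAt.continuousWithinAt)
      (fun y _ => (hd y).hasDerivWithinAt) fun y hy => ?_
    have hy0 : 0 ≤ y := interior_subset (s := Ici (0 : ℝ)) hy
    have hc := convexOn_exp.2 (mem_univ (0 : ℝ)) (mem_univ y) (sub_nonneg.2 h1) h0 (by ring)
    simp only [smul_eq_mul, exp_zero, mul_zero, zero_add, mul_one] at hc
    nlinarith [mul_nonneg h0 (sub_nonneg.2 hc)]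
  have := hm self_mem_Ici (show x ∈ Ici 0 from hx) hx
  simp only [hf, mul_zero, exp_zero] at this
  linarith

/-- A bound of the form `exp (2y) - 1 ≤ M y (1 + 2y)` passes from an endpoint to the interval. -/
lemma exp_chord_le {y Y M : ℝ} (hy : 0 ≤ y) (hY : y ≤ Y) (hY0 : 0 < Y) (hM : 2 ≤ M)
    (hend : exp (2 * Y) - 1 ≤ M * (Y * (1 + 2 * Y))) :
    exp (2 * y) - 1 ≤ M * (y * (1 + 2 * y)) := by
  obtain ⟨θ, h0, h1, rfl⟩ : ∃ θ, 0 ≤ θ ∧ θ ≤ 1 ∧ y = θ * Y :=
    ⟨y / Y, div_nonneg hy hY0.le, (div_le_one hY0).2 hY, by field_simp⟩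
  have h := exp_sub_line_le (x := 2 * Y) (by linarith) h0 h1
  rw [show θ * (2 * Y) = 2 * (θ * Y) by ring] at h
  nlinarith [mul_le_mul_of_nonneg_left hend (sq_nonneg θ),
    mul_nonneg (mul_nonneg (mul_nonneg h0 (sub_nonneg.2 h1)) hY0.le) (sub_nonneg.2 hM)]

/-- `ent (tanh b) * exp (11 b / 10)` decreases for `b ≥ 13/10`. -/
lemma antitoneOn_ent_tanh_mul_exp :
    AntitoneOn (fun b => ent (tanh b) * exp (11 / 10 * b)) (Ici (13 / 10)) := by
  have hd : ∀ b, HasDerivAt (fun b => ent (tanh b) * exp (11 / 10 * b))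
      ((-b / cosh b ^ 2 + 11 / 10 * ent (tanh b)) * exp (11 / 10 * b)) b := by
    intro b
    refine ((hasDerivAt_ent_tanh b).mul (((hasDerivAt_id' b).const_mul _).exp)).congr_deriv ?_
    simp only [mul_one]
    ring
  refine antitoneOn_of_hasDerivWithinAt_nonpos (convex_Ici _)
    (fun b _ => (hd b).continuousAt.continuousWithinAt)
    (fun b _ => (hd b).hasDerivWithinAt) fun b hb => ?_
  have hb' : (13 / 10 : ℝ) ≤ b := interior_subset (s := Ici (13 / 10 : ℝ)) hb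
  refine mul_nonpos_of_nonpos_of_nonneg ?_ (exp_pos _).le
  rw [ent_tanh_eq_exp]
  set E := exp (2 * b) with hE
  have hE13 : (13.463 : ℝ) ≤ E := exp_thirteen_fifths.1.trans (exp_le_exp.2 (by linarith))
  have hc : cosh b ^ 2 = (E + 1) ^ 2 / (4 * E) := by
    rw [cosh_eq, hE, two_mul b, exp_add, exp_neg]; field_simp; ring
  have hlog : log (1 + 1 / E) ≤ 1 / E := by
    linarith [log_le_sub_one_of_pos (show (0 : ℝ) < 1 + 1 / E by positivity)]
  have h2 : 2 * b / (E + 1) ≤ 2 * b / E :=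
    div_le_div_of_nonneg_left (by linarith) (by linarith) (by linarith)
  have h3 : 11 / 10 * ((1 + 2 * b) / E) ≤ b / cosh b ^ 2 := by
    rw [hc, div_div_eq_mul_div, mul_div_assoc', div_le_div_iff₀ (by linarith) (by positivity)]
    have hq : (1 + 1 / E) ^ 2 ≤ 1.16 := by
      have : 1 / E ≤ 1 / 13.463 := one_div_le_one_div_of_le (by norm_num) hE13
      calc (1 + 1 / E) ^ 2 ≤ (1 + 1 / 13.463) ^ 2 := by gcongr
        _ ≤ _ := by norm_num
    have e : (E + 1) ^ 2 = (1 + 1 / E) ^ 2 * E ^ 2 := by field_simp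
    rw [e]
    have := mul_le_mul_of_nonneg_right hq (sq_nonneg E)
    nlinarith [mul_le_mul_of_nonneg_right hb' (sq_nonneg E)]
  have h4 : (1 + 2 * b) / E = 1 / E + 2 * b / E := by ring
  rw [neg_div]
  linarith

/-- An upper bound for `Phi e + e * rate e` in terms of `b = zOf e`. -/
lemma tangentValue_le {b : ℝ} (hb : 13 / 10 ≤ b) :
    b * tanh b + ent (tanh b) * (1 + sinh (2 * b) / (2 * b)) ≤ b + 73 / 100 := by
  have hb0 : (0 : ℝ) < b := by linarith
  rw [ent_tanh_eq_exp, tanh_eq_exp, sinh_eq, exp_neg]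
  set E := exp (2 * b) with hE
  have hE13 : (13.463 : ℝ) ≤ E := exp_thirteen_fifths.1.trans (exp_le_exp.2 (by linarith))
  have hlog : log (1 + 1 / E) ≤ 1 / E := by
    linarith [log_le_sub_one_of_pos (show (0 : ℝ) < 1 + 1 / E by positivity)]
  have hs : 0 ≤ (E - E⁻¹) / 2 / (2 * b) := by
    have : E⁻¹ ≤ 1 := inv_le_one_of_one_le₀ (by linarith)
    exact div_nonneg (by linarith) (by positivity)
  have h := mul_le_mul_of_nonneg_right hlog hs
  have e : b * ((E - 1) / (E + 1)) + (1 / E + 2 * b / (E + 1))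
      + (1 / E + 2 * b / (E + 1)) * ((E - E⁻¹) / 2 / (2 * b))
      = b + 1 / E + (1 - 1 / E ^ 2) / (4 * b) + (1 - 1 / E) / 2 := by
    field_simp
    ring
  have h2 : (1 - 1 / E ^ 2) / (4 * b) ≤ 1 / (4 * (13 / 10)) := by
    refine le_trans ?_ (one_div_le_one_div_of_le (by norm_num) (by linarith : 4 * (13 / 10) ≤ 4 * b))
    gcongr
    have : (0 : ℝ) ≤ 1 / E ^ 2 := by positivity
    linarith
  have h3 : 1 / E ≤ 1 / 13.463 := one_div_le_one_div_of_le (by norm_num) hE13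
  have h2' : (1 - 1 / E ^ 2) / (4 * b) ≤ 5 / 26 := h2.trans (le_of_eq (by norm_num))
  have h3' : 1 / E ≤ 0.0743 := h3.trans (by norm_num)
  linarith

/-- The two endpoint inequalities, propagated from `zOf (1/4)` to every larger `b`. -/
lemma smallD_consts {b : ℝ} (hb : zOf (1 / 4) ≤ b) :
    2 * (938 / 1000 * ent (tanh b) * (b + 73 / 100)) ≤ 1 ∧
    938 / 1000 * ent (tanh b) * (b + 73 / 100) * (exp (2 * (233 / 500 * (b + 73 / 100))) - 1)
      ≤ 233 / 500 * (b + 73 / 100) * (1 + 2 * (233 / 500 * (b + 73 / 100))) := by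
  obtain ⟨c0, c1⟩ := zOf_quarter
  set b0 := zOf (1 / 4) with hb0
  have hx0 : ent (tanh b0) = 1 / 4 :=
    ent_tanh_zOf ⟨by norm_num, by linarith [log_two_gt_d9]⟩
  obtain ⟨Δ, hΔ, rfl⟩ : ∃ Δ, 0 ≤ Δ ∧ b = b0 + Δ := ⟨b - b0, by linarith, by ring⟩
  have hent : ent (tanh (b0 + Δ)) * exp (11 / 10 * Δ) ≤ 1 / 4 := by
    have := antitoneOn_ent_tanh_mul_exp (show b0 ∈ Ici (13 / 10) from c0)
      (show b0 + Δ ∈ Ici (13 / 10) from by simp; linarith) (by linarith)
    simp only [mul_add, exp_add, hx0] at this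
    have := exp_pos (11 / 10 * b0)
    nlinarith
  have hp := (ent_tanh_pos (b0 + Δ)).le
  set x := ent (tanh (b0 + Δ))
  set u := exp (11 / 10 * Δ) with hu
  constructor
  · have hF : b0 + Δ + 73 / 100 ≤ (b0 + 73 / 100) * u := by
      have := add_one_le_exp (11 / 10 * Δ)
      nlinarith
    calc 2 * (938 / 1000 * x * (b0 + Δ + 73 / 100))
        ≤ 2 * (938 / 1000 * x * ((b0 + 73 / 100) * u)) := by gcongr
      _ = 2 * (938 / 1000) * (b0 + 73 / 100) * (x * u) := by ring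
      _ ≤ 2 * (938 / 1000) * (131 / 100 + 73 / 100) * (1 / 4) := by gcongr
      _ ≤ 1 := by norm_num
  · have hF0 : 0 ≤ b0 + Δ + 73 / 100 := by linarith
    suffices h : 938 / 1000 * x * (exp (2 * (233 / 500 * (b0 + Δ + 73 / 100))) - 1)
        ≤ 233 / 500 * (1 + 2 * (233 / 500 * (b0 + Δ + 73 / 100))) by
      have := mul_le_mul_of_nonneg_left h hF0
      linarith
    set E := exp (2 * (233 / 500 * (b0 + 73 / 100))) with hE
    have hexp2 : exp 2 = exp 1 * exp 1 := by rw [← exp_add]; norm_num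
    have hElo : (6.58 : ℝ) ≤ E := by
      refine le_trans ?_ (exp_le_exp.2 (show 2 + -(0.108041 : ℝ) ≤ _ by linarith))
      rw [exp_add, hexp2]
      have := exp_one_gt_d9
      calc (6.58 : ℝ) ≤ 2.7182818283 * 2.7182818283 * (-0.108041 + 1) := by norm_num
        _ ≤ _ := by gcongr; exact add_one_le_exp _
    have hEhi : E ≤ 6.71 := by
      refine le_trans (exp_le_exp.2 (show _ ≤ 2 + -(0.09872 : ℝ) by linarith)) ?_
      rw [exp_add, hexp2, exp_neg]
      have := exp_one_lt_d9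
      have hq : (exp 0.09872)⁻¹ ≤ (1 + 0.09872 + 0.09872 ^ 2 / 2 : ℝ)⁻¹ :=
        inv_anti₀ (by norm_num) (quadratic_le_exp_of_nonneg (by norm_num))
      calc exp 1 * exp 1 * (exp 0.09872)⁻¹
          ≤ 2.7182818286 * 2.7182818286 * (1 + 0.09872 + 0.09872 ^ 2 / 2 : ℝ)⁻¹ := by gcongr
        _ ≤ _ := by norm_num
    have hgrow : E * exp (233 / 250 * Δ) - 1 ≤ (E - 1) * u := by
      have hsplit : u = exp (233 / 250 * Δ) * exp (42 / 250 * Δ) := by
        rw [hu, ← exp_add]; ring_nf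
      set r := exp (233 / 250 * Δ) with hr
      have hr0 : 0 < r := exp_pos _
      have h1 : 42 / 250 * Δ + 1 ≤ exp (42 / 250 * Δ) := add_one_le_exp _
      have h2 : 1 - 233 / 250 * Δ ≤ r⁻¹ := by
        rw [hr, ← exp_neg]; linarith [add_one_le_exp (-(233 / 250 * Δ))]
      have h2' : r * (1 - 233 / 250 * Δ) ≤ 1 := by
        calc r * (1 - 233 / 250 * Δ) ≤ r * r⁻¹ := by gcongr
          _ = 1 := mul_inv_cancel₀ hr0.ne'
      have h3 : (E - 1) * (r * (42 / 250 * Δ + 1)) ≤ (E - 1) * u := by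
        rw [hsplit]
        exact mul_le_mul_of_nonneg_left (mul_le_mul_of_nonneg_left h1 hr0.le) (by linarith)
      have h4 : 233 / 250 * (r * Δ) ≤ (E - 1) * (42 / 250) * (r * Δ) :=
        mul_le_mul_of_nonneg_right (by linarith) (by positivity)
      linarith
    rw [show 2 * (233 / 500 * (b0 + Δ + 73 / 100))
      = 2 * (233 / 500 * (b0 + 73 / 100)) + 233 / 250 * Δ by ring, exp_add, ← hE]
    calc 938 / 1000 * x * (E * exp (233 / 250 * Δ) - 1)
        ≤ 938 / 1000 * x * ((E - 1) * u) := by gcongr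
      _ = 938 / 1000 * (E - 1) * (x * u) := by ring
      _ ≤ 938 / 1000 * (6.71 - 1) * (1 / 4) := by gcongr
      _ ≤ 233 / 500 * (1 + 233 / 250 * (13 / 10 + 73 / 100)) := by norm_num
      _ ≤ _ := by nlinarith

lemma coef_mul_le {m d : ℝ} (hd0 : 0 ≤ d) (hd : d ≤ 2 / 5) (hm2 : m ^ 2 ≤ (1 - d) ^ 2) :
    (7 / 8 + 3 * m ^ 2 / 4 + d ^ 2 / 8) * d ≤ 233 / 500 := by
  have h1 : (7 / 8 + 3 * m ^ 2 / 4 + d ^ 2 / 8) * d
      ≤ (7 / 8 + 3 * (1 - d) ^ 2 / 4 + d ^ 2 / 8) * d := by gcongr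
  nlinarith [mul_nonneg hd0 (sub_nonneg.2 hd), mul_nonneg (sq_nonneg d) (sub_nonneg.2 hd)]

lemma satWeight_mul_coef_le {m d : ℝ} (hm : m ∈ Ioo (-1 : ℝ) 1) (hd0 : 0 ≤ d) (hd : d ≤ 2 / 5) :
    satWeight m * (7 / 8 + 3 * m ^ 2 / 4 + d ^ 2 / 8) ≤ 895 / 1000 := by
  have hd2 : d ^ 2 ≤ 4 / 25 := by nlinarith
  have h1 : satWeight m * (7 / 8 + 3 * m ^ 2 / 4 + d ^ 2 / 8)
      ≤ satWeight m * (895 / 1000 + 3 * m ^ 2 / 4) :=
    mul_le_mul_of_nonneg_left (by linarith) (satWeight_pos hm).le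
  refine h1.trans ?_
  have e : satWeight m * (895 / 1000 + 3 * m ^ 2 / 4)
      = 895 / 1000 - 265 / 8000 * m ^ 2 - 6145 / 8000 * (m ^ 2) ^ 2 - 3 / 32 * (m ^ 2) ^ 3 := by
    rw [satWeight]; ring
  have t1 : (0 : ℝ) ≤ m ^ 2 := sq_nonneg m
  have t2 : (0 : ℝ) ≤ (m ^ 2) ^ 2 := sq_nonneg _
  have t3 : (0 : ℝ) ≤ (m ^ 2) ^ 3 := pow_nonneg t1 3
  linarith

lemma scaled_le {w H : ℝ} (hw : 0 < w) (hH0 : 0 < H) (hH : H ≤ 131 / 500 * w) :
    H / w ≤ 1048 / 1000 * min (H / w) (1 / 4) := by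
  rcases le_total (H / w) (1 / 4) with h | h
  · rw [min_eq_left h]; linarith [div_pos hH0 hw]
  · rw [min_eq_right h, div_le_iff₀ hw]; linarith

lemma scaled_chord {G y Y : ℝ} (hy : 0 ≤ y) (hY : y ≤ Y) (hY0 : 0 < Y) (hG : 0 < G)
    (h2 : 2 * G ≤ 1) (hend : G * (exp (2 * Y) - 1) ≤ Y * (1 + 2 * Y)) :
    G * (exp (2 * y) - 1) ≤ y * (1 + 2 * y) := by
  have h := exp_chord_le (M := 1 / G) hy hY hY0 (by rwa [le_div_iff₀ hG]) (by
    rwa [one_div_mul_eq_div, le_div_iff₀ hG, mul_comm])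
  rwa [one_div_mul_eq_div, le_div_iff₀ hG, mul_comm] at h

lemma pay_of_exp_bound {H d y G k : ℝ} (hd0 : 0 ≤ d) (hk : 0 < k) (hy : 0 ≤ y)
    (hHk : H * k ≤ G) (hq0 : 0 ≤ exp (2 * y) - 1)
    (hexp : G * (exp (2 * y) - 1) ≤ k * (d * (1 + 2 * y))) :
    H * tanh y ≤ d * ent (tanh y) := by
  have hkey : H * (exp (2 * y) - 1) ≤ d * (1 + 2 * y) := by
    refine le_of_mul_le_mul_left ?_ hk
    calc k * (H * (exp (2 * y) - 1)) = H * k * (exp (2 * y) - 1) := by ring
      _ ≤ G * (exp (2 * y) - 1) := mul_le_mul_of_nonneg_right hHk hq0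
      _ ≤ _ := hexp
  have hEy : (1 + 2 * y) / (exp (2 * y) + 1) ≤ ent (tanh y) := by
    rw [ent_tanh_eq_exp, add_div]
    have := one_sub_inv_le_log_of_pos (show (0 : ℝ) < 1 + 1 / exp (2 * y) by positivity)
    have e : 1 - (1 + 1 / exp (2 * y))⁻¹ = 1 / (exp (2 * y) + 1) := by
      have := exp_pos (2 * y); field_simp; ring
    linarith
  nth_rw 1 [tanh_eq_exp]
  calc H * ((exp (2 * y) - 1) / (exp (2 * y) + 1))
        = H * (exp (2 * y) - 1) / (exp (2 * y) + 1) := by ring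
    _ ≤ d * (1 + 2 * y) / (exp (2 * y) + 1) :=
        div_le_div_of_nonneg_right hkey (by positivity)
    _ = d * ((1 + 2 * y) / (exp (2 * y) + 1)) := by ring
    _ ≤ _ := mul_le_mul_of_nonneg_left hEy hd0

/-- **Small half difference.** With `x = min (H / w) (1/4)`, the tangent value of the saturation
piece times its averaging loss is at most `g`. -/
theorem satLoss_le_smallD {m d H g : ℝ} (hmd : |m| + d < 1) (hd0 : 0 ≤ d) (hd : d ≤ 2 / 5)
    (hH0 : 0 < H) (hH : H ≤ 131 / 500 * satWeight m) (hg0 : 0 ≤ g)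
    (hg : d * ent (tanh g) ≤ H * tanh g) :
    (7 / 8 + 3 * m ^ 2 / 4 + d ^ 2 / 8) * d
        * (Phi (min (H / satWeight m) (1 / 4))
          + min (H / satWeight m) (1 / 4) * rate (min (H / satWeight m) (1 / 4))) ≤ g := by
  have hm : m ∈ Ioo (-1 : ℝ) 1 := abs_lt.1 (by linarith)
  have hw := satWeight_pos hm
  set c := 7 / 8 + 3 * m ^ 2 / 4 + d ^ 2 / 8 with hcdef
  have hc : 0 < c := by positivity
  set w := satWeight m with hwdef
  set x := min (H / w) (1 / 4) with hx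
  have hxpos : 0 < x := lt_min (div_pos hH0 hw) (by norm_num)
  have hxmem : x ∈ Ioc 0 (log 2) :=
    ⟨hxpos, (min_le_right _ _).trans (by linarith [log_two_gt_d9])⟩
  have hb : zOf (1 / 4) ≤ zOf x :=
    antitoneOn_zOf hxpos (show (1 / 4 : ℝ) ∈ Ioi 0 by norm_num) (min_le_right _ _)
  have hb13 : 13 / 10 ≤ zOf x := zOf_quarter.1.trans hb
  have hent := ent_tanh_zOf hxmem
  have hrate : rate x = 1 + sinh (2 * zOf x) / (2 * zOf x) := by
    rw [rate, if_neg (by linarith)]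
  rw [Phi_eq, hrate]
  have hval := tangentValue_le hb13
  rw [hent] at hval
  obtain ⟨hG2, hGY⟩ := smallD_consts hb
  rw [hent] at hG2 hGY
  set b := zOf x
  set F := b + 73 / 100 with hF
  have hF0 : 0 < F := by linarith
  refine le_trans (mul_le_mul_of_nonneg_left hval (by positivity)) ?_
  by_contra hcon
  push Not at hcon
  set y := c * d * F with hy
  have hdpos : 0 < d := by
    rcases hd0.lt_or_eq with h | h
    · exact h
    · rw [← h, mul_zero, zero_mul] at hy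
      linarith
  have hy0 : 0 < y := by positivity
  have hm2 : m ^ 2 ≤ (1 - d) ^ 2 := by
    rw [← sq_abs]; exact pow_le_pow_left₀ (abs_nonneg m) (by linarith) 2
  have hK : c * d ≤ 233 / 500 := coef_mul_le hd0 hd hm2
  have hA : w * c ≤ 895 / 1000 := satWeight_mul_coef_le hm hd0 hd
  have hx0 : H / w ≤ 1048 / 1000 * x := scaled_le hw hH0 hH
  set G := 938 / 1000 * x * F with hGdef
  have hGpos : 0 < G := by positivity
  have hexp : G * (exp (2 * y) - 1) ≤ y * (1 + 2 * y) :=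
    scaled_chord hy0.le (mul_le_mul_of_nonneg_right hK hF0.le) (by positivity) hGpos hG2 hGY
  have hq0 : 0 ≤ exp (2 * y) - 1 := by linarith [one_le_exp (show (0 : ℝ) ≤ 2 * y by linarith)]
  have hHw : H * c * F ≤ G := by
    calc H * c * F = H / w * (w * c) * F := by field_simp
      _ ≤ 1048 / 1000 * x * (895 / 1000) * F := by gcongr
      _ ≤ G := by rw [hGdef]; linarith [mul_pos hxpos hF0]
  have hsuff : H * tanh y ≤ d * ent (tanh y) :=
    pay_of_exp_bound hd0 (mul_pos hc hF0) hy0.le (le_of_eq_of_le (mul_assoc H c F).symm hHw) hq0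
      (hexp.trans (le_of_eq (by rw [hy]; ring)))
  have hlt : ent (tanh y) < ent (tanh g) := ent_tanh_lt_ent_tanh hg0 hcon
  have htg : H * tanh g ≤ H * tanh y :=
    mul_le_mul_of_nonneg_left (strictMono_tanh' hcon).le hH0.le
  linarith [mul_lt_mul_of_pos_left hlt hdpos]

/-- The saturation piece loses at most `d * g` under averaging, for `H ≤ satWeight m / 4`. -/
theorem perspPhi_le_avg_add_smallD {m d H g : ℝ} (hmd : |m| + d < 1) (hd0 : 0 ≤ d)
    (hd : d ≤ 2 / 5) (hH0 : 0 < H) (hH : H ≤ 1 / 4 * satWeight m) (hg0 : 0 ≤ g)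
    (hg : d * ent (tanh g) ≤ H * tanh g) :
    perspPhi (satWeight m) H
      ≤ perspPhi ((satWeight (m + d) + satWeight (m - d)) / 2) H + d * g := by
  have hm : m ∈ Ioo (-1 : ℝ) 1 := abs_lt.1 (by linarith)
  have hm' := abs_le.1 (le_refl |m|)
  have hw := satWeight_pos hm
  have hp := satWeight_pos (show m + d ∈ Ioo (-1 : ℝ) 1 from ⟨by linarith, by linarith⟩)
  have hq := satWeight_pos (show m - d ∈ Ioo (-1 : ℝ) 1 from ⟨by linarith, by linarith⟩)
  have hw' : 0 < (satWeight (m + d) + satWeight (m - d)) / 2 := by positivity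
  have key := satLoss_le_smallD hmd hd0 hd hH0 (hH.trans (by nlinarith)) hg0 hg
  have hx4 : H / satWeight m ≤ 1 / 4 := by rw [div_le_iff₀ hw]; linarith
  rw [min_eq_left hx4] at key
  have htan := Phi_tangent (e := H / satWeight m)
    (e' := H / ((satWeight (m + d) + satWeight (m - d)) / 2))
    ⟨div_pos hH0 hw, hx4.trans (by linarith [log_two_gt_d9])⟩ (div_pos hH0 hw')
  rw [satWeight_avg] at hw' htan ⊢
  set w := satWeight m
  set D := d ^ 2 * (7 / 8 + 3 * m ^ 2 / 4 + d ^ 2 / 8) with hD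
  have h1 := mul_le_mul_of_nonneg_left htan hw'.le
  have e : (w - D) * (Phi (H / w) - rate (H / w) * (H / (w - D) - H / w))
      = w * Phi (H / w) - D * (Phi (H / w) + H / w * rate (H / w)) := by
    field_simp
    ring
  rw [e] at h1
  have h2 := mul_le_mul_of_nonneg_left key hd0
  unfold perspPhi
  rw [hD] at h1 ⊢
  linarith

end Vale.Agent.P322
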