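import Vale.Agent.P322.Scalar.Path
import Vale.Agent.P322.Scalar.SmallD

/-!
# Courtade–Kumar: the exit lemma away from `m = 0` for a small half difference

At `H + phiFn m = 1/4` the increment of `F0` over the children is paid by the centred certificate
when `284/1000 ≤ m` and `d ≤ 9/20 (1 - m)`.
-/

namespace Vale.Agent.P322

open Real Set

lemma exists_centred_atom {d H : ℝ} (hd : 0 < d) (hH : 0 < H) :
    ∃ b l, 0 < b ∧ 0 < l ∧ d = l * tanh b ∧ H = l * ent (tanh b) := by
  set f : ℝ → ℝ := fun b => d * ent (tanh b) - H * tanh b with hf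
  have hc : Continuous f :=
    (continuous_const.mul (continuous_ent.comp continuous_tanh')).sub
      (continuous_const.mul continuous_tanh')
  set B := max 1 (5 * d / H) with hB
  have hB1 : 1 ≤ B := le_max_left _ _
  have hB5 : 5 * d ≤ B * H := (div_le_iff₀ hH).1 (le_max_right _ _)
  have hfB : f B < 0 := by
    have hq := quadratic_le_exp_of_nonneg (show 0 ≤ 2 * B by linarith)
    have he : ent (tanh B) ≤ 2 / B := by
      rw [ent_tanh_eq_exp]
      set E := exp (2 * B)
      have hE : 0 < E := exp_pos _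
      have hl : log (1 + 1 / E) ≤ 1 / E := by
        linarith [log_le_sub_one_of_pos (show (0 : ℝ) < 1 + 1 / E by positivity)]
      have h2 : 2 * B / (E + 1) ≤ 2 * B / E :=
        div_le_div_of_nonneg_left (by linarith) hE (by linarith)
      have h3 : (1 + 2 * B) / E ≤ 2 / B := by
        rw [div_le_div_iff₀ hE (by linarith)]
        nlinarith
      rw [add_div] at h3
      linarith
    have ht : (1 : ℝ) / 2 ≤ tanh B := by
      rw [tanh_eq_exp, le_div_iff₀ (by positivity)]
      nlinarith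
    have h1 := mul_le_mul_of_nonneg_left he hd.le
    have h2 := mul_le_mul_of_nonneg_left ht hH.le
    have h3 : d * (2 / B) ≤ 2 / 5 * H := by
      rw [mul_div_assoc', div_le_iff₀ (by linarith)]
      linarith
    simp only [hf]
    linarith
  have hf0 : 0 < f 0 := by
    simp only [hf, tanh_zero, ent_zero, mul_zero, sub_zero]
    exact mul_pos hd (log_pos one_lt_two)
  obtain ⟨b, hb, hfb⟩ := intermediate_value_Icc' (show (0 : ℝ) ≤ B by linarith) hc.continuousOn
    (show (0 : ℝ) ∈ Icc (f B) (f 0) from ⟨hfB.le, hf0.le⟩)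
  have hb0 : 0 < b := by
    rcases hb.1.lt_or_eq with h | h
    · exact h
    · rw [← h] at hfb; linarith
  have ht : 0 < tanh b := by simpa using strictMono_tanh' hb0
  refine ⟨b, d / tanh b, hb0, div_pos hd ht, by field_simp, ?_⟩
  simp only [hf] at hfb
  rw [div_mul_eq_mul_div, eq_div_iff ht.ne']
  linarith

/-- `b * ent (tanh b) / tanh b ≥ 93/200` on `(0, 1]`. -/
lemma centred_cost_ge {b : ℝ} (h0 : 0 < b) (h1 : b ≤ 1) :
    93 / 200 * tanh b ≤ b * ent (tanh b) := by
  have hlow : (2 * b + 1) / (exp (2 * b) + 1) ≤ ent (tanh b) := by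
    rw [ent_tanh_eq_exp]
    set E := exp (2 * b) with hE
    have hE0 : 0 < E := exp_pos _
    have hlo := one_sub_inv_le_log_of_pos (show (0 : ℝ) < 1 + 1 / E by positivity)
    have e : 1 - (1 + 1 / E)⁻¹ = 1 / (E + 1) := by field_simp; ring
    rw [add_div]
    linarith
  have hE : exp (2 * b) ≤ 1 + 2 * b + 4.3891 * b ^ 2 := by
    have h := exp_sub_line_le (x := 2) (by norm_num) h0.le h1
    have h2 : exp 2 ≤ 7.3891 := by
      rw [show (2 : ℝ) = 1 + 1 by norm_num, exp_add]
      have := exp_one_lt_d9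
      calc exp 1 * exp 1 ≤ 2.7182818286 * 2.7182818286 := by gcongr
        _ ≤ _ := by norm_num
    have h3 := mul_le_mul_of_nonneg_left h2 (sq_nonneg b)
    rw [mul_comm b 2] at h
    linarith
  -- `tanh b ≤ b (15 + b²) / (15 + 6 b²)`
  set q : ℝ → ℝ := fun y => y * (15 + y ^ 2) / (15 + 6 * y ^ 2) with hq
  have hq1 : ∀ y ∈ Icc (0 : ℝ) 1, q y < 1 ∧ 0 ≤ q y := by
    rintro y ⟨hy0, hy1⟩
    refine ⟨?_, by positivity⟩
    rw [hq, div_lt_one (by positivity)]
    nlinarith [mul_nonneg hy0 (sub_nonneg.2 hy1)]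
  have hd : ∀ y ∈ Icc (0 : ℝ) 1, HasDerivAt (fun y => artanh (q y) - y)
      (1 / (1 - q y ^ 2) * ((225 - 45 * y ^ 2 + 6 * y ^ 4) / (15 + 6 * y ^ 2) ^ 2) - 1) y := by
    intro y hy
    have hqy := hq1 y hy
    have hdq : HasDerivAt q ((225 - 45 * y ^ 2 + 6 * y ^ 4) / (15 + 6 * y ^ 2) ^ 2) y := by
      refine (((hasDerivAt_id' y).mul ((hasDerivAt_pow 2 y).const_add 15)).div
        (((hasDerivAt_pow 2 y).const_mul 6).const_add 15) (by positivity)).congr_deriv ?_
      simp only [Pi.mul_apply]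
      push_cast
      ring
    exact ((hasDerivAt_artanh' (by linarith [hqy.2]) hqy.1).comp y hdq).sub (hasDerivAt_id' y)
  have hm : MonotoneOn (fun y => artanh (q y) - y) (Icc (0 : ℝ) 1) := by
    refine monotoneOn_of_hasDerivWithinAt_nonneg (convex_Icc _ _)
      (fun y hy => (hd y hy).continuousAt.continuousWithinAt)
      (fun y hy => (hd y (interior_subset hy)).hasDerivWithinAt) fun y hy => ?_
    have hy' := interior_subset hy
    have hqy := hq1 y hy'
    have hpos : 0 < 1 - q y ^ 2 := by nlinarith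
    rw [sub_nonneg, one_div_mul_eq_div, le_div_iff₀ hpos, one_mul,
      le_div_iff₀ (by positivity)]
    have e : (1 - q y ^ 2) * (15 + 6 * y ^ 2) ^ 2
        = (15 + 6 * y ^ 2) ^ 2 - (y * (15 + y ^ 2)) ^ 2 := by
      simp only [hq]; field_simp
    rw [e]
    nlinarith [pow_nonneg (mul_nonneg hy'.1 hy'.1) 3]
  have h := hm (left_mem_Icc.2 zero_le_one) ⟨h0.le, h1⟩ h0.le
  simp only [hq, zero_mul, zero_div, artanh_zero, sub_zero] at h
  have hb := hq1 b ⟨h0.le, h1⟩
  have ht : tanh b ≤ q b := by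
    calc tanh b ≤ tanh (artanh (q b)) := strictMono_tanh'.monotone (by simp only [hq]; linarith)
      _ = q b := tanh_artanh ⟨by linarith [hb.2], hb.1⟩
  refine (mul_le_mul_of_nonneg_left ht (by norm_num)).trans
    (le_trans ?_ (mul_le_mul_of_nonneg_left hlow h0.le))
  simp only [hq]
  rw [← mul_div_assoc, ← mul_div_assoc, div_le_div_iff₀ (by positivity) (by positivity)]
  have hk : 93 / 200 * (15 + b ^ 2) * (exp (2 * b) + 1) ≤ (2 * b + 1) * (15 + 6 * b ^ 2) := by
    calc 93 / 200 * (15 + b ^ 2) * (exp (2 * b) + 1)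
        ≤ 93 / 200 * (15 + b ^ 2) * (1 + 2 * b + 4.3891 * b ^ 2 + 1) := by gcongr
      _ ≤ _ := by
        nlinarith [mul_nonneg h0.le (sub_nonneg.2 h1), mul_nonneg (sq_nonneg b) (sub_nonneg.2 h1),
          mul_nonneg (mul_nonneg h0.le (sq_nonneg b)) (sub_nonneg.2 h1),
          mul_nonneg h0.le (sq_nonneg (1 - b))]
  have := mul_le_mul_of_nonneg_left hk h0.le
  linarith

lemma gapEnt_small_le {m d : ℝ} (hm : 0 ≤ m) (hm1 : m < 1) (hd : 0 ≤ d)
    (hq : d ≤ 9 / 20 * (1 - m)) :
    gapEnt (m + d) (m - d) * (1 - m ^ 2) ≤ 27 / 50 * d ^ 2 := by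
  rw [gapEnt_split (by linarith) (by linarith)]
  have hA : 0 < 1 + m := by linarith
  have hB : 0 < 1 - m := by linarith
  have hxA : d / (1 + m) ≤ 9 / 20 := by rw [div_le_iff₀ hA]; linarith
  have hxB : d / (1 - m) ≤ 9 / 20 := by rw [div_le_iff₀ hB]; linarith
  have key : ∀ A : ℝ, 0 < A → d / A ≤ 9 / 20 →
      A * phiFn (d / A) ≤ (1 / 2 + 1932 / 10000 * (81 / 400)) * (d ^ 2 / A) := by
    intro A hA h
    have h0 : 0 ≤ d / A := div_nonneg hd hA.le
    have h2 : (d / A) ^ 2 ≤ 81 / 400 := by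
      calc (d / A) ^ 2 ≤ (9 / 20) ^ 2 := pow_le_pow_left₀ h0 h 2
        _ = _ := by norm_num
    have h4 := mul_le_mul_of_nonneg_left h2 (sq_nonneg (d / A))
    have hφ := phiFn_le_quartic (x := d / A) ⟨h0, by linarith⟩
    rw [show d ^ 2 / A = A * (d / A) ^ 2 by field_simp, ← mul_assoc, mul_comm _ A, mul_assoc]
    refine mul_le_mul_of_nonneg_left ?_ hA.le
    linarith [show (d / A) ^ 4 = (d / A) ^ 2 * (d / A) ^ 2 by ring]
  have h1 := key _ hA hxA
  have h2 := key _ hB hxB
  have e : (d ^ 2 / (1 + m) + d ^ 2 / (1 - m)) * (1 - m ^ 2) = 2 * d ^ 2 := by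
    field_simp; ring
  have h3 := mul_le_mul_of_nonneg_right (add_le_add h1 h2)
    (show (0 : ℝ) ≤ 1 - m ^ 2 by nlinarith)
  nlinarith [sq_nonneg d]

/-- **The exit lemma away from `m = 0`, small half difference.** -/
theorem exit_small {m d H K : ℝ} (hm : 284 / 1000 ≤ m) (hd : 0 < d)
    (hq : d ≤ 9 / 20 * (1 - m)) (hmd : m + d < 1) (hH : 0 < H)
    (hX : H = ent m - Real.log 2 + 1 / 4) (hE : H <= (ent (m + d) + ent (m - d)) / 2)
    (hK : ∀ b l : ℝ, 0 < b → 0 < l → d = l * tanh b → H = l * ent (tanh b) →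
      l * (b * tanh b) ≤ K) :
    Phi (1 / 4) - F0 ((ent (m + d) + ent (m - d)) / 2 - H) ≤ K := by
  have hm1 : m < 1 := by linarith
  set g := gapEnt (m + d) (m - d) with hg
  have hg0 : 0 ≤ g := gapEnt_nonneg ⟨by linarith, hmd.le⟩ ⟨by linarith, by linarith⟩
  have hgE : g = ent m - (ent (m + d) + ent (m - d)) / 2 := by
    rw [hg, gapEnt, show (m + d + (m - d)) / 2 = m by ring]
  have hF : F0 ((ent (m + d) + ent (m - d)) / 2 - H) = Phi (1 / 4 + g) := by
    rw [F0]; congr 1; linarith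
  rw [hF]
  have htan := Phi_tangent (e := 1 / 4) (e' := 1 / 4 + g)
    ⟨by norm_num, by linarith [log_two_gt_d9]⟩ (by linarith)
  have hR := mul_le_mul_of_nonneg_right (rate_quarter_le.trans (by norm_num : (3.608 : ℝ) ≤ 361 / 100)) hg0
  obtain ⟨b, l, hb, hl, hdl, hHl⟩ := exists_centred_atom hd hH
  refine le_trans ?_ (hK b l hb hl hdl hHl)
  have hkd : l * (b * tanh b) = b * d := by rw [hdl]; ring
  rw [hkd]
  have hm2 : 0 < 1 - m ^ 2 := by nlinarith
  have hgap := gapEnt_small_le (by linarith) hm1 hd.le hq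
  rw [← hg] at hgap
  suffices h : 361 / 100 * g * (1 - m ^ 2) ≤ b * d * (1 - m ^ 2) by
    have := le_of_mul_le_mul_right h hm2
    linarith
  rcases le_or_gt b 1 with hb1 | hb1
  · have hc := centred_cost_ge hb hb1
    have hHm : H ≤ 477 / 2000 * (1 - m ^ 2) := by
      have := sq_half_le_phiFn (x := m) ⟨by linarith, hm1.le⟩
      rw [phiFn] at this
      nlinarith
    have ht : 0 < tanh b := by simpa using strictMono_tanh' hb
    have hdH : 93 / 200 * d ≤ b * H := by
      rw [hdl, hHl]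
      have := mul_le_mul_of_nonneg_left hc hl.le
      linarith
    refine le_of_mul_le_mul_left ?_ hH
    have a1 := mul_le_mul_of_nonneg_left hgap (show (0 : ℝ) ≤ 361 / 100 * H by positivity)
    have a2 := mul_le_mul_of_nonneg_left hHm (show (0 : ℝ) ≤ 361 / 100 * (27 / 50) * d ^ 2 by
      positivity)
    have a3 := mul_le_mul_of_nonneg_left hdH (show (0 : ℝ) ≤ d * (1 - m ^ 2) by positivity)
    nlinarith [mul_nonneg (sq_nonneg d) hm2.le]
  · have a1 : d ^ 2 ≤ d * (9 / 20 * (1 - m)) := by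
      rw [sq]; exact mul_le_mul_of_nonneg_left hq hd.le
    have a2 := mul_le_mul_of_nonneg_left hb1.le (mul_nonneg hd.le hm2.le)
    nlinarith [mul_nonneg (mul_nonneg hd.le (show (0 : ℝ) ≤ 1 - m by linarith))
      (show (0 : ℝ) ≤ m by linarith)]

end Vale.Agent.P322
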