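import Vale.Agent.P322.Scalar.Phi2
import Vale.Agent.P322.Scalar.SmallD

/-!
# Courtade–Kumar: the saturation step through the children's saturation terms

At the state `d = l * tanh b`, `H = l * ent (tanh b)` the saturation term is at most the edge cost
`l * b * tanh b` plus the children's saturation terms, provided `l` stays away from `satWeight m`:
`l ≤ w / 2`, or `l ≤ 27/50 w` for `b ≤ 1/5`, or `l ≤ (1 - exp (-b)) w` for `b ≥ 5`.
-/

namespace Vale.Agent.P322

open Real Set

/-- The centred form of the step. -/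
def CentredP (b l : ℝ) : Prop :=
  Phi2 (l * ent (tanh b)) ≤
    l * (b * tanh b) + persp2 (uChild (l * tanh b)) (l * ent (tanh b))

lemma satP_of_centred {b l m : ℝ} (hb : 0 < b) (hl : 0 < l) (hm : m ∈ Ioo (-1 : ℝ) 1)
    (hlw : l ≤ satWeight m) (h : CentredP b (l / satWeight m)) :
    persp2 (satWeight m) (l * ent (tanh b)) ≤ l * (b * tanh b)
      + persp2 ((satWeight (m + l * tanh b) + satWeight (m - l * tanh b)) / 2)
          (l * ent (tanh b)) := by
  have hw := satWeight_pos hm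
  have ht : 0 ≤ tanh b := tanh_nonneg' hb.le
  refine persp2_transfer hm (mul_nonneg hl.le ht) ?_ (mul_pos hl (ent_tanh_pos b)) ?_
  · calc l * tanh b < l * 1 := mul_lt_mul_of_pos_left (tanh_lt_one b) hl
      _ ≤ satWeight m := by linarith
  · unfold CentredP at h
    rw [show l * (b * tanh b) / satWeight m = l / satWeight m * (b * tanh b) by ring,
      show l * tanh b / satWeight m = l / satWeight m * tanh b by ring,
      show l * ent (tanh b) / satWeight m = l / satWeight m * ent (tanh b) by ring]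
    exact h

/-- The criterion from one common tangent. -/
lemma centred_of_crude {b l : ℝ} (hb : 0 < b) (hl : 0 < l) (hl1 : l ≤ 1)
    (h : l * tanh b * (7 / 8 + (l * tanh b) ^ 2 / 8) * alphaT (eCap (l * ent (tanh b))) ≤ b) :
    CentredP b l := by
  have hH := mul_pos hl (ent_tanh_pos b)
  have ht : 0 ≤ tanh b := tanh_nonneg' hb.le
  have hu : 0 < uChild (l * tanh b) := uChild_pos (mul_nonneg hl.le ht)
    (lt_of_le_of_lt (mul_le_of_le_one_left ht hl1) (tanh_lt_one b))
  refine le_trans ?_ (add_le_add le_rfl (tangent_le_persp2 (eCap_mem hH) hu hH))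
  rw [Phi2_eq_tangent]
  have := mul_le_mul_of_nonneg_left h (mul_nonneg hl.le ht)
  unfold uChild
  linarith

/-! ### Bounds on the tangent value -/

lemma alphaT_eq {e : ℝ} (he : e ∈ Ioc (0 : ℝ) (1 / 4)) :
    alphaT e = zOf e + log (1 + 1 / exp (2 * zOf e)) + 1 / 2 - 1 / (2 * exp (2 * zOf e))
      + log (1 + 1 / exp (2 * zOf e)) * (exp (2 * zOf e) - 1 / exp (2 * zOf e))
        / (4 * zOf e) := by
  have hb : 13 / 10 ≤ zOf e := zOf_quarter.1.trans
    (antitoneOn_zOf he.1 (show (1 / 4 : ℝ) ∈ Ioi 0 by norm_num) he.2)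
  have hb0 : 0 < zOf e := by linarith
  have hmem : e ∈ Ioc 0 (log 2) := ⟨he.1, he.2.trans quarter_le_log_two⟩
  have hr : rate e = 1 + sinh (2 * zOf e) / (2 * zOf e) := by rw [rate, if_neg hb0.ne']
  have hent := ent_tanh_zOf hmem
  rw [ent_tanh_eq_exp] at hent
  rw [alphaT, Phi_eq, hr, tanh_eq_exp, sinh_eq, exp_neg]
  set b := zOf e
  set E := exp (2 * b) with hE
  have hE0 : 0 < E := exp_pos _
  set l := log (1 + 1 / E)
  rw [← hent]
  field_simp
  ring

lemma alphaT_bounds {e : ℝ} (he : e ∈ Ioc (0 : ℝ) (1 / 4)) :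
    zOf e + 1 / 2 + (1 - 1 / exp (2 * zOf e)) / (4 * zOf e) ≤ alphaT e ∧
      alphaT e ≤ zOf e + 1 / 2 + 1 / (2 * exp (2 * zOf e)) + 1 / (4 * zOf e) := by
  rw [alphaT_eq he]
  have hb : 13 / 10 ≤ zOf e := zOf_quarter.1.trans
    (antitoneOn_zOf he.1 (show (1 / 4 : ℝ) ∈ Ioi 0 by norm_num) he.2)
  set b := zOf e
  set E := exp (2 * b) with hE
  have hE1 : 1 ≤ E := one_le_exp (by linarith)
  have hhi : log (1 + 1 / E) ≤ 1 / E := by
    linarith [log_le_sub_one_of_pos (show (0 : ℝ) < 1 + 1 / E by positivity)]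
  have hlo : 1 / (E + 1) ≤ log (1 + 1 / E) := by
    have := one_sub_inv_le_log_of_pos (show (0 : ℝ) < 1 + 1 / E by positivity)
    have e : 1 - (1 + 1 / E)⁻¹ = 1 / (E + 1) := by field_simp; ring
    linarith
  have hE' : 0 ≤ E - 1 / E := by
    have : 1 / E ≤ 1 := (div_le_one (by linarith)).2 hE1
    linarith
  have h4 : (0 : ℝ) ≤ 4 * b := by linarith
  constructor
  · have h1 : (1 - 1 / E) / (4 * b) ≤ log (1 + 1 / E) * (E - 1 / E) / (4 * b) := by
      refine div_le_div_of_nonneg_right (le_trans (le_of_eq ?_)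
        (mul_le_mul_of_nonneg_right hlo hE')) h4
      field_simp
      ring
    have h2 : 1 / (2 * E) ≤ 1 / (E + 1) := one_div_le_one_div_of_le (by linarith) (by linarith)
    linarith
  · have h1 : log (1 + 1 / E) * (E - 1 / E) / (4 * b) ≤ 1 / (4 * b) := by
      refine div_le_div_of_nonneg_right
        ((mul_le_mul_of_nonneg_right hhi hE').trans ?_) h4
      rw [show 1 / E * (E - 1 / E) = 1 - (1 / E) ^ 2 by field_simp]
      nlinarith [sq_nonneg (1 / E)]
    have h2 : 1 / (2 * E) = 1 / E - 1 / (2 * E) := by field_simp; ring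
    linarith

lemma alphaT_quarter_le : alphaT (1 / 4) ≤ 2.04 := by
  obtain ⟨c0, c1⟩ := zOf_quarter
  have hmem : (1 / 4 : ℝ) ∈ Ioc (0 : ℝ) (1 / 4) := ⟨by norm_num, le_rfl⟩
  refine (alphaT_bounds hmem).2.trans ?_
  have h1 : 1 / (2 * exp (2 * zOf (1 / 4))) ≤ 1 / (2 * 13.463) :=
    one_div_le_one_div_of_le (by norm_num) (by
      linarith [exp_thirteen_fifths.1,
        exp_le_exp.2 (by linarith : 2 * (13 / 10) ≤ 2 * zOf (1 / 4))])
  have h2 : 1 / (4 * zOf (1 / 4)) ≤ 1 / (4 * (13 / 10)) :=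
    one_div_le_one_div_of_le (by norm_num) (by linarith)
  norm_num at h1 h2 ⊢
  linarith

/-- `ent (tanh b)` between its two elementary bounds, with `z = exp (-2b)`. -/
lemma ent_tanh_bounds {b : ℝ} (hb : 0 ≤ b) :
    (2 * b + 1) / (exp (2 * b) + 1) ≤ ent (tanh b) ∧
      ent (tanh b) ≤ (2 * b + 1) / exp (2 * b) := by
  rw [ent_tanh_eq_exp]
  set E := exp (2 * b) with hE
  have hE0 : 0 < E := exp_pos _
  have hhi : log (1 + 1 / E) ≤ 1 / E := by
    linarith [log_le_sub_one_of_pos (show (0 : ℝ) < 1 + 1 / E by positivity)]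
  have hlo : 1 / (E + 1) ≤ log (1 + 1 / E) := by
    have := one_sub_inv_le_log_of_pos (show (0 : ℝ) < 1 + 1 / E by positivity)
    have e : 1 - (1 + 1 / E)⁻¹ = 1 / (E + 1) := by field_simp; ring
    linarith
  have h : 2 * b / (E + 1) ≤ 2 * b / E :=
    div_le_div_of_nonneg_left (by linarith) hE0 (by linarith)
  rw [add_div, add_div]
  constructor <;> linarith

lemma alphaT_le_neg_log {x : ℝ} (hx : x ∈ Ioc (0 : ℝ) (1 / 4)) :
    alphaT x ≤ -log x + 0.76 := by
  have hmem : x ∈ Ioc 0 (log 2) := ⟨hx.1, hx.2.trans quarter_le_log_two⟩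
  have hb : 13 / 10 ≤ zOf x := zOf_quarter.1.trans
    (antitoneOn_zOf hx.1 (show (1 / 4 : ℝ) ∈ Ioi 0 by norm_num) hx.2)
  have hα := (alphaT_bounds hx).2
  have hxle := (ent_tanh_bounds (show 0 ≤ zOf x by linarith)).2
  rw [ent_tanh_zOf hmem] at hxle
  have hlx : log x ≤ log (2 * zOf x + 1) - 2 * zOf x := by
    refine (log_le_log hx.1 hxle).trans (le_of_eq ?_)
    rw [log_div (by linarith) (exp_pos _).ne', log_exp]
  have h36 : log (3.6 : ℝ) ≤ 1.2853 := by
    rw [log_le_iff_le_exp (by norm_num), show (1.2853 : ℝ) = 1 + 0.2853 by norm_num, exp_add]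
    have := exp_one_gt_d9
    calc (3.6 : ℝ) ≤ 2.7182818283 * (1 + 0.2853 + 0.2853 ^ 2 / 2) := by norm_num
      _ ≤ _ := by gcongr; exact quadratic_le_exp_of_nonneg (by norm_num)
  have hl : log (2 * zOf x + 1) ≤ log 3.6 + ((2 * zOf x + 1) / 3.6 - 1) := by
    have h := log_le_sub_one_of_pos (show (0 : ℝ) < (2 * zOf x + 1) / 3.6 by positivity)
    rw [log_div (by linarith) (by norm_num)] at h
    linarith
  have h1 : 1 / (2 * exp (2 * zOf x)) ≤ 1 / (2 * 13.463) :=
    one_div_le_one_div_of_le (by norm_num) (by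
      linarith [exp_thirteen_fifths.1, exp_le_exp.2 (by linarith : 2 * (13 / 10) ≤ 2 * zOf x)])
  have h2 : 1 / (4 * zOf x) ≤ 1 / (4 * (13 / 10)) :=
    one_div_le_one_div_of_le (by norm_num) (by linarith)
  norm_num at h1 h2 h36 hl hα ⊢
  linarith

lemma tanh_le_pade {b : ℝ} (h0 : 0 ≤ b) (h1 : b ≤ 7 / 5) :
    tanh b ≤ b * (15 + b ^ 2) / (15 + 6 * b ^ 2) := by
  set q : ℝ → ℝ := fun y => y * (15 + y ^ 2) / (15 + 6 * y ^ 2) with hq
  have hq1 : ∀ y ∈ Icc (0 : ℝ) (7 / 5), q y < 1 ∧ 0 ≤ q y := by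
    rintro y ⟨hy0, hy1⟩
    refine ⟨?_, by positivity⟩
    rw [hq, div_lt_one (by positivity)]
    nlinarith [mul_nonneg hy0 (sub_nonneg.2 hy1)]
  have hd : ∀ y ∈ Icc (0 : ℝ) (7 / 5), HasDerivAt (fun y => artanh (q y) - y)
      (1 / (1 - q y ^ 2) * ((225 - 45 * y ^ 2 + 6 * y ^ 4) / (15 + 6 * y ^ 2) ^ 2) - 1) y := by
    intro y hy
    have hqy := hq1 y hy
    have hdq : HasDerivAt q ((225 - 45 * y ^ 2 + 6 * y ^ 4) / (15 + 6 * y ^ 2) ^ 2) y := by
      refine (((hasDerivAt_id' y).mul ((hasDerivAt_pow 2 y).const_add 15)).div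
        (((hasDerivAt_pow 2 y).const_mul 6).const_add 15) (by positivity)).congr_deriv ?_
      simp only [Pi.mul_apply]
      push_cast
      ring
    exact ((hasDerivAt_artanh' (by linarith [hqy.2]) hqy.1).comp y hdq).sub (hasDerivAt_id' y)
  have hm : MonotoneOn (fun y => artanh (q y) - y) (Icc (0 : ℝ) (7 / 5)) := by
    refine monotoneOn_of_hasDerivWithinAt_nonneg (convex_Icc _ _)
      (fun y hy => (hd y hy).continuousAt.continuousWithinAt)
      (fun y hy => (hd y (interior_subset hy)).hasDerivWithinAt) fun y hy => ?_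
    have hy' := interior_subset hy
    have hqy := hq1 y hy'
    have hpos : 0 < 1 - q y ^ 2 := by nlinarith
    rw [sub_nonneg, one_div_mul_eq_div, le_div_iff₀ hpos, one_mul,
      le_div_iff₀ (by positivity)]
    have e : (1 - q y ^ 2) * (15 + 6 * y ^ 2) ^ 2
        = (15 + 6 * y ^ 2) ^ 2 - (y * (15 + y ^ 2)) ^ 2 := by
      simp only [hq]; field_simp
    rw [e]
    nlinarith [pow_nonneg (mul_nonneg hy'.1 hy'.1) 3]
  have h := hm (left_mem_Icc.2 (by norm_num)) ⟨h0, h1⟩ h0
  simp only [hq, zero_mul, zero_div, artanh_zero, sub_zero] at h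
  have hb := hq1 b ⟨h0, h1⟩
  calc tanh b ≤ tanh (artanh (q b)) := strictMono_tanh'.monotone (by simp only [hq]; linarith)
    _ = q b := tanh_artanh ⟨by linarith [hb.2], hb.1⟩

lemma tanh_le_self_of_pos {b : ℝ} (hb : 0 < b) : tanh b ≤ b := by
  have h := self_le_artanh (tanh_nonneg' hb.le) (tanh_lt_one b)
  rwa [artanh_tanh] at h

/-- The one-variable inequality behind the case `l ≤ 1/2`. -/
lemma crude_key {b : ℝ} (hb : 0 < b) :
    29 / 64 * tanh b * (log 2 - log (ent (tanh b)) + 0.76) ≤ b := by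
  have hlow := (ent_tanh_bounds hb.le).1
  have ht := tanh_nonneg' hb.le
  have hlog : log 2 - log (ent (tanh b))
      ≤ log 2 + log (exp (2 * b) + 1) - log (2 * b + 1) := by
    have h := log_le_log (by positivity) hlow
    rw [log_div (by linarith) (by positivity)] at h
    linarith
  refine le_trans (mul_le_mul_of_nonneg_left (add_le_add_left hlog 0.76)
    (mul_nonneg (by norm_num) ht)) ?_
  have hL := log_two_lt_d9
  have hL' := log_two_gt_d9
  rcases le_or_gt b (7 / 5) with hb' | hb'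
  · have hE : log (exp (2 * b) + 1) ≤ b + log 2 + b ^ 2 / 2 := by
      rw [log_le_iff_le_exp (by positivity), exp_add, exp_add, exp_log (by norm_num)]
      have h := mul_le_mul_of_nonneg_left (cosh_le_exp_half_sq b) (exp_pos b).le
      rw [cosh_eq, exp_neg] at h
      rw [two_mul b, exp_add]
      have := exp_pos b
      field_simp at h ⊢
      nlinarith
    have hl := le_log_one_add_of_nonneg (show 0 ≤ 2 * b by linarith)
    rw [add_comm (1 : ℝ)] at hl
    have hq := tanh_le_pade hb.le hb'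
    have hY : log 2 + log (exp (2 * b) + 1) - log (2 * b + 1) + 0.76
        ≤ 2.1463 + b + b ^ 2 / 2 - 2 * b / (1 + b) := by
      have e : 2 * (2 * b) / (2 * b + 2) = 2 * b / (1 + b) := by field_simp; ring
      linarith
    have hY0 : 0 ≤ 2.1463 + b + b ^ 2 / 2 - 2 * b / (1 + b) := by
      have : 2 * b / (1 + b) ≤ 2 := by rw [div_le_iff₀ (by linarith)]; linarith
      nlinarith
    calc 29 / 64 * tanh b * (log 2 + log (exp (2 * b) + 1) - log (2 * b + 1) + 0.76)
        ≤ 29 / 64 * tanh b * (2.1463 + b + b ^ 2 / 2 - 2 * b / (1 + b)) := by gcongr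
      _ ≤ 29 / 64 * (b * (15 + b ^ 2) / (15 + 6 * b ^ 2))
          * (2.1463 + b + b ^ 2 / 2 - 2 * b / (1 + b)) := by gcongr
      _ = b * (29 / 64 * (15 + b ^ 2)
          * ((2.1463 + b + b ^ 2 / 2) * (1 + b) - 2 * b)) / ((15 + 6 * b ^ 2) * (1 + b)) := by
        field_simp
      _ ≤ b := by
        rw [div_le_iff₀ (by positivity)]
        refine mul_le_mul_of_nonneg_left ?_ hb.le
        nlinarith [mul_nonneg hb.le (sub_nonneg.2 hb'),
          mul_nonneg (mul_nonneg hb.le hb.le) (sub_nonneg.2 hb'),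
          mul_nonneg (mul_nonneg (mul_nonneg hb.le hb.le) hb.le) (sub_nonneg.2 hb'),
          mul_nonneg (mul_nonneg (mul_nonneg hb.le hb.le) (mul_nonneg hb.le hb.le))
            (sub_nonneg.2 hb')]
  · have h38 : (1.3 : ℝ) ≤ log (2 * b + 1) := by
      rw [le_log_iff_exp_le (by linarith), show (1.3 : ℝ) = 1 + 0.3 by norm_num, exp_add]
      have := exp_one_lt_d9
      have h3 : exp (0.3 : ℝ) ≤ 1.36 := by
        refine (exp_bound' (by norm_num) (by norm_num) (n := 4) (by norm_num)).trans ?_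
        norm_num [Finset.sum_range_succ, Nat.factorial]
      calc exp 1 * exp 0.3 ≤ 2.7182818286 * 1.36 := by gcongr
        _ ≤ _ := by norm_num; linarith
    have hE : log (exp (2 * b) + 1) ≤ 2 * b + 0.07 := by
      rw [log_le_iff_le_exp (by positivity), exp_add]
      have h1 : (16 : ℝ) ≤ exp (2 * b) := by
        refine le_trans ?_ (exp_le_exp.2 (show 1 + 1 + 0.8 ≤ 2 * b by linarith))
        rw [exp_add, exp_add]
        have := exp_one_gt_d9
        calc (16 : ℝ) ≤ 2.7182818283 * 2.7182818283 * (1 + 0.8 + 0.8 ^ 2 / 2 + 0.8 ^ 3 / 6) := by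
              norm_num
          _ ≤ _ := by
            gcongr
            refine le_trans (le_of_eq ?_) (sum_le_exp_of_nonneg (by norm_num) 4)
            norm_num [Finset.sum_range_succ, Nat.factorial]
      have := add_one_le_exp (0.07 : ℝ)
      nlinarith
    calc 29 / 64 * tanh b * (log 2 + log (exp (2 * b) + 1) - log (2 * b + 1) + 0.76)
        ≤ 29 / 64 * tanh b * (2 * b + 0.2232) :=
          mul_le_mul_of_nonneg_left (by linarith) (by positivity)
      _ ≤ 29 / 64 * 1 * (2 * b + 0.2232) := by gcongr; exact (tanh_lt_one b).le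
      _ ≤ b := by norm_num; linarith

lemma centred_half {b l : ℝ} (hb : 0 < b) (hl : 0 < l) (hl2 : l ≤ 1 / 2) : CentredP b l := by
  have ht := tanh_nonneg' hb.le
  have he := ent_tanh_pos b
  have hH := mul_pos hl he
  refine centred_of_crude hb hl (by linarith) ?_
  have hα := alphaT_nonneg (eCap_mem hH).1.le
  have hd : (l * tanh b) ^ 2 ≤ 1 / 4 := by
    have h1 : l * tanh b ≤ 1 / 2 := (mul_le_of_le_one_right hl.le (tanh_lt_one b).le).trans hl2
    nlinarith [mul_nonneg hl.le ht]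
  calc l * tanh b * (7 / 8 + (l * tanh b) ^ 2 / 8) * alphaT (eCap (l * ent (tanh b)))
      ≤ l * tanh b * (29 / 32) * alphaT (eCap (l * ent (tanh b))) := by gcongr; linarith
    _ = 29 / 32 * tanh b * (l * alphaT (eCap (l * ent (tanh b)))) := by ring
    _ ≤ b := ?_
  rcases le_or_gt (1 / 4) (l * ent (tanh b)) with h4 | h4
  · rw [eCap, min_eq_right h4]
    calc 29 / 32 * tanh b * (l * alphaT (1 / 4)) ≤ 29 / 32 * b * (1 / 2 * 2.04) :=
          mul_le_mul (mul_le_mul_of_nonneg_left (tanh_le_self_of_pos hb) (by norm_num))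
            (mul_le_mul hl2 alphaT_quarter_le (alphaT_nonneg (by norm_num)) (by norm_num))
            (mul_nonneg hl.le (alphaT_nonneg (by norm_num))) (by linarith)
      _ ≤ b := by norm_num; linarith
  · rw [eCap, min_eq_left h4.le]
    have hk := crude_key hb
    refine le_trans ?_ hk
    rw [show 29 / 64 * tanh b * (log 2 - log (ent (tanh b)) + 0.76)
      = 29 / 32 * tanh b * (1 / 2 * (log 2 - log (ent (tanh b)) + 0.76)) by ring]
    refine mul_le_mul_of_nonneg_left ?_ (by positivity)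
    refine (mul_le_mul_of_nonneg_left (alphaT_le_neg_log ⟨hH, h4.le⟩) hl.le).trans ?_
    -- `l (0.76 - log (l e))` increases in `l` up to `1/2`
    rw [log_mul hl.ne' he.ne']
    have h1 : log (1 / 2 / l) ≤ 1 / 2 / l - 1 := log_le_sub_one_of_pos (by positivity)
    rw [log_div (by norm_num) hl.ne', show (1 / 2 : ℝ) = 2⁻¹ by norm_num, log_inv] at h1
    have h2 := mul_le_mul_of_nonneg_left h1 hl.le
    rw [show l * (2⁻¹ / l - 1) = 2⁻¹ - l by field_simp] at h2
    have h3 : log (ent (tanh b)) ≤ 0 :=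
      log_nonpos he.le ((ent_le_log_two _).trans (by linarith [log_two_lt_d9]))
    nlinarith [mul_nonneg (sub_nonneg.2 hl2)
      (show (0 : ℝ) ≤ log 2 - log (ent (tanh b)) - 0.24 by linarith [log_two_gt_d9])]

/-- (1) `l ≤ satWeight m / 2`. -/
theorem sat_P_crude {b l m : ℝ} (hb : 0 < b) (hl : 0 < l) (hm : m ∈ Ioo (-1 : ℝ) 1)
    (h : l ≤ satWeight m / 2) :
    persp2 (satWeight m) (l * ent (tanh b)) ≤ l * (b * tanh b)
      + persp2 ((satWeight (m + l * tanh b) + satWeight (m - l * tanh b)) / 2)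
          (l * ent (tanh b)) := by
  have hw := satWeight_pos hm
  exact satP_of_centred hb hl hm (by linarith)
    (centred_half hb (div_pos hl hw) (by rw [div_le_iff₀ hw]; linarith))

lemma centred_small {b l : ℝ} (hb : 0 < b) (hb2 : b ≤ 1 / 5) (hl : 1 / 2 ≤ l)
    (hl2 : l ≤ 27 / 50) : CentredP b l := by
  have ht := tanh_nonneg' hb.le
  have hl0 : 0 < l := by linarith
  refine centred_of_crude hb hl0 (by linarith) ?_
  have he : 0.5 ≤ ent (tanh b) := by
    refine le_trans ?_ (ent_tanh_bounds hb.le).1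
    rw [le_div_iff₀ (by positivity)]
    have : exp (2 * b) ≤ 1 / (1 - 2 * b) := exp_bound_div_one_sub_of_interval (by linarith)
      (by linarith)
    have h2 : 1 / (1 - 2 * b) ≤ 1 + 4 * b := by
      rw [div_le_iff₀ (by linarith)]; nlinarith
    linarith
  have h4 : 1 / 4 ≤ l * ent (tanh b) := by nlinarith
  rw [eCap, min_eq_right h4]
  have htb := tanh_le_self_of_pos hb
  calc l * tanh b * (7 / 8 + (l * tanh b) ^ 2 / 8) * alphaT (1 / 4)
      ≤ 27 / 50 * b * (7 / 8 + (27 / 50 * (1 / 5)) ^ 2 / 8) * 2.04 := by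
        gcongr
        · exact alphaT_nonneg (by norm_num)
        · linarith
        · exact alphaT_quarter_le
    _ ≤ b := by norm_num; linarith

/-- (2) `b ≤ 1/5`, `l ≤ 27/50 * satWeight m`. -/
theorem sat_P_small {b l m : ℝ} (hb : 0 < b) (hb2 : b ≤ 1 / 5) (hl : 0 < l)
    (hm : m ∈ Ioo (-1 : ℝ) 1) (h : l ≤ 27 / 50 * satWeight m) :
    persp2 (satWeight m) (l * ent (tanh b)) ≤ l * (b * tanh b)
      + persp2 ((satWeight (m + l * tanh b) + satWeight (m - l * tanh b)) / 2)
          (l * ent (tanh b)) := by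
  have hw := satWeight_pos hm
  rcases le_or_gt l (satWeight m / 2) with h2 | h2
  · exact sat_P_crude hb hl hm h2
  · exact satP_of_centred hb hl hm (by linarith) (centred_small hb hb2
      (by rw [le_div_iff₀ hw]; linarith) (by rw [div_le_iff₀ hw]; linarith))

/-! ### Large `b` -/

lemma exp_neg_five_le : exp (-5 : ℝ) ≤ 0.00674 := by
  rw [exp_neg, inv_le_comm₀ (exp_pos _) (by norm_num),
    show (5 : ℝ) = 1 + 1 + 1 + 1 + 1 by norm_num]
  simp only [exp_add]
  have := exp_one_gt_d9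
  calc (0.00674 : ℝ)⁻¹ ≤ 2.7182818283 * 2.7182818283 * 2.7182818283 * 2.7182818283
        * 2.7182818283 := by norm_num
    _ ≤ _ := by gcongr

/-- `D = exp (-b)` against affine functions for `b ≥ 5`. -/
lemma exp_affine_le {b p q : ℝ} (hb : 5 ≤ b) (hp : 0 ≤ p) (hq : 0 ≤ 4 * p + q) :
    exp (-b) * (p * b + q) ≤ 0.00674 * (5 * p + q) := by
  have h1 : exp (-b) * exp (b - 5) = exp (-5) := by rw [← exp_add]; ring_nf
  have h2 := add_one_le_exp (b - 5)
  have h3 : p * b + q ≤ (5 * p + q) * exp (b - 5) := by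
    nlinarith [mul_le_mul_of_nonneg_left h2 (show (0 : ℝ) ≤ 5 * p + q by linarith),
      mul_nonneg hq (show (0 : ℝ) ≤ b - 5 by linarith)]
  calc exp (-b) * (p * b + q) ≤ exp (-b) * ((5 * p + q) * exp (b - 5)) := by gcongr
    _ = exp (-5) * (5 * p + q) := by rw [← h1]; ring
    _ ≤ _ := by gcongr; exacts [by linarith, exp_neg_five_le]

lemma zOf_le_of_ent_le {x β : ℝ} (hβ : 0 ≤ β) (h : ent (tanh β) ≤ x) : zOf x ≤ β := by
  have := antitoneOn_zOf (show ent (tanh β) ∈ Ioi 0 from ent_tanh_pos β)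
    (show x ∈ Ioi 0 from (ent_tanh_pos β).trans_le h) h
  rwa [zOf_ent_tanh hβ] at this

/-- `zOf (κ * ent (tanh b)) ≤ b + s` from an inequality between elementary functions. -/
lemma zOf_scaled_le {b s κ E' : ℝ} (hb : 0 ≤ b) (hs : 0 ≤ s) (hκ : 0 ≤ κ) (hE' : 0 < E')
    (hexp : E' ≤ exp (2 * s))
    (h : (2 * (b + s) + 1) * (1 + 1 / exp (2 * b)) ≤ κ * (2 * b + 1) * E') :
    zOf (κ * ent (tanh b)) ≤ b + s := by
  refine zOf_le_of_ent_le (by linarith) ?_
  refine (ent_tanh_bounds (by linarith)).2.trans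
    (le_trans ?_ (mul_le_mul_of_nonneg_left (ent_tanh_bounds hb).1 hκ))
  have hE := exp_pos (2 * b)
  rw [mul_add 2 b s, exp_add, ← mul_div_assoc, div_le_div_iff₀ (by positivity) (by positivity)]
  calc (2 * b + 2 * s + 1) * (exp (2 * b) + 1)
      = exp (2 * b) * ((2 * (b + s) + 1) * (1 + 1 / exp (2 * b))) := by field_simp
    _ ≤ exp (2 * b) * (κ * (2 * b + 1) * exp (2 * s)) := by
        exact mul_le_mul_of_nonneg_left
          (h.trans (mul_le_mul_of_nonneg_left hexp (by positivity))) hE.le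
    _ = _ := by ring

lemma ent_tanh_small {b : ℝ} (hb : 5 ≤ b) : ent (tanh b) ≤ 1 / 4 := by
  refine (ent_tanh_bounds (by linarith)).2.trans ?_
  rw [div_le_iff₀ (exp_pos _)]
  have := quadratic_le_exp_of_nonneg (show 0 ≤ 2 * b by linarith)
  nlinarith

lemma centred_mid {b l : ℝ} (hb : 5 ≤ b) (hl : 1 / 2 ≤ l) (hl2 : l ≤ 17 / 20) : CentredP b l := by
  have hb0 : 0 < b := by linarith
  have hl0 : 0 < l := by linarith
  have he := ent_tanh_pos b
  refine centred_of_crude hb0 hl0 (by linarith) ?_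
  have hle : l * ent (tanh b) ≤ 1 / 4 := by nlinarith [ent_tanh_small hb]
  rw [eCap, min_eq_left hle]
  have hz : zOf (l * ent (tanh b)) ≤ b + 2 / 5 := by
    refine (antitoneOn_zOf (show 1 / 2 * ent (tanh b) ∈ Ioi 0 from by
      simp only [mem_Ioi]; positivity) (show l * ent (tanh b) ∈ Ioi 0 from mul_pos hl0 he)
      (by gcongr)).trans ?_
    refine zOf_scaled_le (E' := 2.225) hb0.le (by norm_num) (by norm_num) (by norm_num) ?_ ?_
    · refine le_trans ?_ (sum_le_exp_of_nonneg (by norm_num) 6)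
      norm_num [Finset.sum_range_succ, Nat.factorial]
    · have h1 : 1 / exp (2 * b) ≤ 0.00674 := by
        rw [one_div, ← exp_neg]
        exact (exp_le_exp.2 (by linarith)).trans exp_neg_five_le
      nlinarith
  obtain ⟨-, hα⟩ := alphaT_bounds (e := l * ent (tanh b)) ⟨mul_pos hl0 he, hle⟩
  have hzlo : b ≤ zOf (l * ent (tanh b)) := by
    have h := antitoneOn_zOf (show l * ent (tanh b) ∈ Ioi 0 from mul_pos hl0 he)
      (show ent (tanh b) ∈ Ioi 0 from he) (mul_le_of_le_one_left he.le (by linarith))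
    rwa [zOf_ent_tanh hb0.le] at h
  have hα' : alphaT (l * ent (tanh b)) ≤ b + 0.955 := by
    have h1 : 1 / (2 * exp (2 * zOf (l * ent (tanh b)))) ≤ 0.00337 := by
      rw [show 1 / (2 * exp (2 * zOf (l * ent (tanh b))))
        = exp (-(2 * zOf (l * ent (tanh b)))) / 2 by rw [exp_neg]; field_simp]
      have := (exp_le_exp.2 (show -(2 * zOf (l * ent (tanh b))) ≤ -5 by linarith)).trans
        exp_neg_five_le
      linarith
    have h2 : 1 / (4 * zOf (l * ent (tanh b))) ≤ 1 / (4 * 5) :=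
      one_div_le_one_div_of_le (by norm_num) (by linarith)
    norm_num at h1 h2 hα ⊢
    linarith
  calc l * tanh b * (7 / 8 + (l * tanh b) ^ 2 / 8) * alphaT (l * ent (tanh b))
      ≤ 17 / 20 * 1 * (7 / 8 + (17 / 20 * 1) ^ 2 / 8) * (b + 0.955) := by
        have := tanh_nonneg' hb0.le
        have := alphaT_nonneg (mul_pos hl0 he).le
        have := (tanh_lt_one b).le
        gcongr
    _ ≤ b := by norm_num; linarith

/-- The lower bound obtained from the child tangent at `ent (tanh (b/2))`. -/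
noncomputable def largeG (b l : ℝ) : ℝ :=
  l * (b * tanh b) + uChild (l * tanh b) * alphaT (ent (tanh (b / 2)))
    - rate (ent (tanh (b / 2))) * (l * ent (tanh b)) - Phi2 (l * ent (tanh b))

lemma concaveOn_largeG {b : ℝ} (hb : 5 ≤ b) : ConcaveOn ℝ (Ioi 0) (largeG b) := by
  refine ⟨convex_Ioi 0, fun x hx y hy θ η hθ hη hsum => ?_⟩
  simp only [smul_eq_mul, largeG]
  have he := ent_tanh_pos b
  have h1 := convexOn_Phi2.2 (show x * ent (tanh b) ∈ Ioi 0 from mul_pos hx he)
    (show y * ent (tanh b) ∈ Ioi 0 from mul_pos hy he) hθ hη hsum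
  simp only [smul_eq_mul] at h1
  rw [show θ * (x * ent (tanh b)) + η * (y * ent (tanh b))
    = (θ * x + η * y) * ent (tanh b) by ring] at h1
  have h2 := (even_two.convexOn_pow (𝕜 := ℝ)).2 (mem_univ (x * tanh b)) (mem_univ (y * tanh b))
    hθ hη hsum
  have h4 := ((by decide : Even 4).convexOn_pow (𝕜 := ℝ)).2 (mem_univ (x * tanh b))
    (mem_univ (y * tanh b)) hθ hη hsum
  simp only [smul_eq_mul] at h2 h4
  rw [show θ * (x * tanh b) + η * (y * tanh b) = (θ * x + η * y) * tanh b by ring] at h2 h4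
  have hu : θ * uChild (x * tanh b) + η * uChild (y * tanh b)
      ≤ uChild ((θ * x + η * y) * tanh b) := by
    obtain rfl : η = 1 - θ := by linarith
    unfold uChild
    linarith
  have hα := alphaT_nonneg (ent_tanh_pos (b / 2)).le
  have := mul_le_mul_of_nonneg_right hu hα
  linarith

lemma uChild_ge {a ε : ℝ} (ha : 0 ≤ a) (hε0 : 0 ≤ ε) (hε : ε ≤ 1 - a) :
    ε * (9 / 4 - 13 / 8 * ε) ≤ uChild a := by
  unfold uChild
  have h1 : a ^ 2 ≤ (1 - ε) ^ 2 := pow_le_pow_left₀ ha (by linarith) 2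
  have h2 : a ^ 4 ≤ (1 - ε) ^ 4 := pow_le_pow_left₀ ha (by linarith) 4
  nlinarith [mul_nonneg (pow_nonneg hε0 3) (show (0 : ℝ) ≤ 4 - ε by linarith)]

lemma half_arg_mem {b : ℝ} (hb : 5 ≤ b) : ent (tanh (b / 2)) ∈ Ioc (0 : ℝ) (1 / 4) := by
  refine ⟨ent_tanh_pos _, (ent_tanh_bounds (by linarith)).2.trans ?_⟩
  rw [div_le_iff₀ (exp_pos _)]
  have := sum_le_exp_of_nonneg (show 0 ≤ 2 * (b / 2) by linarith) 4
  norm_num [Finset.sum_range_succ, Nat.factorial] at this ⊢
  nlinarith [pow_le_pow_left₀ (by norm_num) hb 3]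

/-- Common bounds at `b ≥ 5`, with `D = exp (-b)`. -/
lemma large_facts {b : ℝ} (hb : 5 ≤ b) :
    1 - 2 * exp (-b) ^ 2 ≤ tanh b ∧
    b / 2 + 1 / 2 + (1 - exp (-b)) / (2 * b) ≤ alphaT (ent (tanh (b / 2))) ∧
    rate (ent (tanh (b / 2))) * ent (tanh b)
      ≤ (1 + 1 / (2 * b)) * exp (-b) + (2 * b + 1) * exp (-b) ^ 2 := by
  have hb0 : 0 < b := by linarith
  have hD : exp (2 * b) = 1 / exp (-b) ^ 2 := by
    rw [exp_neg, two_mul, exp_add]; field_simp
  have hz : zOf (ent (tanh (b / 2))) = b / 2 := zOf_ent_tanh (by linarith)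
  have h25 := half_arg_mem hb
  refine ⟨?_, ?_, ?_⟩
  · rw [tanh_eq_exp, hD]
    set D := exp (-b)
    have : 0 < D := exp_pos _
    rw [show (1 / D ^ 2 - 1) / (1 / D ^ 2 + 1) = (1 - D ^ 2) / (1 + D ^ 2) by field_simp,
      le_div_iff₀ (by positivity)]
    nlinarith [sq_nonneg (D ^ 2)]
  · have h := (alphaT_bounds h25).1
    rw [hz, show 2 * (b / 2) = b by ring, show 4 * (b / 2) = 2 * b by ring] at h
    rw [exp_neg, ← one_div]
    exact h
  · have hr : rate (ent (tanh (b / 2))) ≤ 1 + exp b / (2 * b) := by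
      rw [rate, hz, if_neg (by linarith), show 2 * (b / 2) = b by ring, sinh_eq]
      have : (exp b - exp (-b)) / 2 / b ≤ exp b / (2 * b) := by
        rw [div_div]; gcongr; linarith [exp_pos (-b)]
      linarith
    have he : ent (tanh b) ≤ (2 * b + 1) * exp (-b) ^ 2 := by
      refine (ent_tanh_bounds hb0.le).2.trans (le_of_eq ?_)
      rw [hD]; field_simp
    calc rate (ent (tanh (b / 2))) * ent (tanh b)
        ≤ (1 + exp b / (2 * b)) * ((2 * b + 1) * exp (-b) ^ 2) :=
          mul_le_mul hr he (ent_tanh_pos b).le (by positivity)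
      _ = _ := by
        rw [exp_neg]; field_simp; ring

lemma largeG_low {b : ℝ} (hb : 5 ≤ b) : 0 ≤ largeG b (17 / 20) := by
  obtain ⟨ht, hα, hr⟩ := large_facts hb
  have hb0 : 0 < b := by linarith
  have he := ent_tanh_pos b
  have hH : 0 < 17 / 20 * ent (tanh b) := by positivity
  have hz : zOf (17 / 20 * ent (tanh b)) ≤ b + 1 / 10 := by
    refine zOf_scaled_le (E' := 1.22) hb0.le (by norm_num) (by norm_num) (by norm_num) ?_ ?_
    · exact le_trans (by norm_num) (quadratic_le_exp_of_nonneg (by norm_num))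
    · have h1 : 1 / exp (2 * b) ≤ 0.00674 := by
        rw [one_div, ← exp_neg]
        exact (exp_le_exp.2 (by linarith)).trans exp_neg_five_le
      nlinarith
  have hP : Phi2 (17 / 20 * ent (tanh b)) ≤ b + 1 / 10 := by
    refine (Phi2_le_Phi hH).trans (le_trans ?_ hz)
    rw [Phi_eq]
    exact mul_le_of_le_one_right (zOf_nonneg _) (tanh_lt_one _).le
  have hu : 0.3024 ≤ uChild (17 / 20 * tanh b) := by
    unfold uChild
    have h0 := tanh_nonneg' hb0.le
    have h1 : (17 / 20 * tanh b) ^ 2 ≤ (17 / 20 * 1) ^ 2 := by gcongr; exact (tanh_lt_one b).le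
    have h2 : (17 / 20 * tanh b) ^ 4 ≤ (17 / 20 * 1) ^ 4 := by gcongr; exact (tanh_lt_one b).le
    norm_num at h1 h2 ⊢
    linarith
  set D := exp (-b) with hDdef
  have hD0 : 0 < D := exp_pos _
  have hα' : b / 2 + 1 / 2 ≤ alphaT (ent (tanh (b / 2))) := by
    have : 0 ≤ (1 - D) / (2 * b) := by
      have : D ≤ 1 := exp_le_one_iff.2 (by linarith)
      exact div_nonneg (by linarith) (by linarith)
    linarith
  have hαu := mul_le_mul hu hα' (by linarith) (le_trans (by norm_num) hu)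
  have htb := mul_le_mul_of_nonneg_left ht hb0.le
  have a1 := exp_affine_le (b := b) (p := 4) (q := 2) hb (by norm_num) (by norm_num)
  rw [← hDdef] at a1
  have h1 : 1 / (2 * b) ≤ 1 / 10 := one_div_le_one_div_of_le (by norm_num) (by linarith)
  have hD1 : D ≤ 0.00674 := (exp_le_exp.2 (by linarith)).trans exp_neg_five_le
  have a2 : D ^ 2 * (4 * b + 2) ≤ 0.00674 * (0.00674 * 22) := by
    rw [show D ^ 2 * (4 * b + 2) = D * (D * (4 * b + 2)) by ring]
    exact mul_le_mul hD1 (a1.trans_eq (by norm_num)) (by positivity) (by norm_num)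
  have a3 := mul_le_mul_of_nonneg_right h1 hD0.le
  unfold largeG
  nlinarith

lemma largeG_high {b : ℝ} (hb : 5 ≤ b) : 0 ≤ largeG b (1 - exp (-b)) := by
  obtain ⟨ht, hα, hr⟩ := large_facts hb
  have hb0 : 0 < b := by linarith
  have he := ent_tanh_pos b
  set D := exp (-b) with hDdef
  have hD0 : 0 < D := exp_pos _
  have hD1 : D ≤ 0.00674 := (exp_le_exp.2 (by linarith)).trans exp_neg_five_le
  have hH : 0 < (1 - D) * ent (tanh b) := mul_pos (by linarith) he
  have hz : zOf ((1 - D) * ent (tanh b)) ≤ b + 3 / 5 * D := by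
    refine zOf_scaled_le (E' := 1 + 6 / 5 * D) hb0.le (by positivity) (by linarith)
      (by positivity) ?_ ?_
    · linarith [add_one_le_exp (2 * (3 / 5 * D))]
    · have h1 : 1 / exp (2 * b) = D ^ 2 := by
        rw [hDdef, exp_neg, two_mul, exp_add]; field_simp
      rw [h1]
      nlinarith [mul_le_mul_of_nonneg_left hD1 (mul_nonneg hD0.le hb0.le),
        mul_le_mul_of_nonneg_left hD1 hD0.le, mul_nonneg hD0.le (sq_nonneg D)]
  have hP : Phi2 ((1 - D) * ent (tanh b)) ≤ b + 3 / 5 * D := by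
    refine (Phi2_le_Phi hH).trans (le_trans ?_ hz)
    rw [Phi_eq]
    exact mul_le_of_le_one_right (zOf_nonneg _) (tanh_lt_one _).le
  have hu := uChild_ge (a := (1 - D) * tanh b) (ε := D)
    (mul_nonneg (by linarith) (tanh_nonneg' hb0.le)) hD0.le
    (by nlinarith [tanh_lt_one b])
  have hαu : D * (9 / 4 - 13 / 8 * D) * (b / 2 + 1 / 2 + (1 - D) / (2 * b))
      ≤ uChild ((1 - D) * tanh b) * alphaT (ent (tanh (b / 2))) := by
    have hnn : 0 ≤ b / 2 + 1 / 2 + (1 - D) / (2 * b) := by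
      have : 0 ≤ (1 - D) / (2 * b) := div_nonneg (by linarith) (by linarith)
      linarith
    exact mul_le_mul hu hα hnn (le_trans (mul_nonneg hD0.le (by linarith)) hu)
  have a1 := exp_affine_le (b := b) (p := 77 / 16) (q := 29 / 16 + 2 / 5) hb (by norm_num)
    (by norm_num)
  rw [← hDdef] at a1
  have hrb : 0 ≤ rate (ent (tanh (b / 2))) * ent (tanh b) :=
    mul_nonneg (by linarith [two_le_rate (ent (tanh (b / 2)))]) he.le
  have htb : b * (1 - D - 2 * D ^ 2) ≤ (1 - D) * (b * tanh b) := by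
    have := mul_le_mul_of_nonneg_left ht
      (mul_nonneg (show (0 : ℝ) ≤ 1 - D by linarith) hb0.le)
    nlinarith [mul_nonneg (pow_nonneg hD0.le 3) hb0.le]
  -- divided by `D`
  have hkey : 0 ≤ -b - 2 * D * b + (9 / 4 - 13 / 8 * D) * (b / 2 + 1 / 2 + (1 - D) / (2 * b))
      - (1 + 1 / (2 * b)) - (2 * b + 1) * D - 3 / 5 := by
    have e : -b - 2 * D * b + (9 / 4 - 13 / 8 * D) * (b / 2 + 1 / 2 + (1 - D) / (2 * b))
        - (1 + 1 / (2 * b)) - (2 * b + 1) * D - 3 / 5
        = (b / 8 + 5 / (8 * b) - 19 / 40)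
          - D * (77 / 16 * b + 29 / 16 + (31 / 16 - 13 / 16 * D) * (1 / b)) := by
      field_simp; ring
    rw [e]
    have h5 : 1 / b ≤ 1 / 5 := one_div_le_one_div_of_le (by norm_num) hb
    have h6 : (31 / 16 - 13 / 16 * D) * (1 / b) ≤ 2 * (1 / 5) :=
      mul_le_mul (by linarith) h5 (by positivity) (by norm_num)
    have h7 : 3 / 4 ≤ b / 8 + 5 / (8 * b) := by
      rw [div_add_div _ _ (by norm_num) (by linarith), le_div_iff₀ (by linarith)]
      nlinarith
    have h8 := mul_le_mul_of_nonneg_left h6 hD0.le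
    norm_num at a1 h8 ⊢
    linarith
  have hkD := mul_nonneg hkey hD0.le
  have hrl : rate (ent (tanh (b / 2))) * ((1 - D) * ent (tanh b))
      ≤ (1 + 1 / (2 * b)) * D + (2 * b + 1) * D ^ 2 := by
    nlinarith [mul_nonneg hD0.le hrb]
  unfold largeG
  linarith

lemma centred_large {b l : ℝ} (hb : 5 ≤ b) (hl : 17 / 20 ≤ l) (hl2 : l ≤ 1 - exp (-b)) :
    CentredP b l := by
  have he := ent_tanh_pos b
  have hl0 : 0 < l := by linarith
  have h := (concaveOn_largeG hb).min_le_of_mem_Icc (x := 17 / 20) (y := 1 - exp (-b))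
    (show (17 / 20 : ℝ) ∈ Ioi 0 by norm_num) (show 1 - exp (-b) ∈ Ioi 0 by
      simp only [mem_Ioi]; linarith) (z := l) ⟨hl, hl2⟩
  have hG : 0 ≤ largeG b l := le_trans (le_min (largeG_low hb) (largeG_high hb)) h
  have h25 := half_arg_mem hb
  have hu : 0 < uChild (l * tanh b) := uChild_pos (mul_nonneg hl0.le (tanh_nonneg' (by linarith)))
    (by nlinarith [tanh_lt_one b, exp_pos (-b), tanh_nonneg' (show 0 ≤ b by linarith)])
  refine le_trans ?_ (add_le_add le_rfl (tangent_le_persp2 h25 hu (mul_pos hl0 he)))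
  unfold largeG at hG
  linarith

/-- (3) `b ≥ 5`, `l ≤ (1 - exp (-b)) * satWeight m`. -/
theorem sat_P_large {b l m : ℝ} (hb : 5 ≤ b) (hl : 0 < l) (hm : m ∈ Ioo (-1 : ℝ) 1)
    (h : l ≤ (1 - exp (-b)) * satWeight m) :
    persp2 (satWeight m) (l * ent (tanh b)) ≤ l * (b * tanh b)
      + persp2 ((satWeight (m + l * tanh b) + satWeight (m - l * tanh b)) / 2)
          (l * ent (tanh b)) := by
  have hw := satWeight_pos hm
  have hlw : l ≤ satWeight m := by nlinarith [exp_pos (-b)]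
  refine satP_of_centred (by linarith) hl hm hlw ?_
  rcases le_or_gt (l / satWeight m) (1 / 2) with h1 | h1
  · exact centred_half (by linarith) (div_pos hl hw) h1
  rcases le_or_gt (l / satWeight m) (17 / 20) with h2 | h2
  · exact centred_mid hb h1.le h2
  · exact centred_large hb h2.le ((div_le_iff₀ hw).2 h)

end Vale.Agent.P322
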