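import Vale.Agent.P322.Scalar.SatAtom
import Vale.Agent.P322.Scalar.SatP
import Vale.Agent.P322.Scalar.NStep

/-!
# Courtade–Kumar: the saturation step near a dictator, for large `bs`

Outside the range of `sat_P_large` the state is within `1.02 exp (-bs)` of an atom; there the
atom's edge cost together with the children's information pays for the saturation term.
-/

namespace Vale.Agent.P322

open Real Set

lemma exp_neg_facts {bs : ℝ} (hbs : 5 ≤ bs) :
    0 < exp (-bs) ∧ exp (-bs) ≤ 0.00674 ∧ 1 / exp (2 * bs) = exp (-bs) ^ 2 := by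
  refine ⟨exp_pos _, (exp_le_exp.2 (by linarith)).trans exp_neg_five_le, ?_⟩
  rw [exp_neg, two_mul, exp_add]; field_simp

/-- The child information near the corner. -/
lemma corner_gain {bs t r : ℝ} (hbs : 5 ≤ bs) (hr0 : 0 < r) (hr : r ≤ 2.6 * exp (-bs) ^ 2)
    (ht : t ≤ 1) (ht' : 1 - t ≤ 1.02 * exp (-bs)) :
    (bs + 4 / 5) * (1 - t) ≤ binEntropy (t * (1 - r)) - t * binEntropy r := by
  obtain ⟨hD0, hD1, -⟩ := exp_neg_facts hbs
  set D := exp (-bs) with hD
  set E := 1.02 * D with hE
  have hE0 : 0 < E := by positivity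
  have hE1 : E ≤ 0.006875 := by linarith
  have hr1 : r ≤ 0.0172 * E := by
    refine hr.trans ?_
    have := mul_le_mul_of_nonneg_left hD1 hD0.le
    linarith
  -- the endpoint `t = 1 - E`
  have key : (bs + 4 / 5) * E ≤ binEntropy ((1 - E) * (1 - r)) - (1 - E) * binEntropy r := by
    set s := 1 - E with hs
    set q := 1 - s * (1 - r) with hq
    have hs0 : 0 < s := by linarith
    have hp : 0 < 1 - r := by linarith
    have hsr : 0 ≤ s * r := mul_nonneg hs0.le hr0.le
    have hqE : q = E + s * r := by rw [hq, hs]; ring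
    have hq0 : 0 < q := by rw [hqE]; linarith
    have hsplit : binEntropy (s * (1 - r)) - s * binEntropy r
        = s * (1 - r) * (-log s) + E * (-log q) - s * r * (log q - log r) := by
      rw [binEntropy_eq_negMulLog_add_negMulLog_one_sub,
        binEntropy_eq_negMulLog_add_negMulLog_one_sub, ← hq, negMulLog, negMulLog, negMulLog,
        negMulLog, log_mul hs0.ne' hp.ne']
      linear_combination (-log q) * hqE
    have h1 : E ≤ -log s := by
      have := log_le_sub_one_of_pos hs0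
      linarith
    have hlq : log q ≤ -bs + 0.0376 := by
      have h : q ≤ 1.0376 * D := by
        have : s * r ≤ r := mul_le_of_le_one_left hr0.le (by linarith)
        rw [hqE]
        linarith
      refine (log_le_log hq0 h).trans ?_
      rw [log_mul (by norm_num) hD0.ne', hD, log_exp]
      linarith [log_le_sub_one_of_pos (show (0 : ℝ) < 1.0376 by norm_num)]
    have h15 : log (15 : ℝ) ≤ 2.71 := by
      rw [log_le_iff_le_exp (by norm_num), show (2.71 : ℝ) = 1 + 1 + 0.71 by norm_num, exp_add,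
        exp_add]
      have := exp_one_gt_d9
      calc (15 : ℝ) ≤ 2.7182818283 * 2.7182818283 * (1 + 0.71 + 0.71 ^ 2 / 2 + 0.71 ^ 3 / 6 + 0.71 ^ 4 / 24) := by
            norm_num
        _ ≤ _ := by
          gcongr
          refine le_trans (le_of_eq ?_) (sum_le_exp_of_nonneg (by norm_num) 5)
          norm_num [Finset.sum_range_succ, Nat.factorial]
    have h3 : s * r * (log q - log r) ≤ 0.0975 * E := by
      have h := log_le_sub_one_of_pos (show 0 < q / (15 * r) by positivity)
      rw [log_div hq0.ne' (by positivity), log_mul (by norm_num) hr0.ne'] at h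
      have h' := mul_le_mul_of_nonneg_left h hsr
      have e : s * r * (q / (15 * r) - 1) = s * q / 15 - s * r := by field_simp
      rw [e] at h'
      have h'' := mul_le_mul_of_nonneg_left h15 hsr
      have a : s * r ≤ r := mul_le_of_le_one_left hr0.le (by linarith)
      have b : s * q ≤ q := mul_le_of_le_one_left hq0.le (by linarith)
      linarith
    have h4 : 0.993 * E ≤ s * (1 - r) * (-log s) := by
      refine mul_le_mul ?_ h1 hE0.le (mul_nonneg hs0.le hp.le)
      nlinarith
    have h5 : E * (bs - 0.0376) ≤ E * (-log q) := mul_le_mul_of_nonneg_left (by linarith) hE0.le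
    rw [hsplit]
    linarith
  -- concavity in `t`
  obtain ⟨θ, hθ0, hθ1, hθ⟩ : ∃ θ, 0 ≤ θ ∧ θ ≤ 1 ∧ 1 - t = θ * E :=
    ⟨(1 - t) / E, div_nonneg (by linarith) hE0.le, (div_le_one hE0).2 ht', by field_simp⟩
  have hc := strictConcave_binEntropy.concaveOn.2
    (show (1 - E) * (1 - r) ∈ Icc (0 : ℝ) 1 from ⟨mul_nonneg (by linarith) (by linarith),
      mul_le_one₀ (by linarith) (by linarith) (by linarith)⟩)
    (show 1 - r ∈ Icc (0 : ℝ) 1 from ⟨by linarith, by linarith⟩) hθ0 (sub_nonneg.2 hθ1) (by ring)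
  simp only [smul_eq_mul, binEntropy_one_sub] at hc
  have e : θ * ((1 - E) * (1 - r)) + (1 - θ) * (1 - r) = t * (1 - r) := by
    linear_combination (1 - r) * hθ
  rw [e] at hc
  have hk := mul_le_mul_of_nonneg_left key hθ0
  have et : t = 1 - θ * E := by linarith
  rw [et] at hc ⊢
  linarith

/-- The second child of a state near the corner. -/
lemma corner_child {bs t y : ℝ} (hbs : 5 ≤ bs) (hy : -1 < y)
    (hr : (1 + y) / 2 ≤ 2.6 * exp (-bs) ^ 2) (ht : t ≤ 1) (ht' : 1 - t ≤ 1.02 * exp (-bs)) :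
    (bs + 4 / 5) * (1 - t) ≤ ent (1 - t * (1 - y)) - t * ent y := by
  have h := corner_gain hbs (show 0 < (1 + y) / 2 by linarith) hr ht ht'
  rw [ent, ent, show (1 + (1 - t * (1 - y))) / 2 = 1 - t * (1 - (1 + y) / 2) by ring,
    binEntropy_one_sub]
  exact h

/-- The first child loses nothing. -/
lemma corner_child_nonneg {t x : ℝ} (hx : x ∈ Ioo (-1 : ℝ) 1) (ht0 : 0 ≤ t) (ht : t ≤ 1) :
    0 ≤ ent (1 - t * (1 - x)) - t * ent x := by
  have h := concaveOn_ent.2 (x := x) ⟨hx.1.le, hx.2.le⟩ (y := 1) ⟨by norm_num, le_rfl⟩ ht0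
    (sub_nonneg.2 ht) (by ring)
  simp only [smul_eq_mul, ent_one, mul_zero, add_zero] at h
  rw [show 1 - t * (1 - x) = t * x + (1 - t) * 1 by ring]
  linarith

/-- The tangent value on the range `H / w ≥ (1 - D) * ent (tanh bs)`. -/
lemma alpha_near_le {bs x : ℝ} (hbs : 5 ≤ bs) (hx : (1 - exp (-bs)) * ent (tanh bs) ≤ x) :
    alphaT (eCap x) ≤ bs + 4 / 5 := by
  obtain ⟨hD0, hD1, hD2⟩ := exp_neg_facts hbs
  set D := exp (-bs) with hD
  have he := ent_tanh_pos bs
  have hlo : 0 < (1 - D) * ent (tanh bs) := mul_pos (by linarith) he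
  have h14 : (1 - D) * ent (tanh bs) ≤ 1 / 4 :=
    (mul_le_of_le_one_left he.le (by linarith)).trans (ent_tanh_small hbs)
  refine (alphaT_eCap_anti hlo hx).trans ?_
  rw [eCap, min_eq_left h14]
  have hz : zOf ((1 - D) * ent (tanh bs)) ≤ bs + 3 / 5 * D := by
    refine zOf_scaled_le (E' := 1 + 6 / 5 * D) (by linarith) (by positivity) (by linarith)
      (by positivity) ?_ ?_
    · linarith [add_one_le_exp (2 * (3 / 5 * D))]
    · rw [hD2]
      nlinarith [mul_le_mul_of_nonneg_left hD1 (mul_nonneg hD0.le (show 0 ≤ bs by linarith)),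
        mul_le_mul_of_nonneg_left hD1 hD0.le, mul_nonneg hD0.le (sq_nonneg D)]
  obtain ⟨-, hα⟩ := alphaT_bounds (e := (1 - D) * ent (tanh bs)) ⟨hlo, h14⟩
  have hzlo : bs ≤ zOf ((1 - D) * ent (tanh bs)) := by
    have h := antitoneOn_zOf (show (1 - D) * ent (tanh bs) ∈ Ioi 0 from hlo)
      (show ent (tanh bs) ∈ Ioi 0 from he) (mul_le_of_le_one_left he.le (by linarith))
    rwa [zOf_ent_tanh (by linarith)] at h
  have h1 : 1 / (2 * exp (2 * zOf ((1 - D) * ent (tanh bs)))) ≤ 1 / 2 :=
    one_div_le_one_div_of_le (by norm_num) (by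
      linarith [one_le_exp (show 0 ≤ 2 * zOf ((1 - D) * ent (tanh bs)) by linarith)])
  have h2 : 1 / (4 * zOf ((1 - D) * ent (tanh bs))) ≤ 1 / (4 * 5) :=
    one_div_le_one_div_of_le (by norm_num) (by linarith)
  have h1' : 1 / (2 * exp (2 * zOf ((1 - D) * ent (tanh bs)))) ≤ 0.00674 := by
    refine le_trans ?_ hD1
    refine le_trans (one_div_le_one_div_of_le (exp_pos _)
      (le_mul_of_one_le_left (exp_pos _).le (by norm_num))) ?_
    rw [one_div, ← exp_neg, hD]
    exact exp_le_exp.2 (by linarith)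
  norm_num at h2 hα h1' ⊢
  linarith

lemma satWeight_le_of_le {M m : ℝ} (h0 : 0 ≤ M) (h : M ≤ m) : satWeight m ≤ satWeight M := by
  have h2 : M ^ 2 ≤ m ^ 2 := pow_le_pow_left₀ h0 h 2
  unfold satWeight
  nlinarith [mul_le_mul h2 h2 (sq_nonneg M) (sq_nonneg m)]

/-- Small minority mass from small entropy. -/
lemma minority_le {bs r : ℝ} (hbs : 5 ≤ bs) (hr2 : r ≤ 1 / 2)
    (h : binEntropy r ≤ 2 * ((2 * bs + 1) * exp (-bs) ^ 2)) : r ≤ 2.6 * exp (-bs) ^ 2 := by
  obtain ⟨hD0, hD1, -⟩ := exp_neg_facts hbs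
  set D := exp (-bs) with hD
  by_contra hc
  push Not at hc
  set R := 2.6 * D ^ 2 with hR
  have hR0 : 0 < R := by positivity
  have hmono := binEntropy_strictMonoOn (show R ∈ Icc (0 : ℝ) 2⁻¹ from ⟨hR0.le, by
    rw [← one_div]; linarith⟩) (show r ∈ Icc (0 : ℝ) 2⁻¹ from ⟨by linarith, by
    rw [← one_div]; linarith⟩) hc
  have hlow : R * (2 * bs - 0.96) ≤ binEntropy R := by
    have hR1 : R ≤ 1 / 2 := by linarith
    rw [binEntropy_eq_negMulLog_add_negMulLog_one_sub, negMulLog, negMulLog]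
    have h26 : log (2.6 : ℝ) ≤ 0.96 := by
      rw [log_le_iff_le_exp (by norm_num)]
      refine le_trans ?_ (sum_le_exp_of_nonneg (by norm_num) 6)
      norm_num [Finset.sum_range_succ, Nat.factorial]
    have hl : log R ≤ -2 * bs + 0.96 := by
      rw [hR, log_mul (by norm_num) (by positivity), log_pow, hD, log_exp]
      push_cast
      linarith
    have h1 : log (1 - R) ≤ 0 := log_nonpos (by linarith) (by linarith)
    nlinarith
  nlinarith [mul_pos hR0 hD0, pow_pos hD0 2]

/-- Distance to the corner outside the range of the child route. -/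
lemma near_corner_le {D M t : ℝ} (hD0 : 0 < D) (hD1 : D ≤ 0.00674) (hM0 : 0 ≤ M)
    (hMr : M ≤ 2.6 * D ^ 2) (ht : t ≤ 1) (h : (1 - M) * (2 - t * (1 - M)) * (1 - D) < 1) :
    1 - t ≤ 1.02 * D := by
  have hMD : M ≤ 0.01753 * D := by
    refine hMr.trans ?_
    have := mul_le_mul_of_nonneg_left hD1 hD0.le
    linarith
  have h2 : M ^ 2 * (1 - D) ≤ 0.0001 * D := by
    have a1 := mul_le_mul hMD (hMD.trans (by linarith : 0.01753 * D ≤ 0.00012)) hM0 (by linarith)
    have a2 := mul_le_of_le_one_right (sq_nonneg M) (show 1 - D ≤ 1 by linarith)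
    linarith [show M ^ 2 = M * M by ring]
  have h4 : (1 - t) * (0.9995 * 0.99326) ≤ (1 - t) * ((1 - M) ^ 2 * (1 - D)) := by
    refine mul_le_mul_of_nonneg_left (mul_le_mul ?_ (by linarith) (by norm_num) (sq_nonneg _))
      (by linarith)
    linarith [sq_nonneg M, show (1 - M) ^ 2 = 1 - 2 * M + M ^ 2 by ring]
  have e : (1 - M) * (2 - t * (1 - M)) * (1 - D)
      = 1 - D - M ^ 2 * (1 - D) + (1 - t) * ((1 - M) ^ 2 * (1 - D)) := by ring
  linarith

/-- Where a tilted state outside the range of the child route can be. -/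
lemma tilt_geometry {x y bs t : ℝ} (hbs : 5 ≤ bs) (hx1 : x ∈ Ioo (-1 : ℝ) 1)
    (hy1 : y ∈ Ioo (-1 : ℝ) 1) (hM0 : 0 ≤ (x + y) / 2) (hhalf0 : 0 < (x - y) / 2) (ht0 : 0 < t)
    (ht1 : t ≤ 1) (hrho : (ent x + ent y) / 2 * tanh bs = ent (tanh bs) * ((x - y) / 2))
    (hnotP : (1 - exp (-bs)) * satWeight (1 - t * (1 - (x + y) / 2))
      < t * ((x - y) / 2) / tanh bs) :
    (1 + y) / 2 ≤ 2.6 * exp (-bs) ^ 2 ∧ 1 - t ≤ 1.02 * exp (-bs) ∧ 0.97 ≤ (x - y) / 2 ∧
      1 - t * (1 - (x + y) / 2) < 1 ∧ (x + y) / 2 ≤ 1 - t * (1 - (x + y) / 2) := by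
  obtain ⟨hD0, hD1, hD2⟩ := exp_neg_facts hbs
  have hts1 : (0.999 : ℝ) ≤ tanh bs := by
    have := (large_facts hbs).1
    nlinarith
  have hes := ent_tanh_pos bs
  have hesu : ent (tanh bs) ≤ (2 * bs + 1) * exp (-bs) ^ 2 := by
    refine (ent_tanh_bounds (by linarith)).2.trans (le_of_eq ?_)
    rw [← hD2]; ring
  set D := exp (-bs) with hD
  set M := (x + y) / 2 with hM
  set half := (x - y) / 2 with hhalf
  set h := (ent x + ent y) / 2 with hh
  have hM1 : M < 1 := by linarith [hx1.2, hy1.2]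
  have hhalf1 : half < 1 - M := by linarith [hx1.2]
  -- `half ≤ tanh bs`
  have hle : half ≤ tanh bs := by
    by_contra hc
    push Not at hc
    have hcc := concaveOn_ent.2 (x := x) ⟨hx1.1.le, hx1.2.le⟩ (y := -y)
      ⟨by linarith [hy1.2], by linarith [hy1.1]⟩ (show (0 : ℝ) ≤ 1 / 2 by norm_num)
      (show (0 : ℝ) ≤ 1 / 2 by norm_num) (by norm_num)
    simp only [smul_eq_mul, ent_neg] at hcc
    rw [show 1 / 2 * x + 1 / 2 * -y = half by rw [hhalf]; ring] at hcc
    have hent : ent half < ent (tanh bs) := by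
      obtain hmem : half ∈ Ioo (-1 : ℝ) 1 := ⟨by linarith, by linarith⟩
      rw [← tanh_artanh hmem]
      refine ent_tanh_lt_ent_tanh (by linarith) (strictMono_tanh'.lt_iff_lt.1 ?_)
      rwa [tanh_artanh hmem]
    have : ent (tanh bs) * tanh bs < h * tanh bs := by
      rw [hrho]; exact mul_lt_mul_of_pos_left hc hes
    have := lt_of_mul_lt_mul_right this (by linarith)
    linarith
  have hts0 : 0 < tanh bs := by linarith
  set m := 1 - t * (1 - M) with hm
  have hmM : M ≤ m := by
    have := mul_le_of_le_one_left (show 0 ≤ 1 - M by linarith) ht1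
    linarith
  have hm1 : m < 1 := by
    have := mul_pos ht0 (show 0 < 1 - M by linarith)
    linarith
  have hwm : (1 - m) * (1 + m) ≤ satWeight m := by
    unfold satWeight
    have : 0 ≤ (1 - m) * (1 + m) := mul_nonneg (by linarith) (by linarith)
    nlinarith [mul_nonneg this (sq_nonneg m)]
  have hP : (1 - M) * (2 - t * (1 - M)) * (1 - D) * tanh bs < half := by
    have h1 : (1 - D) * ((1 - m) * (1 + m)) < t * half / tanh bs :=
      lt_of_le_of_lt (mul_le_mul_of_nonneg_left hwm (by linarith)) hnotP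
    rw [lt_div_iff₀ hts0] at h1
    refine lt_of_mul_lt_mul_left ?_ ht0.le
    rw [hm] at h1
    linarith
  have hK : 0.9922 ≤ (1 - D) * tanh bs := by
    refine le_trans (by norm_num) (mul_le_mul (show (0.99326 : ℝ) ≤ 1 - D by linarith) hts1
      (by norm_num) (by linarith))
  have htM : 0.99 ≤ t * (1 - M) := by
    by_contra hc
    push Not at hc
    have h1 : (1 - M) * 1.01 * 0.9922 ≤ (1 - M) * (2 - t * (1 - M)) * ((1 - D) * tanh bs) :=
      mul_le_mul (mul_le_mul_of_nonneg_left (by linarith) (by linarith)) hK (by norm_num)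
        (mul_nonneg (by linarith) (by linarith))
    nlinarith
  have hM2 : M ≤ 0.01 := by
    have := mul_le_of_le_one_left (show 0 ≤ 1 - M by linarith) ht1
    linarith
  have hhalf97 : 0.97 ≤ half := by
    have h2 : t * (1 - M) ≤ 1 := mul_le_one₀ ht1 (by linarith) (by linarith)
    have h1 : 0.99 * 1 * 0.9922 ≤ (1 - M) * (2 - t * (1 - M)) * ((1 - D) * tanh bs) :=
      mul_le_mul (mul_le_mul (by linarith) (by linarith) (by norm_num) (by linarith)) hK
        (by norm_num) (mul_nonneg (by linarith) (by linarith))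
    linarith
  have hr : (1 + y) / 2 ≤ 2.6 * D ^ 2 := by
    refine minority_le hbs (by linarith) ?_
    have hh2 : h ≤ ent (tanh bs) := by
      refine le_of_mul_le_mul_right ?_ hts0
      rw [hrho]
      exact mul_le_mul_of_nonneg_left hle hes.le
    have hex : 0 ≤ ent x := binEntropy_nonneg (by linarith [hx1.1]) (by linarith [hx1.2])
    have : ent y = binEntropy ((1 + y) / 2) := rfl
    linarith
  have hMr : M ≤ 2.6 * D ^ 2 := by linarith [hx1.2]
  have heps : 1 - t ≤ 1.02 * D :=
    near_corner_le hD0 hD1 hM0 hMr ht1 (lt_of_mul_lt_mul_right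
      (by linarith : (1 - M) * (2 - t * (1 - M)) * (1 - D) * tanh bs < 1 * tanh bs) hts0.le)
  exact ⟨hr, heps, hhalf97, hm1, hmM⟩

/-- **Tilted states near a dictator.** -/
theorem sat_tilt_large {a b bs t : ℝ} (ha : 0 ≤ a) (hb : 0 < b) (hbs : 5 ≤ bs) (ht0 : 0 < t)
    (ht1 : t ≤ 1)
    (hrho : (ent (tanh (a + b)) + ent (tanh (a - b))) / 2 * tanh bs
      = ent (tanh bs) * ((tanh (a + b) - tanh (a - b)) / 2))
    (hnotP : (1 - exp (-bs)) * satWeight (1 - t * (1 - (tanh (a + b) + tanh (a - b)) / 2))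
      < t * ((tanh (a + b) - tanh (a - b)) / 2) / tanh bs) :
    persp2 (satWeight (1 - t * (1 - (tanh (a + b) + tanh (a - b)) / 2)))
        (t * ((ent (tanh (a + b)) + ent (tanh (a - b))) / 2))
      ≤ t * (b * ((tanh (a + b) - tanh (a - b)) / 2))
        + (ent (1 - t * (1 - tanh (a + b))) + ent (1 - t * (1 - tanh (a - b)))
          - 2 * (t * ((ent (tanh (a + b)) + ent (tanh (a - b))) / 2))) := by
  obtain ⟨hD0, hD1, hD2⟩ := exp_neg_facts hbs
  have hts1 : (0.999 : ℝ) ≤ tanh bs := by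
    have := (large_facts hbs).1
    nlinarith
  have hes := ent_tanh_pos bs
  have hesu : ent (tanh bs) ≤ (2 * bs + 1) * exp (-bs) ^ 2 := by
    refine (ent_tanh_bounds (by linarith)).2.trans (le_of_eq ?_)
    rw [← hD2]; ring
  set D := exp (-bs) with hD
  set x := tanh (a + b) with hx
  set y := tanh (a - b) with hy
  set M := (x + y) / 2 with hM
  set half := (x - y) / 2 with hhalf
  set h := (ent x + ent y) / 2 with hh
  have hx1 : x ∈ Ioo (-1 : ℝ) 1 := ⟨neg_one_lt_tanh _, tanh_lt_one _⟩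
  have hy1 : y ∈ Ioo (-1 : ℝ) 1 := ⟨neg_one_lt_tanh _, tanh_lt_one _⟩
  have hM0 : 0 ≤ M := by
    rw [hM, hx, hy, atom_add]
    exact div_nonneg (sinh_nonneg_iff.2 (by linarith)) (uFn_pos a b).le
  have hM1 : M < 1 := by linarith [hx1.2, hy1.2]
  have hhalf0 : 0 < half := by
    have : y < x := strictMono_tanh' (by linarith)
    linarith
  obtain ⟨hr, heps, hhalf97, hm1, hmM⟩ :=
    tilt_geometry hbs hx1 hy1 hM0 hhalf0 ht0 ht1 hrho hnotP
  rw [← hD] at hr heps
  rw [← hhalf] at hhalf97
  rw [← hM] at hmM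
  set m := 1 - t * (1 - M) with hm
  have hts0 : 0 < tanh bs := by linarith
  have hD2' : D ^ 2 ≤ 0.00674 * 0.00674 := by
    rw [sq]; exact mul_le_mul hD1 hD1 hD0.le (by norm_num)
  have hab : a ≤ b := by
    by_contra hc
    push Not at hc
    have : 0 ≤ y := tanh_nonneg' (by linarith)
    linarith
  have hb1 : 1 ≤ b := by
    by_contra hc
    push Not at hc
    have hhb := atom_half_le a hb.le
    rw [← hx, ← hy, ← hM, ← hhalf] at hhb
    have h2 : tanh b ≤ 1 * (15 + 1 ^ 2) / (15 + 6 * 1 ^ 2) :=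
      (strictMono_tanh'.monotone hc.le).trans (tanh_le_pade zero_le_one (by norm_num))
    have : tanh b * (1 - M ^ 2) ≤ tanh b :=
      mul_le_of_le_one_right (tanh_nonneg' hb.le) (by linarith [sq_nonneg M])
    norm_num at h2
    linarith
  have hwpos : 0 < satWeight m := satWeight_pos ⟨by linarith, hm1⟩
  have hh0 : 0 < h := by
    have h0 : ∀ z : ℝ, 0 < ent (tanh z) := ent_tanh_pos
    have := h0 (a + b); have := h0 (a - b)
    rw [hh, hx, hy]; linarith
  have hH : 0 < t * h := mul_pos ht0 hh0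
  have hxlo : (1 - D) * ent (tanh bs) ≤ t * h / satWeight m := by
    rw [le_div_iff₀ hwpos]
    rw [lt_div_iff₀ hts0] at hnotP
    refine le_of_mul_le_mul_right ?_ hts0
    have := mul_le_mul_of_nonneg_left hnotP.le hes.le
    rw [show t * h * tanh bs = t * (h * tanh bs) by ring, hrho]
    linarith
  have hα := alpha_near_le hbs hxlo
  rw [persp2_eq_tangent hwpos.ne']
  set e := eCap (t * h / satWeight m) with he
  have hmem := eCap_mem (div_pos hH hwpos)
  rw [← he] at hmem
  have hedge := edge_ge_tangent ha hab hb1 hmem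
  rw [← hx, ← hy, ← hM, ← hhalf, ← hh] at hedge
  have hedge' := mul_le_mul_of_nonneg_left hedge ht0.le
  have hα0 := alphaT_nonneg hmem.1.le
  have hw1 : satWeight m - t * satWeight M ≤ 1 - t := by
    have h1 := satWeight_le_of_le hM0 hmM
    have h2 := mul_le_mul_of_nonneg_left (satWeight_le_one M) (show 0 ≤ 1 - t by linarith)
    linarith
  have h1 := mul_le_mul_of_nonneg_right hw1 hα0
  have h2 := mul_le_mul_of_nonneg_left hα (show 0 ≤ 1 - t by linarith)
  have h3 := corner_child hbs hy1.1 hr ht1 heps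
  have h4 := corner_child_nonneg hx1 ht0.le ht1
  linarith [show 2 * (t * h) = t * ent x + t * ent y by rw [hh]; ring]

/-- **Centred-path states near a dictator.** -/
theorem sat_sym_large {b m l : ℝ} (hb : 5 ≤ b) (hm : 0 ≤ m) (hm1 : m < 1) (hl0 : 0 < l)
    (hl : l ≤ 1 - m) (hnotP : (1 - exp (-b)) * satWeight m < l) :
    persp2 (satWeight m) (l * ent (tanh b))
      ≤ l * (b * tanh b)
        + (ent (m + l * tanh b) + ent (m - l * tanh b) - 2 * (l * ent (tanh b))) := by
  obtain ⟨hD0, hD1, hD2⟩ := exp_neg_facts hb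
  set D := exp (-b) with hD
  have he := ent_tanh_pos b
  have ht0 := tanh_nonneg' (show 0 ≤ b by linarith)
  have ht1 := tanh_lt_one b
  have hw := satWeight_pos (show m ∈ Ioo (-1 : ℝ) 1 from ⟨by linarith, hm1⟩)
  have hwm : 1 - m ^ 2 ≤ satWeight m := by
    unfold satWeight
    nlinarith [mul_nonneg (show (0 : ℝ) ≤ 1 - m ^ 2 by nlinarith) (sq_nonneg m)]
  have hk : (1 - D) * (1 - m ^ 2) < l :=
    lt_of_le_of_lt (mul_le_mul_of_nonneg_left hwm (by linarith)) hnotP
  have hmD : m ≤ 1.0069 * D := by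
    have h1 : (1 - D) * (1 + m) < 1 := by
      refine lt_of_mul_lt_mul_left ?_ (show (0 : ℝ) ≤ 1 - m by linarith)
      linarith
    nlinarith
  have heps : 1 - l ≤ 1.02 * D := by
    have h2 : m * m ≤ 1.0069 * D * (1.0069 * 0.00674) :=
      mul_le_mul hmD (hmD.trans (by linarith)) hm (by positivity)
    nlinarith [mul_nonneg hD0.le (sq_nonneg m)]
  have hH : 0 < l * ent (tanh b) := mul_pos hl0 he
  have hxlo : (1 - D) * ent (tanh b) ≤ l * ent (tanh b) / satWeight m := by
    rw [le_div_iff₀ hw]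
    have := mul_le_mul_of_nonneg_left hnotP.le he.le
    linarith
  have hα := alpha_near_le hb hxlo
  rw [persp2_eq_tangent hw.ne']
  set e := eCap (l * ent (tanh b) / satWeight m) with hee
  have hmem := eCap_mem (div_pos hH hw)
  rw [← hee] at hmem
  have hedge := tangent_le_Phi hmem he
  rw [Phi_ent_tanh (show 0 ≤ b by linarith)] at hedge
  have hedge' := mul_le_mul_of_nonneg_left hedge hl0.le
  have hα0 := alphaT_nonneg hmem.1.le
  have h1 := mul_le_mul_of_nonneg_right
    (show satWeight m - l ≤ 1 - l by linarith [satWeight_le_one m]) hα0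
  have h2 := mul_le_mul_of_nonneg_left hα (show 0 ≤ 1 - l by linarith)
  -- moving `m` to the corner `1 - l` only decreases the children's entropies
  set d := l * tanh b with hd
  have hd0 : 0 ≤ d := mul_nonneg hl0.le ht0
  have hdl : d ≤ l := mul_le_of_le_one_right hl0.le ht1.le
  have hcorner : ent (1 - l + d) + ent (1 - l - d) ≤ ent (m + d) + ent (m - d) := by
    rcases (show m ≤ 1 - l by linarith).eq_or_lt with h | h
    · rw [← h]
    set θ := ((1 - l) + m) / (2 * (1 - l)) with hθ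
    have hl1 : 0 < 1 - l := by linarith
    have hθ0 : 0 ≤ θ := by positivity
    have hθ1 : θ ≤ 1 := by rw [hθ, div_le_one (by positivity)]; linarith
    have em : θ * (1 - l) + (1 - θ) * (-(1 - l)) = m := by rw [hθ]; field_simp; ring
    have c1 := concaveOn_ent.2 (x := 1 - l + d) ⟨by linarith, by linarith⟩ (y := -(1 - l) + d)
      ⟨by linarith, by linarith⟩ hθ0 (sub_nonneg.2 hθ1) (by ring)
    have c2 := concaveOn_ent.2 (x := 1 - l - d) ⟨by linarith, by linarith⟩ (y := -(1 - l) - d)
      ⟨by linarith, by linarith⟩ hθ0 (sub_nonneg.2 hθ1) (by ring)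
    simp only [smul_eq_mul] at c1 c2
    rw [show θ * (1 - l + d) + (1 - θ) * (-(1 - l) + d) = m + d by linear_combination em] at c1
    rw [show θ * (1 - l - d) + (1 - θ) * (-(1 - l) - d) = m - d by linear_combination em] at c2
    rw [← ent_neg (-(1 - l) + d), show -(-(1 - l) + d) = 1 - l - d by ring] at c1
    rw [← ent_neg (-(1 - l) - d), show -(-(1 - l) - d) = 1 - l + d by ring] at c2
    linarith
  have hr : (1 + -tanh b) / 2 ≤ 2.6 * D ^ 2 := by
    have := (large_facts hb).1
    rw [← hD] at this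
    nlinarith [pow_pos hD0 2]
  have h3 := corner_child hb (show -1 < -tanh b by linarith) hr (by linarith) heps
  have h4 := corner_child_nonneg (show tanh b ∈ Ioo (-1 : ℝ) 1 from ⟨by linarith, ht1⟩) hl0.le
    (by linarith : l ≤ 1)
  rw [ent_neg] at h3
  rw [show 1 - l * (1 - -tanh b) = 1 - l - d by rw [hd]; ring] at h3
  rw [show 1 - l * (1 - tanh b) = 1 - l + d by rw [hd]; ring] at h4
  linarith

end Vale.Agent.P322
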