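import Vale.Agent.P322.Scalar.Props

/-!
# Courtade–Kumar: the saturation piece dominates for small residual entropy

`Phi_le_satTerm` says that `Phi (H + phiFn m) ≤ satWeight m * Phi (H / satWeight m)` as soon as
`H + phiFn m ≤ 1 / 4`. The proof is a tangent inequality for the convex `Phi` together with
`rate e ≥ (7/4) (Phi e + e * rate e)` on `(0, 1/4]`, which reduces to its value at `1/4`.
-/

namespace Vale.Agent.P322

open Real Set

/-- The series bound `phiFn m ≥ m ^ 2 / 2 + m ^ 4 / 12`. -/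
lemma quartic_le_phiFn {x : ℝ} (hx : x ∈ Icc (-1 : ℝ) 1) :
    x ^ 2 / 2 + x ^ 4 / 12 ≤ phiFn x := by
  have hg : MonotoneOn (fun t => artanh t - t - t ^ 3 / 3) (Ico 0 1) := by
    have hd : ∀ t ∈ Ico (0 : ℝ) 1,
        HasDerivAt (fun t => artanh t - t - t ^ 3 / 3) (1 / (1 - t ^ 2) - 1 - t ^ 2) t :=
      fun t ht => (((hasDerivAt_artanh' (by linarith [ht.1]) ht.2).sub (hasDerivAt_id' t)).sub
        ((hasDerivAt_pow 3 t).div_const 3)).congr_deriv (by norm_num)
    refine monotoneOn_of_hasDerivWithinAt_nonneg (convex_Ico 0 1)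
      (fun t ht => (hd t ht).continuousAt.continuousWithinAt)
      (fun t ht => (hd t (interior_subset ht)).hasDerivWithinAt) fun t ht => ?_
    have ht := interior_subset ht
    have h1 : 0 < 1 - t ^ 2 := by nlinarith [ht.1, ht.2]
    have h2 : 1 + t ^ 2 ≤ 1 / (1 - t ^ 2) := by
      rw [le_div_iff₀ h1]; nlinarith [sq_nonneg (t ^ 2)]
    linarith
  have hm : MonotoneOn (fun t => phiFn t - (t ^ 2 / 2 + t ^ 4 / 12)) (Icc 0 1) := by
    have hc : Continuous fun t => phiFn t - (t ^ 2 / 2 + t ^ 4 / 12) := by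
      unfold phiFn; exact ((continuous_const.sub continuous_ent).sub (by fun_prop))
    refine monotoneOn_of_hasDerivWithinAt_nonneg (f' := fun t => artanh t - t - t ^ 3 / 3)
      (convex_Icc 0 1) hc.continuousOn (fun t ht => ?_) fun t ht => ?_
    · rw [interior_Icc] at ht
      exact (((hasDerivAt_phiFn (by linarith [ht.1]) ht.2).sub
        (((hasDerivAt_pow 2 t).div_const 2).add
          ((hasDerivAt_pow 4 t).div_const 12))).congr_deriv (by norm_num; ring)).hasDerivWithinAt
    · rw [interior_Icc] at ht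
      have := hg ⟨le_rfl, zero_lt_one⟩ ⟨ht.1.le, ht.2⟩ ht.1.le
      simpa [artanh_zero] using this
  have main : ∀ y ∈ Icc (0 : ℝ) 1, y ^ 2 / 2 + y ^ 4 / 12 ≤ phiFn y := fun y hy => by
    have := hm (left_mem_Icc.2 zero_le_one) hy hy.1
    simp only [phiFn, ent_zero] at this ⊢
    linarith
  rcases le_total 0 x with h | h
  · exact main x ⟨h, hx.2⟩
  · have h' := main (-x) ⟨by linarith, by linarith [hx.1]⟩
    rw [phiFn_neg, neg_sq, show (-x) ^ 4 = x ^ 4 by ring] at h'
    exact h'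

lemma tanh_eq_exp (b : ℝ) : tanh b = (exp (2 * b) - 1) / (exp (2 * b) + 1) := by
  rw [tanh_eq_sinh_div_cosh, sinh_eq, cosh_eq, two_mul b, exp_add, exp_neg]
  field_simp

lemma ent_tanh_eq_exp (b : ℝ) :
    ent (tanh b) = log (1 + 1 / exp (2 * b)) + 2 * b / (exp (2 * b) + 1) := by
  have he : 0 < exp (2 * b) := exp_pos _
  have h : 2 * cosh b = exp b * (1 + 1 / exp (2 * b)) := by
    rw [cosh_eq, two_mul b, exp_add, exp_neg]; field_simp
  have h1 : (0 : ℝ) < 1 + 1 / exp (2 * b) := by positivity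
  rw [ent_tanh, h, log_mul (exp_pos b).ne' h1.ne', log_exp, tanh_eq_exp]
  field_simp
  ring

lemma exp_thirteen_fifths : exp (2 * (13 / 10 : ℝ)) ∈ Icc (13.463 : ℝ) 13.465 := by
  have h : exp (2 * (13 / 10 : ℝ)) = exp 1 * exp 1 * exp (3 / 5) := by
    rw [← exp_add, ← exp_add]; norm_num
  have hl : (1.8221 : ℝ) ≤ exp (3 / 5) := by
    refine le_trans ?_ (sum_le_exp_of_nonneg (by norm_num) 8)
    norm_num [Finset.sum_range_succ, Nat.factorial]
  have hu : exp (3 / 5 : ℝ) ≤ 1.82213 := by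
    refine (exp_bound' (by norm_num) (by norm_num) (n := 8) (by norm_num)).trans ?_
    norm_num [Finset.sum_range_succ, Nat.factorial]
  have := exp_one_gt_d9; have := exp_one_lt_d9
  rw [h]
  constructor
  · calc (13.463 : ℝ) ≤ 2.7182818283 * 2.7182818283 * 1.8221 := by norm_num
      _ ≤ _ := by gcongr
  · calc exp 1 * exp 1 * exp (3 / 5) ≤ 2.7182818286 * 2.7182818286 * 1.82213 := by gcongr
      _ ≤ _ := by norm_num

lemma exp_sixtyfive_fiftieths : exp (2 * (131 / 100 : ℝ)) ∈ Icc (13.73 : ℝ) 13.74 := by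
  have h : exp (2 * (131 / 100 : ℝ)) = exp 1 * exp 1 * exp (31 / 50) := by
    rw [← exp_add, ← exp_add]; norm_num
  have hl : (1.8589 : ℝ) ≤ exp (31 / 50) := by
    refine le_trans ?_ (sum_le_exp_of_nonneg (by norm_num) 8)
    norm_num [Finset.sum_range_succ, Nat.factorial]
  have hu : exp (31 / 50 : ℝ) ≤ 1.859 := by
    refine (exp_bound' (by norm_num) (by norm_num) (n := 8) (by norm_num)).trans ?_
    norm_num [Finset.sum_range_succ, Nat.factorial]
  have := exp_one_gt_d9; have := exp_one_lt_d9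
  rw [h]
  constructor
  · calc (13.73 : ℝ) ≤ 2.7182818283 * 2.7182818283 * 1.8589 := by norm_num
      _ ≤ _ := by gcongr
  · calc exp 1 * exp 1 * exp (31 / 50) ≤ 2.7182818286 * 2.7182818286 * 1.859 := by gcongr
      _ ≤ _ := by norm_num

/-- `z (1/4)` lies in `[13/10, 131/100]`. -/
lemma zOf_quarter : zOf (1 / 4) ∈ Icc (13 / 10 : ℝ) (131 / 100) := by
  have hE := exp_thirteen_fifths
  have hF := exp_sixtyfive_fiftieths
  constructor
  · refine ((lt_zOf_iff (by norm_num) (by norm_num)).2 ?_).le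
    rw [ent_tanh_eq_exp]
    set E := exp (2 * (13 / 10 : ℝ))
    have hEp : 0 < E := by linarith [hE.1]
    have hlog : 2 / (1 + 2 * E) ≤ log (1 + 1 / E) := by
      refine le_trans (le_of_eq ?_) (le_log_one_add_of_nonneg (x := 1 / E) (by positivity))
      field_simp
    have h1 : (2 : ℝ) / (1 + 2 * 13.465) ≤ 2 / (1 + 2 * E) :=
      div_le_div_of_nonneg_left (by norm_num) (by linarith) (by linarith [hE.2])
    have h2 : (2 * (13 / 10) : ℝ) / (13.465 + 1) ≤ 2 * (13 / 10) / (E + 1) :=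
      div_le_div_of_nonneg_left (by norm_num) (by linarith) (by linarith [hE.2])
    norm_num at h1 h2 hlog ⊢
    linarith
  · refine ((zOf_lt_iff (by norm_num) (by norm_num)).2 ?_).le
    rw [ent_tanh_eq_exp]
    set E := exp (2 * (131 / 100 : ℝ))
    have hEp : 0 < E := by linarith [hF.1]
    have hlog : log (1 + 1 / E) ≤ 0.0704 := by
      rw [log_le_iff_le_exp (by positivity)]
      refine le_trans ?_ (sum_le_exp_of_nonneg (by norm_num) 4)
      have : 1 / E ≤ 1 / 13.73 := one_div_le_one_div_of_le (by norm_num) hF.1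
      norm_num [Finset.sum_range_succ, Nat.factorial] at this ⊢
      linarith
    have h2 : (2 * (131 / 100) : ℝ) / (E + 1) ≤ 2 * (131 / 100) / (13.73 + 1) :=
      div_le_div_of_nonneg_left (by norm_num) (by norm_num) (by linarith [hF.1])
    norm_num at h2 hlog ⊢
    linarith

/-- `(7/4) (Phi e + e * rate e) ≤ rate e` for `0 < e ≤ 1/4`. -/
lemma tangent_value_le_rate {e : ℝ} (h0 : 0 < e) (h1 : e ≤ 1 / 4) :
    7 / 4 * (Phi e + e * rate e) ≤ rate e := by
  have hlog : (1 : ℝ) / 4 ≤ log 2 := by linarith [log_two_gt_d9]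
  have ht := Phi_tangent ⟨h0, h1.trans hlog⟩ (show (0 : ℝ) < 1 / 4 by norm_num)
  have hz := zOf_quarter
  have hzp : 0 < zOf (1 / 4) := by linarith [hz.1]
  have hPhi : Phi (1 / 4) ≤ 1.1323 := by
    rw [Phi_eq]
    refine le_trans (mul_le_mul hz.2 (strictMono_tanh'.monotone hz.2) (tanh_nonneg' hzp.le)
      (by norm_num)) ?_
    rw [tanh_eq_exp]
    have hF := exp_sixtyfive_fiftieths
    have : (exp (2 * (131 / 100 : ℝ)) - 1) / (exp (2 * (131 / 100 : ℝ)) + 1)
        ≤ (13.74 - 1) / (13.74 + 1) := by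
      rw [div_le_div_iff₀ (by linarith [hF.1]) (by norm_num)]
      nlinarith [hF.2]
    norm_num at this ⊢
    linarith
  have hrate : 3.574 ≤ rate (1 / 4) := by
    rw [rate, if_neg hzp.ne']
    have hm := monotoneOn_dslope_sinh (show (0 : ℝ) < 2 * (13 / 10) by norm_num)
      (show (0 : ℝ) < 2 * zOf (1 / 4) by linarith) (by linarith [hz.1])
    refine le_trans ?_ (add_le_add le_rfl hm)
    have hE := exp_thirteen_fifths
    simp only [sinh_eq, exp_neg]
    have : (exp (2 * (13 / 10 : ℝ)))⁻¹ ≤ 0.0743 := by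
      rw [inv_le_iff_one_le_mul₀ (exp_pos _)]
      nlinarith [hE.1]
    norm_num at hE this ⊢
    linarith [hE.1]
  have hmono : rate (1 / 4) ≤ rate e :=
    antitoneOn_rate h0 (show (0 : ℝ) < 1 / 4 by norm_num) h1
  nlinarith

/-- For `H + phiFn m ≤ 1/4` the saturation piece of the profile is the larger one. -/
theorem Phi_le_satTerm {m H : ℝ} (hm : m ∈ Ioo (-1 : ℝ) 1) (hH : 0 < H)
    (h : H + phiFn m ≤ 1 / 4) :
    Phi (H + phiFn m) ≤ satWeight m * Phi (H / satWeight m) := by
  have hw := satWeight_pos hm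
  have hmI : m ∈ Icc (-1 : ℝ) 1 := ⟨hm.1.le, hm.2.le⟩
  set e := H + phiFn m with he
  have he0 : 0 < e := by linarith [phiFn_nonneg m]
  have hlog : (1 : ℝ) / 4 ≤ log 2 := by linarith [log_two_gt_d9]
  have ht := mul_le_mul_of_nonneg_left
    (Phi_tangent ⟨he0, h.trans hlog⟩ (div_pos hH hw)) hw.le
  have ht' : satWeight m * Phi e - rate e * (H - satWeight m * e)
      ≤ satWeight m * Phi (H / satWeight m) := by
    refine le_trans (le_of_eq ?_) ht
    field_simp
  have hk := tangent_value_le_rate he0 h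
  have hR := two_le_rate e
  have hP := Phi_nonneg e
  have hq := quartic_le_phiFn hmI
  have h1 : 0 ≤ Phi e + e * rate e := by positivity
  -- `(1 - w) (Phi e + e R) ≤ R phiFn m`
  have h2 : (1 - satWeight m) * (Phi e + e * rate e) ≤ rate e * phiFn m := by
    have e1 : (1 : ℝ) - satWeight m = 7 / 8 * m ^ 2 + m ^ 4 / 8 := by rw [satWeight]; ring
    rw [e1]
    have a1 := mul_le_mul_of_nonneg_left hk (show (0 : ℝ) ≤ m ^ 2 / 2 by positivity)
    have a2 := mul_le_mul_of_nonneg_left hk (show (0 : ℝ) ≤ m ^ 4 / 12 by positivity)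
    have a3 : (0 : ℝ) ≤ m ^ 4 * (Phi e + e * rate e) := by positivity
    have a4 := mul_le_mul_of_nonneg_left hq (by linarith : (0 : ℝ) ≤ rate e)
    nlinarith
  have e3 : rate e * (H - satWeight m * e)
      = (1 - satWeight m) * (rate e * e) - rate e * phiFn m := by
    rw [he]; ring
  rw [e3] at ht'
  linarith [ht', h2]

end Vale.Agent.P322
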