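import Mathlib

/-!
# Courtade–Kumar: definitions for the scalar two-point inequality

All entropies are in nats. `ent x` is the entropy of a sign with mean `x`.
`Phi e` is the value `b * tanh b` where `b ≥ 0` has `ent (tanh b) = e`; it is `0` outside `(0, log 2)`.
-/

namespace Vale.Agent.P322

open Real

/-- Entropy in nats of a `±1` variable of mean `x`. -/
noncomputable def ent (x : ℝ) : ℝ := binEntropy ((1 + x) / 2)

/-- The function `φ = log 2 - ent`. -/
noncomputable def phiFn (x : ℝ) : ℝ := log 2 - ent x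

open Classical in
/-- `Phi e = r * artanh r` where `r ∈ [0,1)` has entropy `e` (and `0` if there is no such `r`). -/
noncomputable def Phi (e : ℝ) : ℝ :=
  if h : ∃ r ∈ Set.Ico (0 : ℝ) 1, ent r = e then h.choose * artanh h.choose else 0

/-- `F0 D = r * artanh r` where `phiFn r = D`. -/
noncomputable def F0 (D : ℝ) : ℝ := Phi (log 2 - D)

/-- The weight of the saturation piece of the profile. -/
noncomputable def satWeight (m : ℝ) : ℝ := (1 - m ^ 2) * (8 + m ^ 2) / 8

/-- The profile: `H` stands for the mean of `ent ∘ g`, `m` for the mean of `g`. -/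
noncomputable def profile (m H : ℝ) : ℝ :=
  max (Phi (H + phiFn m)) (satWeight m * Phi (H / satWeight m))

/-- The two-point step that the profile must satisfy. -/
def StepInequality (P : ℝ → ℝ → ℝ) : Prop :=
  ∀ (ι : Type) [Fintype ι], ∀ (w x y : ι → ℝ), (∀ i, 0 ≤ w i) → ∑ i, w i = 1 →
    (∀ i, x i ∈ Set.Ioo (-1 : ℝ) 1) → (∀ i, y i ∈ Set.Ioo (-1 : ℝ) 1) →
    P ((∑ i, w i * x i + ∑ i, w i * y i) / 2)
        ((∑ i, w i * ent (x i) + ∑ i, w i * ent (y i)) / 2) ≤
      (P (∑ i, w i * x i) (∑ i, w i * ent (x i)) +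
          P (∑ i, w i * y i) (∑ i, w i * ent (y i))) / 2 +
        (∑ i, w i * ((x i - y i) * (artanh (x i) - artanh (y i)))) / 4

end Vale.Agent.P322
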