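import Vale.Agent.P322.Scalar.Props

/-!
# Courtade–Kumar: the one-step inequality at a single atom

For `x = tanh (a + b)`, `y = tanh (a - b)` the product `gapEnt x y * uFn a b` decreases in
`a ≥ 0`, so the entropy gap of an atom is at most the gap of the centred atom, scaled by the
half difference. Convexity of `Phi` then gives `F0 (gapEnt x y) ≤ b * (x - y) / 2`.
-/

namespace Vale.Agent.P322

open Real Set

/-- `gapEnt` of the atom times `uFn a b`, in closed form. -/
noncomputable def gapNum (a b : ℝ) : ℝ :=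
  uFn a b * lFn a b / 2 + a * sinh (2 * a) + b * sinh (2 * b)
    - ((exp (2 * a) + cosh (2 * b)) * log (exp (2 * a) + cosh (2 * b))
      + (exp (-(2 * a)) + cosh (2 * b)) * log (exp (-(2 * a)) + cosh (2 * b))) / 2

lemma gapEnt_mul_uFn (a b : ℝ) :
    gapEnt (tanh (a + b)) (tanh (a - b)) * uFn a b = gapNum a b := by
  have hu := uFn_pos a b
  have he : 0 < exp (2 * a) + cosh (2 * b) := by positivity
  have hy : 0 < exp (-(2 * a)) + cosh (2 * b) := by positivity
  have hp : (1 + sinh (2 * a) / uFn a b) / 2 = (exp (2 * a) + cosh (2 * b)) / (2 * uFn a b) := by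
    rw [← cosh_add_sinh (2 * a)]; field_simp; rw [uFn]; ring
  have hq : 1 - (1 + sinh (2 * a) / uFn a b) / 2
      = (exp (-(2 * a)) + cosh (2 * b)) / (2 * uFn a b) := by
    rw [← cosh_sub_sinh (2 * a)]; field_simp; rw [uFn]; ring
  rw [gapEnt, atom_add, atom_ent, ent, binEntropy_eq_negMulLog_add_negMulLog_one_sub, hq, hp,
    negMulLog, negMulLog, log_div he.ne' (by positivity), log_div hy.ne' (by positivity), gapNum,
    e2Fn, ← lFn]
  rw [← cosh_add_sinh (2 * a), ← cosh_sub_sinh (2 * a)]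
  field_simp
  rw [uFn]
  ring

lemma gapNum_deriv_nonpos {c y : ℝ} (hy0 : 0 < y) (hy1 : y ≤ 1) (hc : 1 ≤ c) :
    (1 - y ^ 2) * log (1 + 2 * c * y + y ^ 2) - 2 * log (1 + c * y) + 2 * y ^ 2 * log (y + c) ≤ 0 := by
  set f : ℝ → ℝ := fun t =>
    (1 - y ^ 2) * log (1 + 2 * t * y + y ^ 2) - 2 * log (1 + t * y) + 2 * y ^ 2 * log (y + t)
  have hd : ∀ t ∈ Ici (1 : ℝ), HasDerivAt f (2 * y * (1 - y ^ 2)
      * ((y * (1 - t ^ 2)) / ((1 + 2 * t * y + y ^ 2) * (1 + t * y) * (y + t)))) t := by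
    intro t ht
    have t1 : (1 : ℝ) ≤ t := ht
    have h1 : 0 < 1 + 2 * t * y + y ^ 2 := by positivity
    have h2 : 0 < 1 + t * y := by positivity
    have h3 : 0 < y + t := by positivity
    have hid := hasDerivAt_id' t
    have := ((((((hid.const_mul 2).mul_const y).const_add 1).add_const (y ^ 2)).log h1.ne').const_mul
      (1 - y ^ 2)).sub ((((hid.mul_const y).const_add 1).log h2.ne').const_mul 2) |>.add
      (((hid.const_add y).log h3.ne').const_mul (2 * y ^ 2))
    refine this.congr_deriv ?_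
    field_simp
    ring
  have hm : AntitoneOn f (Ici 1) := by
    refine antitoneOn_of_hasDerivWithinAt_nonpos (convex_Ici 1)
      (fun t ht => (hd t ht).continuousAt.continuousWithinAt)
      (fun t ht => (hd t (interior_subset ht)).hasDerivWithinAt) fun t ht => ?_
    have t1 : (1 : ℝ) ≤ t := interior_subset (s := Ici (1 : ℝ)) ht
    refine mul_nonpos_of_nonneg_of_nonpos (mul_nonneg (by positivity) (by nlinarith))
      (div_nonpos_of_nonpos_of_nonneg
        (mul_nonpos_of_nonneg_of_nonpos hy0.le (by nlinarith)) (by positivity))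
  have h1 : f 1 = 0 := by
    have e : (1 : ℝ) + 2 * 1 * y + y ^ 2 = (1 + y) ^ 2 := by ring
    simp only [f, e, log_pow, one_mul, add_comm y 1]
    push_cast; ring
  have := hm (mem_Ici.2 le_rfl) (mem_Ici.2 hc) hc
  rw [h1] at this
  exact this

lemma antitoneOn_gapNum (b : ℝ) : AntitoneOn (fun a => gapNum a b) (Ici 0) := by
  set c := cosh (2 * b) with hc
  have hd : ∀ a, HasDerivAt (fun a => gapNum a b)
      (sinh (2 * a) * lFn a b + 2 * a * cosh (2 * a)
        - exp (2 * a) * log (exp (2 * a) + c)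
        + exp (-(2 * a)) * log (exp (-(2 * a)) + c)) a := by
    intro a
    have h2 := hasDerivAt_two_mul a
    have hu : HasDerivAt (fun t => uFn t b) (sinh (2 * a) * 2) a := h2.cosh.add_const _
    have he := h2.exp.add_const c
    have hy := h2.neg.exp.add_const c
    have hne : exp (2 * a) + c ≠ 0 := (add_pos (exp_pos _) (cosh_pos _)).ne'
    have hne' : exp (-(2 * a)) + c ≠ 0 := (add_pos (exp_pos _) (cosh_pos _)).ne'
    have := ((((hu.mul (hasDerivAt_lFn_fst a b)).div_const 2).add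
      ((hasDerivAt_id' a).mul h2.sinh)).add_const (b * sinh (2 * b))).sub
        (((he.mul (he.log hne)).add (hy.mul (hy.log hne'))).div_const 2)
    refine this.congr_deriv ?_
    have e2 : exp (2 * a) - exp (-(2 * a)) = 2 * sinh (2 * a) := by rw [sinh_eq]; ring
    simp only [Pi.neg_apply, hc] at hne hne' ⊢
    field_simp [(uFn_pos a b).ne']
    linear_combination (-1 : ℝ) * e2
  refine antitoneOn_of_hasDerivWithinAt_nonpos (convex_Ici 0)
    (fun t _ => (hd t).continuousAt.continuousWithinAt) (fun t _ => (hd t).hasDerivWithinAt)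
    fun a ha => ?_
  rw [interior_Ici] at ha
  have ha0 : (0 : ℝ) < a := ha
  set y := exp (-(2 * a)) with hy
  have hy0 : 0 < y := exp_pos _
  have he : exp (2 * a) = 1 / y := by rw [hy, exp_neg]; simp
  have hloge : log (exp (2 * a) + c) = 2 * a + log (1 + c * y) := by
    rw [show exp (2 * a) + c = exp (2 * a) * (1 + c * y) by rw [he]; field_simp,
      log_mul (exp_pos _).ne' (by have := cosh_pos (2 * b); positivity), log_exp]
  have hl := lFn_sub a b
  rw [← hy, ← hc] at hl
  have key := gapNum_deriv_nonpos hy0 (exp_le_one_iff.2 (by linarith) : y ≤ 1) (one_le_cosh (2 * b))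
  rw [← hc, ← hl] at key
  rw [hloge, sinh_eq, cosh_eq, ← hy, he]
  have h' : (1 / y - y) / 2 * lFn a b + 2 * a * ((1 / y + y) / 2)
      - 1 / y * (2 * a + log (1 + c * y)) + y * log (y + c)
      = ((1 - y ^ 2) * (lFn a b - 2 * a) - 2 * log (1 + c * y) + 2 * y ^ 2 * log (y + c))
        / (2 * y) := by
    field_simp; ring
  rw [h']
  exact div_nonpos_of_nonpos_of_nonneg key (by positivity)

lemma gapEnt_nonneg {x y : ℝ} (hx : x ∈ Icc (-1 : ℝ) 1) (hy : y ∈ Icc (-1 : ℝ) 1) :
    0 ≤ gapEnt x y := by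
  have h := concaveOn_ent.2 hx hy (show (0 : ℝ) ≤ 1 / 2 by norm_num)
    (show (0 : ℝ) ≤ 1 / 2 by norm_num) (by norm_num)
  simp only [smul_eq_mul] at h
  rw [gapEnt, show (x + y) / 2 = 1 / 2 * x + 1 / 2 * y by ring]
  linarith

lemma phiFn_tanh_pos {b : ℝ} (hb : 0 < b) : 0 < phiFn (tanh b) := by
  have := ent_tanh_lt_ent_tanh le_rfl hb
  rw [tanh_zero, ent_zero] at this
  exact sub_pos.2 this

lemma gapNum_zero (b : ℝ) : gapNum 0 b = phiFn (tanh b) * uFn 0 b := by
  rw [← gapEnt_mul_uFn, gapEnt, zero_add, zero_sub, tanh_neg, ent_neg, phiFn]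
  simp [ent_zero]

/-- The gap of an atom, against its half difference. -/
lemma gapEnt_le_slope {a b : ℝ} (ha : 0 ≤ a) (hb : 0 < b) :
    gapEnt (tanh (a + b)) (tanh (a - b))
      ≤ phiFn (tanh b) / tanh b * ((tanh (a + b) - tanh (a - b)) / 2) := by
  have hs : sinh (2 * b) ≠ 0 := (sinh_pos_iff.2 (by linarith)).ne'
  have ht : tanh b * uFn 0 b = sinh (2 * b) := by
    rw [uFn, tanh_eq_sinh_div_cosh, mul_zero, cosh_zero, cosh_two_mul, sinh_two_mul, sinh_sq]
    field_simp [(cosh_pos b).ne']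
    ring
  have h : gapNum a b ≤ gapNum 0 b := antitoneOn_gapNum b (mem_Ici.2 le_rfl) ha ha
  rw [gapNum_zero, ← gapEnt_mul_uFn] at h
  rw [← le_div_iff₀ (uFn_pos a b)] at h
  refine h.trans (le_of_eq ?_)
  rw [atom_sub, ← ht]
  have : tanh b ≠ 0 := by intro h0; rw [h0, zero_mul] at ht; exact hs ht.symm
  field_simp

lemma gapEnt_le_phiFn {a b : ℝ} (ha : 0 ≤ a) :
    gapEnt (tanh (a + b)) (tanh (a - b)) ≤ phiFn (tanh b) := by
  have h : gapNum a b ≤ gapNum 0 b := antitoneOn_gapNum b (mem_Ici.2 le_rfl) ha ha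
  rw [gapNum_zero, ← gapEnt_mul_uFn] at h
  rw [← le_div_iff₀ (uFn_pos a b)] at h
  refine h.trans ?_
  rw [div_le_iff₀ (uFn_pos a b)]
  refine mul_le_mul_of_nonneg_left ?_ (phiFn_nonneg _)
  unfold uFn
  rw [mul_zero, cosh_zero]
  linarith [one_le_cosh (2 * a)]

/-- `F0` is star-shaped below any point of `[0, log 2)`. -/
lemma F0_le_mul {D d : ℝ} (hD : 0 ≤ D) (hDd : D ≤ d) (hd0 : 0 < d) (hd : d < log 2) :
    F0 D ≤ D / d * F0 d := by
  have hL : 0 < log 2 := log_pos one_lt_two
  have h := convexOn_Phi.2 (show log 2 - d ∈ Ioi 0 by simpa using hd) (show log 2 ∈ Ioi 0 from hL)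
    (show 0 ≤ D / d by positivity) (show 0 ≤ 1 - D / d by
      rw [sub_nonneg, div_le_one hd0]; exact hDd) (by ring)
  simp only [smul_eq_mul, Phi_of_log_two_le le_rfl, mul_zero, add_zero] at h
  rw [F0, F0]
  refine le_trans (le_of_eq ?_) h
  congr 1
  field_simp
  ring

/-- Secant form: an increment of `F0` with slope at most `F0 d / d`, `d = phiFn (tanh b)`, is
paid by the edge cost of the atom. -/
lemma secant_le_edge {a b D : ℝ} (ha : 0 ≤ a) (hb : 0 < b)
    (hslope : F0 D - F0 (D - gapEnt (tanh (a + b)) (tanh (a - b)))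
      ≤ gapEnt (tanh (a + b)) (tanh (a - b)) / phiFn (tanh b) * F0 (phiFn (tanh b))) :
    F0 D - F0 (D - gapEnt (tanh (a + b)) (tanh (a - b)))
      ≤ b * (tanh (a + b) - tanh (a - b)) / 2 := by
  have hd := phiFn_tanh_pos hb
  have htb : 0 < tanh b := by simpa using strictMono_tanh' hb
  have hF : F0 (phiFn (tanh b)) = b * tanh b := by
    rw [F0, phiFn, sub_sub_cancel, Phi_ent_tanh hb.le]
  refine hslope.trans ?_
  rw [hF]
  have h := gapEnt_le_slope ha hb
  calc gapEnt (tanh (a + b)) (tanh (a - b)) / phiFn (tanh b) * (b * tanh b)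
      ≤ phiFn (tanh b) / tanh b * ((tanh (a + b) - tanh (a - b)) / 2)
          / phiFn (tanh b) * (b * tanh b) := by gcongr
    _ = _ := by field_simp

/-- The one-step inequality. -/
theorem F0_gapEnt_le_edge {a b : ℝ} (ha : 0 ≤ a) (hb : 0 < b) :
    F0 (gapEnt (tanh (a + b)) (tanh (a - b))) ≤ b * (tanh (a + b) - tanh (a - b)) / 2 := by
  set g := gapEnt (tanh (a + b)) (tanh (a - b)) with hg
  have h0 : F0 (0 : ℝ) = 0 := by rw [F0, sub_zero, Phi_of_log_two_le le_rfl]
  have hm : ∀ z, tanh z ∈ Icc (-1 : ℝ) 1 := fun z =>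
    ⟨(neg_one_lt_tanh z).le, (tanh_lt_one z).le⟩
  have hgn : 0 ≤ g := gapEnt_nonneg (hm _) (hm _)
  have hlt : phiFn (tanh b) < log 2 := sub_lt_self _ (ent_tanh_pos b)
  have := secant_le_edge (D := g) ha hb (by
    rw [← hg, sub_self, h0, sub_zero]
    exact F0_le_mul hgn (gapEnt_le_phiFn ha) (phiFn_tanh_pos hb) hlt)
  rwa [← hg, sub_self, h0, sub_zero] at this

end Vale.Agent.P322
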