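import Vale.Agent.P322.Scalar.Props
import Vale.Agent.P322.Scalar.PathPoly

/-!
# Courtade–Kumar: shape of `1 / rate` away from saturation

With `v = tanh z ^ 2` and `a = z / tanh z` the derivative of `1 / rate` is the rational function
`shapeFn v a`. It increases with `z` up to `131/100`, so `1 / rate` is concave on `[1/4, log 2]`,
and it is at most `1/3 + phiFn (tanh z)` there.
-/

namespace Vale.Agent.P322

open Real Set

/-- `rateSlope z / rate ^ 2` in the variables `v = tanh z ^ 2`, `a = z / tanh z`. -/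
noncomputable def shapeFn (v a : ℝ) : ℝ :=
  (a * (1 + v) - 1) / (v * a * ((1 - v) * a + 1) ^ 2)

/-- `shapeFn` along `t = tanh z`. -/
noncomputable def shapeT (t : ℝ) : ℝ := shapeFn (t ^ 2) (artanh t / t)

lemma shape_eq {z : ℝ} (hz : 0 < z) :
    rateSlope z / (1 + sinh (2 * z) / (2 * z)) ^ 2 = shapeT (tanh z) := by
  have hc := cosh_pos z
  have hs : 0 < sinh z := sinh_pos_iff.2 hz
  rw [shapeT, artanh_tanh, shapeFn, rateSlope, sinh_two_mul, cosh_two_mul,
    tanh_eq_sinh_div_cosh]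
  have h1 : cosh z ^ 2 = sinh z ^ 2 + 1 := cosh_sq z
  have hv : 1 - (sinh z / cosh z) ^ 2 = 1 / cosh z ^ 2 := by
    field_simp
    linear_combination h1
  rw [hv]
  have h2 : z / (cosh z * sinh z) + 1 ≠ 0 := by positivity
  have h3 : z + sinh z * cosh z ≠ 0 := by positivity
  field_simp
  ring

lemma artanh_lower {t : ℝ} (h0 : 0 ≤ t) (h1 : t < 1) :
    t + t ^ 3 / 3 + t ^ 5 / 5 ≤ artanh t := by
  have hm : MonotoneOn (fun x => artanh x - (x + x ^ 3 / 3 + x ^ 5 / 5)) (Ico 0 1) := by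
    have hd : ∀ x ∈ Ico (0 : ℝ) 1, HasDerivAt (fun x => artanh x - (x + x ^ 3 / 3 + x ^ 5 / 5))
        (1 / (1 - x ^ 2) - (1 + x ^ 2 + x ^ 4)) x := fun x hx =>
      ((hasDerivAt_artanh' (by linarith [hx.1]) hx.2).sub
        (((hasDerivAt_id' x).add ((hasDerivAt_pow 3 x).div_const 3)).add
          ((hasDerivAt_pow 5 x).div_const 5))).congr_deriv (by norm_num)
    refine monotoneOn_of_hasDerivWithinAt_nonneg (convex_Ico 0 1)
      (fun x hx => (hd x hx).continuousAt.continuousWithinAt)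
      (fun x hx => (hd x (interior_subset hx)).hasDerivWithinAt) fun x hx => ?_
    have hx := interior_subset hx
    have : 0 < 1 - x ^ 2 := by nlinarith [hx.1, hx.2]
    rw [sub_nonneg, le_div_iff₀ this]
    nlinarith [pow_nonneg hx.1 6]
  have := hm ⟨le_rfl, zero_lt_one⟩ ⟨h0, h1⟩ h0
  simp at this
  linarith

lemma artanh_upper {t : ℝ} (h0 : 0 ≤ t) (h1 : t ^ 2 ≤ 747 / 1000) :
    artanh t ≤ t + t ^ 3 / 3 + t ^ 5 / 5 + 57 / 100 * t ^ 7 := by
  have hlt : ∀ x ∈ Icc 0 t, x < 1 ∧ x ^ 2 ≤ 747 / 1000 := fun x hx => by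
    have : x ^ 2 ≤ 747 / 1000 := (pow_le_pow_left₀ hx.1 hx.2 2).trans h1
    exact ⟨by nlinarith [hx.1], this⟩
  have hm : MonotoneOn (fun x => x + x ^ 3 / 3 + x ^ 5 / 5 + 57 / 100 * x ^ 7 - artanh x)
      (Icc 0 t) := by
    have hd : ∀ x ∈ Icc 0 t, HasDerivAt
        (fun x => x + x ^ 3 / 3 + x ^ 5 / 5 + 57 / 100 * x ^ 7 - artanh x)
        (1 + x ^ 2 + x ^ 4 + 399 / 100 * x ^ 6 - 1 / (1 - x ^ 2)) x := fun x hx =>
      (((((hasDerivAt_id' x).add ((hasDerivAt_pow 3 x).div_const 3)).add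
          ((hasDerivAt_pow 5 x).div_const 5)).add ((hasDerivAt_pow 7 x).const_mul (57 / 100))).sub
        (hasDerivAt_artanh' (by linarith [hx.1]) (hlt x hx).1)).congr_deriv (by norm_num; ring)
    refine monotoneOn_of_hasDerivWithinAt_nonneg (convex_Icc 0 t)
      (fun x hx => (hd x hx).continuousAt.continuousWithinAt)
      (fun x hx => (hd x (interior_subset hx)).hasDerivWithinAt) fun x hx => ?_
    obtain ⟨-, hx2⟩ := hlt x (interior_subset hx)
    have : 0 < 1 - x ^ 2 := by linarith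
    rw [sub_nonneg, div_le_iff₀ this]
    nlinarith [mul_nonneg (pow_nonneg (sq_nonneg x) 3)
      (show (0 : ℝ) ≤ 399 / 100 * (1 - x ^ 2) - 1 by linarith)]
  have := hm (left_mem_Icc.2 h0) (right_mem_Icc.2 h0) h0
  simp at this
  linarith

lemma exists_envelope {t : ℝ} (h0 : 0 < t) (h1 : t ^ 2 ≤ 747 / 1000) :
    ∃ s ∈ Icc (0 : ℝ) 1, artanh t / t = artanhEnvelope (t ^ 2) s := by
  have ht1 : t < 1 := by nlinarith
  have hl := artanh_lower h0.le ht1
  have hu := artanh_upper h0.le h1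
  set v := t ^ 2 with hv
  have hw : 0 < v ^ 2 / 5 + 57 / 100 * v ^ 3 := by positivity
  have hl' : 1 + v / 3 + v ^ 2 / 5 ≤ artanh t / t := by
    rw [le_div_iff₀ h0]; refine le_trans (le_of_eq ?_) hl; rw [hv]; ring
  have hu' : artanh t / t ≤ 1 + v / 3 + v ^ 2 / 5 + 57 / 100 * v ^ 3 := by
    rw [div_le_iff₀ h0]; refine hu.trans (le_of_eq ?_); rw [hv]; ring
  refine ⟨(artanh t / t - (1 + v / 3)) / (v ^ 2 / 5 + 57 / 100 * v ^ 3), ⟨?_, ?_⟩, ?_⟩
  · exact div_nonneg (by nlinarith [sq_nonneg v]) hw.le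
  · rw [div_le_one hw]; linarith
  · rw [artanhEnvelope, div_mul_cancel₀ _ hw.ne']; ring

lemma tanh_sq_le_of_le {z : ℝ} (h0 : 0 ≤ z) (h1 : z ≤ 131 / 100) :
    tanh z ^ 2 ≤ 747 / 1000 ∧ exp (2 * z) ≤ 13.737 := by
  have hE : exp (2 * z) ≤ 13.737 := by
    refine (exp_le_exp.2 (show 2 * z ≤ 1 + 1 + 31 / 50 by linarith)).trans ?_
    rw [exp_add, exp_add]
    have hu : exp (31 / 50 : ℝ) ≤ 1.85893 := by
      refine (exp_bound' (by norm_num) (by norm_num) (n := 9) (by norm_num)).trans ?_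
      norm_num [Finset.sum_range_succ, Nat.factorial]
    calc exp 1 * exp 1 * exp (31 / 50) ≤ 2.7182818286 * 2.7182818286 * 1.85893 := by
          have := exp_one_lt_d9
          gcongr
      _ ≤ _ := by norm_num
  refine ⟨?_, hE⟩
  have ht : tanh z ≤ 12.737 / 14.737 := by
    rw [tanh_eq_sinh_div_cosh, sinh_eq, cosh_eq, div_le_div_iff₀ (by positivity) (by norm_num)]
    have he : exp (-z) * exp (2 * z) = exp z := by rw [← exp_add]; congr 1; ring
    nlinarith [mul_le_mul_of_nonneg_left hE (exp_pos (-z)).le, exp_pos z, exp_pos (-z)]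
  refine (pow_le_pow_left₀ (tanh_nonneg' h0) ht 2).trans ?_
  norm_num

lemma hasDerivAt_shapeT {t : ℝ} (h0 : 0 < t) (h1 : t < 1) :
    HasDerivAt shapeT (shapeNum (t ^ 2) (artanh t / t)
      / (t * (1 - t ^ 2) * t ^ 2 * (artanh t / t) ^ 2
        * ((1 - t ^ 2) * (artanh t / t) + 1) ^ 3)) t := by
  have hA : 0 < artanh t := artanh_pos ⟨h0, h1⟩
  have hc : 0 < 1 - t ^ 2 := by nlinarith
  have hq : 0 < (1 - t ^ 2) * (artanh t / t) + 1 := by positivity
  have ha := (hasDerivAt_artanh' (by linarith) h1).div (hasDerivAt_id' t) h0.ne'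
  have hv := hasDerivAt_pow 2 t
  have hden : t ^ 2 * (artanh t / t) * ((1 - t ^ 2) * (artanh t / t) + 1) ^ 2 ≠ 0 := by
    positivity
  have h := ((ha.mul (hv.const_add 1)).sub_const 1).div
    ((hv.mul ha).mul ((((hv.const_sub 1).mul ha).add_const 1).pow 2)) hden
  refine HasDerivAt.congr_deriv (h : HasDerivAt shapeT _ t) ?_
  simp only [Pi.div_apply, Pi.mul_apply, Pi.pow_apply, shapeNum]
  field_simp [h0.ne', hc.ne', hq.ne']
  ring_nf
  field_simp
  ring

lemma monotoneOn_shapeT :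
    MonotoneOn shapeT {t | 0 < t ∧ t ^ 2 ≤ 747 / 1000} := by
  intro x hx y hy hxy
  have hy1 : y < 1 := by nlinarith [hy.2]
  have hm : MonotoneOn shapeT (Icc x y) := by
    refine monotoneOn_of_hasDerivWithinAt_nonneg (convex_Icc x y)
      (fun t ht => (hasDerivAt_shapeT (hx.1.trans_le ht.1)
        (ht.2.trans_lt hy1)).continuousAt.continuousWithinAt)
      (fun t ht => (hasDerivAt_shapeT (hx.1.trans_le (interior_subset ht).1)
        ((interior_subset ht).2.trans_lt hy1)).hasDerivWithinAt) fun t ht => ?_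
    have ht := interior_subset ht
    have t0 : 0 < t := hx.1.trans_le ht.1
    have t1 : t < 1 := ht.2.trans_lt hy1
    have tv : t ^ 2 ≤ 747 / 1000 := (pow_le_pow_left₀ t0.le ht.2 2).trans hy.2
    obtain ⟨s, hs, he⟩ := exists_envelope t0 tv
    have hA : 0 < artanh t := artanh_pos ⟨t0, t1⟩
    have hc : 0 < 1 - t ^ 2 := by linarith
    refine div_nonneg ?_ (by positivity)
    have := shapeNum_nonneg (w := t ^ 2 / (747 / 1000)) (by positivity)
      ((div_le_one (by norm_num)).2 tv) hs.1 hs.2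
    rwa [show (747 / 1000 : ℝ) * (t ^ 2 / (747 / 1000)) = t ^ 2 by ring, ← he] at this
  exact hm (left_mem_Icc.2 hxy) (right_mem_Icc.2 hxy) hxy

lemma sextic_le_phiFn {x : ℝ} (hx : x ∈ Icc (0 : ℝ) 1) :
    x ^ 2 / 2 + x ^ 4 / 12 + x ^ 6 / 30 ≤ phiFn x := by
  have hm : MonotoneOn (fun t => phiFn t - (t ^ 2 / 2 + t ^ 4 / 12 + t ^ 6 / 30)) (Icc 0 1) := by
    have hc : Continuous fun t => phiFn t - (t ^ 2 / 2 + t ^ 4 / 12 + t ^ 6 / 30) := by
      unfold phiFn; exact (continuous_const.sub continuous_ent).sub (by fun_prop)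
    refine monotoneOn_of_hasDerivWithinAt_nonneg
      (f' := fun t => artanh t - (t + t ^ 3 / 3 + t ^ 5 / 5))
      (convex_Icc 0 1) hc.continuousOn (fun t ht => ?_) fun t ht => ?_
    · rw [interior_Icc] at ht
      exact (((hasDerivAt_phiFn (by linarith [ht.1]) ht.2).sub
        ((((hasDerivAt_pow 2 t).div_const 2).add ((hasDerivAt_pow 4 t).div_const 12)).add
          ((hasDerivAt_pow 6 t).div_const 30))).congr_deriv (by norm_num; ring)).hasDerivWithinAt
    · rw [interior_Icc] at ht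
      exact sub_nonneg.2 (artanh_lower ht.1.le ht.2)
  have := hm (left_mem_Icc.2 zero_le_one) hx hx.1
  simp only [phiFn, ent_zero] at this ⊢
  linarith

lemma shapeT_le {t : ℝ} (h0 : 0 < t) (h1 : t ^ 2 ≤ 747 / 1000) :
    shapeT t ≤ 1 / 3 + phiFn t := by
  have t1 : t < 1 := by nlinarith
  obtain ⟨s, hs, he⟩ := exists_envelope h0 h1
  have hA : 0 < artanh t := artanh_pos ⟨h0, t1⟩
  have hc : 0 < 1 - t ^ 2 := by linarith
  refine le_trans ?_ (add_le_add le_rfl (sextic_le_phiFn ⟨h0.le, t1.le⟩))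
  rw [shapeT, shapeFn, div_le_iff₀ (by positivity)]
  have := shapeGap_nonneg (w := t ^ 2 / (747 / 1000)) (by positivity)
    ((div_le_one (by norm_num)).2 h1) hs.1 hs.2
  rw [show (747 / 1000 : ℝ) * (t ^ 2 / (747 / 1000)) = t ^ 2 by ring, ← he, shapeGap] at this
  linarith

/-! ### Consequences for `rate` -/

lemma zOf_le_of_quarter_le {e : ℝ} (h : 1 / 4 ≤ e) : zOf e ≤ 131 / 100 := by
  have he : 0 < e := by linarith
  refine ((zOf_lt_iff (by norm_num) he).2 ?_).le
  refine lt_of_lt_of_le ?_ h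
  have hE : (13.73 : ℝ) ≤ exp (2 * (131 / 100)) := by
    rw [show (2 : ℝ) * (131 / 100) = 1 + 1 + 31 / 50 by norm_num, exp_add, exp_add]
    have hl : (1.8589 : ℝ) ≤ exp (31 / 50) := by
      refine le_trans ?_ (sum_le_exp_of_nonneg (by norm_num) 8)
      norm_num [Finset.sum_range_succ, Nat.factorial]
    calc (13.73 : ℝ) ≤ 2.7182818283 * 2.7182818283 * 1.8589 := by norm_num
      _ ≤ _ := by have := exp_one_gt_d9; gcongr
  set z : ℝ := 131 / 100 with hz
  set E := exp (2 * z) with hEd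
  have hEp : 0 < E := exp_pos _
  have hs : tanh z = (E - 1) / (E + 1) := by
    rw [hEd, tanh_eq_sinh_div_cosh, sinh_eq, cosh_eq, two_mul z, exp_add, exp_neg]; field_simp
  have hl2 : log (2 * cosh z) = z + log (1 + 1 / E) := by
    rw [show 2 * cosh z = exp z * (1 + 1 / E) by
      rw [hEd, cosh_eq, two_mul z, exp_add, exp_neg]; field_simp,
      log_mul (exp_pos z).ne' (by positivity), log_exp]
  have hlog : log (1 + 1 / E) ≤ 0.0704 := by
    rw [log_le_iff_le_exp (by positivity)]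
    refine le_trans ?_ (sum_le_exp_of_nonneg (by norm_num) 4)
    have : 1 / E ≤ 1 / 13.73 := one_div_le_one_div_of_le (by norm_num) hE
    norm_num [Finset.sum_range_succ, Nat.factorial] at this ⊢
    linarith
  rw [ent_tanh, hl2, hs, hz]
  have h2 : (2 * (131 / 100) : ℝ) / (E + 1) ≤ 2 * (131 / 100) / (13.73 + 1) :=
    div_le_div_of_nonneg_left (by norm_num) (by norm_num) (by linarith)
  have h3 : (131 / 100 : ℝ) - 131 / 100 * ((E - 1) / (E + 1)) = 2 * (131 / 100) / (E + 1) := by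
    field_simp; ring
  norm_num at h2 h3 hlog ⊢
  linarith

lemma hasDerivAt_inv_rate {e : ℝ} (h0 : 0 < e) (h1 : e < log 2) :
    HasDerivAt (fun x => (rate x)⁻¹) (shapeT (tanh (zOf e))) e := by
  have hr : rate e ≠ 0 := by linarith [two_le_rate e]
  refine ((hasDerivAt_rate h0 h1).inv hr).congr_deriv ?_
  rw [← shape_eq (zOf_pos h0 h1), neg_neg, rate, if_neg (zOf_pos h0 h1).ne']

lemma tanh_zOf_mem {e : ℝ} (h : 1 / 4 ≤ e) (h1 : e < log 2) :
    0 < tanh (zOf e) ∧ tanh (zOf e) ^ 2 ≤ 747 / 1000 :=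
  ⟨by simpa using strictMono_tanh' (zOf_pos (by linarith) h1),
    (tanh_sq_le_of_le (zOf_nonneg e) (zOf_le_of_quarter_le h)).1⟩

lemma continuousOn_inv_rate : ContinuousOn (fun x => (rate x)⁻¹) (Icc (1 / 4) (log 2)) :=
  (continuousOn_rate.mono fun x hx => lt_of_lt_of_le (by norm_num) hx.1).inv₀
    fun x _ => by linarith [two_le_rate x]

/-- Secant bound for `1 / rate`. -/
lemma inv_rate_secant {e e' : ℝ} (h : 1 / 4 ≤ e) (hee : e ≤ e') (h' : e' ≤ log 2) :
    (rate e')⁻¹ - (rate e)⁻¹ ≤ (e' - e) * (1 / 3 + (log 2 - (e + e') / 2)) := by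
  have hm : AntitoneOn (fun x => (rate x)⁻¹ - ((1 / 3 + log 2) * x - x ^ 2 / 2))
      (Icc (1 / 4) (log 2)) := by
    refine antitoneOn_of_hasDerivWithinAt_nonpos
      (f' := fun x => shapeT (tanh (zOf x)) - (1 / 3 + log 2 - x)) (convex_Icc _ _)
      (continuousOn_inv_rate.sub (by fun_prop)) (fun x hx => ?_) fun x hx => ?_
    all_goals rw [interior_Icc] at hx
    · exact (((hasDerivAt_inv_rate (by linarith [hx.1]) hx.2).sub
        (((hasDerivAt_id' x).const_mul (1 / 3 + log 2)).sub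
          ((hasDerivAt_pow 2 x).div_const 2))).congr_deriv (by norm_num)).hasDerivWithinAt
    · obtain ⟨ht0, ht1⟩ := tanh_zOf_mem hx.1.le hx.2
      have hs := shapeT_le ht0 ht1
      rw [phiFn, ent_tanh_zOf ⟨by linarith [hx.1], hx.2.le⟩] at hs
      linarith
  have := hm ⟨h, hee.trans h'⟩ ⟨h.trans hee, h'⟩ hee
  simp only at this
  linarith

lemma rate_quarter_le : rate (1 / 4) ≤ 3.608 := by
  have hz : 0 < zOf (1 / 4) := zOf_pos (by norm_num) (by linarith [log_two_gt_d9])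
  have hz1 := zOf_le_of_quarter_le (le_refl (1 / 4 : ℝ))
  rw [rate, if_neg hz.ne']
  have hm := monotoneOn_dslope_sinh (show (0 : ℝ) < 2 * zOf (1 / 4) by linarith)
    (show (0 : ℝ) < 2 * (131 / 100) by norm_num) (by linarith)
  refine le_trans (add_le_add le_rfl hm) ?_
  have hE := (tanh_sq_le_of_le (z := 131 / 100) (by norm_num) le_rfl).2
  have hE' : (13.737 : ℝ)⁻¹ ≤ (exp (2 * (131 / 100)))⁻¹ :=
    inv_anti₀ (exp_pos _) hE
  simp only [sinh_eq, exp_neg]
  norm_num at hE hE' ⊢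
  linarith

/-- Concavity of `1 / rate` gives a hyperbolic majorant of `rate`. -/
lemma rate_le_hyperbola {e : ℝ} (h : 1 / 4 ≤ e) (h' : e ≤ log 2) :
    rate e * (1 - 503 / 500 * (log 2 - e)) ≤ 2 := by
  have hc : ConcaveOn ℝ (Icc (1 / 4) (log 2)) fun x => (rate x)⁻¹ := by
    refine AntitoneOn.concaveOn_of_deriv (convex_Icc _ _) continuousOn_inv_rate ?_ ?_
    all_goals rw [interior_Icc]
    · exact fun x hx => (hasDerivAt_inv_rate (by linarith [hx.1])
        hx.2).differentiableAt.differentiableWithinAt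
    · intro x hx y hy hxy
      rw [(hasDerivAt_inv_rate (by linarith [hx.1]) hx.2).deriv,
        (hasDerivAt_inv_rate (by linarith [hy.1]) hy.2).deriv]
      exact monotoneOn_shapeT (tanh_zOf_mem hy.1.le hy.2) (tanh_zOf_mem hx.1.le hx.2)
        (strictMono_tanh'.monotone
          (antitoneOn_zOf (show (0 : ℝ) < x by linarith [hx.1])
            (show (0 : ℝ) < y by linarith [hy.1]) hxy))
  have hL := log_two_gt_d9
  have hL' := log_two_lt_d9
  set X := log 2 - 1 / 4 with hX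
  have hXp : 0 < X := by linarith
  set θ := (log 2 - e) / X with hθ
  have hθ0 : 0 ≤ θ := div_nonneg (by linarith) hXp.le
  have hθ1 : θ ≤ 1 := by rw [hθ, div_le_one hXp]; linarith
  have he : θ * (1 / 4) + (1 - θ) * log 2 = e := by
    rw [hθ]; field_simp; rw [hX]; ring
  have h1 := hc.2 (left_mem_Icc.2 (by linarith : (1 / 4 : ℝ) ≤ log 2))
    (right_mem_Icc.2 (by linarith : (1 / 4 : ℝ) ≤ log 2)) hθ0 (sub_nonneg.2 hθ1) (by ring)
  simp only [smul_eq_mul, he] at h1
  rw [show rate (log 2) = 2 from if_pos (zOf_of_log_two_le le_rfl)] at h1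
  have hq : (3.608 : ℝ)⁻¹ ≤ (rate (1 / 4))⁻¹ :=
    inv_anti₀ (by linarith [two_le_rate (1 / 4)]) rate_quarter_le
  have hR := two_le_rate e
  have h2 : (1 - 503 / 500 * (log 2 - e)) / 2 ≤ (rate e)⁻¹ := by
    refine le_trans ?_ h1
    have hd : log 2 - e = θ * X := by rw [hθ]; field_simp
    rw [hd]
    have : θ * ((1 - 503 / 500 * X) / 2) ≤ θ * (rate (1 / 4))⁻¹ :=
      mul_le_mul_of_nonneg_left (le_trans (by norm_num at *; linarith) hq) hθ0
    linarith
  calc rate e * (1 - 503 / 500 * (log 2 - e))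
      = 2 * (rate e * ((1 - 503 / 500 * (log 2 - e)) / 2)) := by ring
    _ ≤ 2 * (rate e * (rate e)⁻¹) := by gcongr
    _ = 2 := by rw [mul_inv_cancel₀ (by linarith)]; ring

end Vale.Agent.P322
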