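import Vale.Agent.P322.Scalar.OneStep
import Vale.Agent.P322.Scalar.PathRate

/-!
# Courtade–Kumar: the two conditions of the path lemma

`path_cond_tilt` and `path_cond_sym` say that `(rate e - rate e')` times the trapezoidal weight is
at most `rate e'` times the convexity surplus, for `e = log 2 - D ≥ 1/4` and `e' = e + gapEnt`.
These are the signs of the derivatives along the tilted and the symmetric path.
-/

namespace Vale.Agent.P322

open Real Set

/-- `phiFn` in terms of `negMulLog`. -/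
lemma phiFn_eq_negMulLog (x : ℝ) :
    phiFn x = -(negMulLog (1 + x) + negMulLog (1 - x)) / 2 := by
  rw [phiFn, ent, binEntropy_eq_negMulLog_add_negMulLog_one_sub,
    show 1 - (1 + x) / 2 = (1 - x) * (1 / 2) by ring, show (1 + x) / 2 = (1 + x) * (1 / 2) by ring,
    negMulLog_mul, negMulLog_mul]
  simp only [negMulLog, one_div, log_inv]
  ring

/-- The gap splits over the two halves. -/
lemma gapEnt_split {m d : ℝ} (h1 : 1 + m ≠ 0) (h2 : 1 - m ≠ 0) :
    gapEnt (m + d) (m - d)
      = ((1 + m) * phiFn (d / (1 + m)) + (1 - m) * phiFn (d / (1 - m))) / 2 := by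
  rw [gapEnt, show (m + d + (m - d)) / 2 = m by ring, phiFn_eq_negMulLog, phiFn_eq_negMulLog]
  simp only [ent, binEntropy_eq_negMulLog_add_negMulLog_one_sub]
  rw [show (1 + (m + d)) / 2 = (1 + m) / 2 * (1 + d / (1 + m)) by field_simp; ring,
    show (1 + (m - d)) / 2 = (1 + m) / 2 * (1 - d / (1 + m)) by field_simp; ring,
    show 1 - (1 + m) / 2 * (1 + d / (1 + m)) = (1 - m) / 2 * (1 - d / (1 - m)) by field_simp; ring,
    show 1 - (1 + m) / 2 * (1 - d / (1 + m)) = (1 - m) / 2 * (1 + d / (1 - m)) by field_simp; ring,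
    show 1 - (1 + m) / 2 = (1 - m) / 2 by ring,
    negMulLog_mul, negMulLog_mul, negMulLog_mul, negMulLog_mul]
  field_simp
  ring

/-- The series bound `phiFn x ≤ x²/2 + 0.1932 x⁴`. -/
lemma phiFn_le_quartic {x : ℝ} (hx : x ∈ Icc (0 : ℝ) 1) :
    phiFn x ≤ x ^ 2 / 2 + 1932 / 10000 * x ^ 4 := by
  set g : ℝ → ℝ := fun t => t ^ 2 / 2 + 1932 / 10000 * t ^ 4 - phiFn t with hg
  set g1 : ℝ → ℝ := fun t => t + 7728 / 10000 * t ^ 3 - artanh t with hg1
  suffices main : ∀ y ∈ Icc (0 : ℝ) 1, 0 ≤ g y by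
    have := main x hx
    simp only [hg] at this
    linarith
  have hd1 : ∀ t ∈ Ico (0 : ℝ) 1, HasDerivAt g (g1 t) t := fun t ht =>
    ((((hasDerivAt_pow 2 t).div_const 2).add ((hasDerivAt_pow 4 t).const_mul (1932 / 10000))).sub
      (hasDerivAt_phiFn (by linarith [ht.1]) ht.2)).congr_deriv (by simp only [hg1]; norm_num; ring)
  have hd2 : ∀ t ∈ Ico (0 : ℝ) 1,
      HasDerivAt g1 (1 + 23184 / 10000 * t ^ 2 - 1 / (1 - t ^ 2)) t := fun t ht =>
    (((hasDerivAt_id' t).add ((hasDerivAt_pow 3 t).const_mul (7728 / 10000))).sub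
      (hasDerivAt_artanh' (by linarith [ht.1]) ht.2)).congr_deriv (by norm_num; ring)
  set s : ℝ := 13184 / 23184 with hs
  set m := √s with hm
  have hm0 : 0 < m := sqrt_pos.2 (by norm_num [hs])
  have hm1 : m < 1 := by rw [hm, sqrt_lt' zero_lt_one]; norm_num [hs]
  have hms : m ^ 2 = s := sq_sqrt (by norm_num [hs])
  have e2 : ∀ t ∈ Ico (0 : ℝ) 1, 1 + 23184 / 10000 * t ^ 2 - 1 / (1 - t ^ 2)
      = 23184 / 10000 * (t ^ 2 * (s - t ^ 2)) / (1 - t ^ 2) := fun t ht => by
    have : 1 - t ^ 2 ≠ 0 := by nlinarith [ht.1, ht.2]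
    rw [hs]; field_simp; ring
  have hgc : Continuous g :=
    (by fun_prop : Continuous fun t : ℝ => t ^ 2 / 2 + 1932 / 10000 * t ^ 4).sub
      (continuous_const.sub continuous_ent)
  have g0 : g 0 = 0 := by simp [hg, phiFn, ent_zero]
  have g10 : g1 0 = 0 := by simp [hg1]
  have hmono1 : ∀ t ∈ Icc 0 m, 0 ≤ g1 t := by
    have hmon : MonotoneOn g1 (Icc 0 m) := by
      refine monotoneOn_of_hasDerivWithinAt_nonneg (convex_Icc 0 m)
        (fun t ht => (hd2 t ⟨ht.1, ht.2.trans_lt hm1⟩).continuousAt.continuousWithinAt)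
        (fun t ht => (hd2 t ⟨(interior_subset ht).1,
          (interior_subset ht).2.trans_lt hm1⟩).hasDerivWithinAt) fun t ht => ?_
      have ht := interior_subset ht
      have htt : t ^ 2 ≤ s := hms ▸ pow_le_pow_left₀ ht.1 ht.2 2
      rw [e2 t ⟨ht.1, ht.2.trans_lt hm1⟩]
      have : t ^ 2 < 1 := htt.trans_lt (by norm_num [hs])
      exact div_nonneg (mul_nonneg (by norm_num) (mul_nonneg (sq_nonneg t) (by linarith)))
        (by linarith)
    intro t ht
    have := hmon (left_mem_Icc.2 hm0.le) ht ht.1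
    rwa [g10] at this
  have hlo : ∀ t ∈ Icc 0 m, 0 ≤ g t := by
    have hmon : MonotoneOn g (Icc 0 m) :=
      monotoneOn_of_hasDerivWithinAt_nonneg (convex_Icc 0 m) hgc.continuousOn
        (fun t ht => (hd1 t ⟨(interior_subset ht).1,
          (interior_subset ht).2.trans_lt hm1⟩).hasDerivWithinAt)
        fun t ht => hmono1 t (interior_subset ht)
    intro t ht
    have := hmon (left_mem_Icc.2 hm0.le) ht ht.1
    rwa [g0] at this
  have hconc : ConcaveOn ℝ (Icc m 1) g := by
    refine concaveOn_of_hasDerivWithinAt2_nonpos (convex_Icc m 1) hgc.continuousOn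
      (f' := g1) (f'' := fun t => 1 + 23184 / 10000 * t ^ 2 - 1 / (1 - t ^ 2))
      (fun t ht => ?_) (fun t ht => ?_) fun t ht => ?_
    all_goals rw [interior_Icc] at ht
    · exact (hd1 t ⟨hm0.le.trans ht.1.le, ht.2⟩).hasDerivWithinAt
    · exact (hd2 t ⟨hm0.le.trans ht.1.le, ht.2⟩).hasDerivWithinAt
    · have h0 : 0 ≤ t := hm0.le.trans ht.1.le
      have htt : s ≤ t ^ 2 := hms ▸ pow_le_pow_left₀ hm0.le ht.1.le 2
      rw [e2 t ⟨h0, ht.2⟩]
      refine div_nonpos_of_nonpos_of_nonneg ?_ (by nlinarith [ht.2])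
      exact mul_nonpos_of_nonneg_of_nonpos (by norm_num)
        (mul_nonpos_of_nonneg_of_nonpos (sq_nonneg t) (by linarith))
  intro y hy
  rcases le_total y m with h | h
  · exact hlo y ⟨hy.1, h⟩
  · have h1 : 0 ≤ g 1 := by
      simp only [hg, phiFn, ent_one]
      norm_num
      linarith [log_two_lt_d9]
    exact (le_min (hlo m (right_mem_Icc.2 hm0.le)) h1).trans
      (hconc.min_le_of_mem_Icc (left_mem_Icc.2 hm1.le) (right_mem_Icc.2 hm1.le) ⟨h, hy.2⟩)

lemma log_one_add_le_pade {u : ℝ} (hu : 0 ≤ u) : log (1 + u) ≤ u * (6 + u) / (6 + 4 * u) := by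
  have hd : ∀ x ∈ Ici (0 : ℝ), HasDerivAt (fun x => x * (6 + x) / (6 + 4 * x) - log (1 + x))
      (4 * x ^ 3 / ((6 + 4 * x) ^ 2 * (1 + x))) x := by
    intro x hx
    have hx0 : (0 : ℝ) ≤ x := hx
    have h1 : 6 + 4 * x ≠ 0 := by positivity
    have h2 : 1 + x ≠ 0 := by positivity
    refine ((((hasDerivAt_id' x).mul ((hasDerivAt_id' x).const_add 6)).div
      (((hasDerivAt_id' x).const_mul 4).const_add 6) h1).sub
        (((hasDerivAt_id' x).const_add 1).log h2)).congr_deriv ?_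
    simp only [Pi.mul_apply]
    field_simp
    ring
  have hm : MonotoneOn (fun x => x * (6 + x) / (6 + 4 * x) - log (1 + x)) (Ici 0) :=
    monotoneOn_of_hasDerivWithinAt_nonneg (convex_Ici 0)
      (fun x hx => (hd x hx).continuousAt.continuousWithinAt)
      (fun x hx => (hd x (interior_subset hx)).hasDerivWithinAt) fun x hx => by
        have : (0 : ℝ) ≤ x := interior_subset (s := Ici (0 : ℝ)) hx
        positivity
  have := hm (mem_Ici.2 le_rfl) (mem_Ici.2 hu) hu
  simp at this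
  linarith

lemma cubic_le_neg_log_one_sub {x : ℝ} (h0 : 0 ≤ x) (h1 : x < 1) :
    x + x ^ 2 / 2 + x ^ 3 / 3 ≤ -log (1 - x) := by
  have hd : ∀ t ∈ Icc 0 x, HasDerivAt (fun t => -log (1 - t) - (t + t ^ 2 / 2 + t ^ 3 / 3))
      (t ^ 3 / (1 - t)) t := by
    intro t ht
    have h2 : 1 - t ≠ 0 := by linarith [ht.2]
    refine ((((hasDerivAt_id' t).const_sub 1).log h2).neg.sub
      (((hasDerivAt_id' t).add ((hasDerivAt_pow 2 t).div_const 2)).add
        ((hasDerivAt_pow 3 t).div_const 3))).congr_deriv ?_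
    field_simp
    norm_num
    ring
  have hm : MonotoneOn (fun t => -log (1 - t) - (t + t ^ 2 / 2 + t ^ 3 / 3)) (Icc 0 x) :=
    monotoneOn_of_hasDerivWithinAt_nonneg (convex_Icc 0 x)
      (fun t ht => (hd t ht).continuousAt.continuousWithinAt)
      (fun t ht => (hd t (interior_subset ht)).hasDerivWithinAt) fun t ht => by
        have ht := interior_subset ht
        exact div_nonneg (pow_nonneg ht.1 3) (by linarith [ht.2])
  have := hm (left_mem_Icc.2 h0) (right_mem_Icc.2 h0) h0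
  simp at this
  linarith

lemma rate_sub_le {e e' : ℝ} (h : 1 / 4 ≤ e) (hee : e ≤ e') (h' : e' ≤ log 2) :
    (rate e - rate e') * (1 - 503 / 500 * (log 2 - e))
      ≤ rate e' * (2 * ((e' - e) * (1 / 3 + (log 2 - (e + e') / 2)))) := by
  have hR := two_le_rate e
  have hR' := two_le_rate e'
  have h1 := inv_rate_secant h hee h'
  have h2 := rate_le_hyperbola h (hee.trans h')
  have hc : 0 ≤ 1 - 503 / 500 * (log 2 - e) := by linarith [log_two_lt_d9]
  calc (rate e - rate e') * (1 - 503 / 500 * (log 2 - e))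
      = rate e * (1 - 503 / 500 * (log 2 - e)) * rate e' * ((rate e')⁻¹ - (rate e)⁻¹) := by
        field_simp
    _ ≤ 2 * rate e' * ((e' - e) * (1 / 3 + (log 2 - (e + e') / 2))) := by
        refine mul_le_mul (by gcongr) h1 ?_ (by positivity)
        exact sub_nonneg.2 (inv_anti₀ (by linarith)
          (antitoneOn_rate (show (0 : ℝ) < e by linarith) (show (0 : ℝ) < e' by linarith) hee))
    _ = _ := by ring

lemma artanh_slope_mono {a b : ℝ} (h : -b ≤ a) (hab : a ≤ b) (hb : b < 1) :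
    a / (1 - a ^ 2) ^ 2 ≤ b / (1 - b ^ 2) ^ 2 := by
  have hb0 : 0 ≤ b := by linarith
  rcases le_total a 0 with ha | ha
  · exact (div_nonpos_of_nonpos_of_nonneg ha (sq_nonneg _)).trans (by positivity)
  · have hb2 : 0 < 1 - b ^ 2 := by nlinarith
    exact div_le_div₀ hb0 hab (by positivity)
      (pow_le_pow_left₀ hb2.le (by nlinarith) 2)

/-- Midpoint deficit at most trapezoidal surplus: `phiFn'''' ≥ 0`. -/
lemma two_mul_gapEnt_le {m d : ℝ} (hm : 0 ≤ m) (hd : 0 ≤ d) (hmd : m + d < 1) :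
    2 * gapEnt (m + d) (m - d) ≤ d / 2 * (artanh (m + d) - artanh (m - d)) := by
  set G : ℝ → ℝ := fun t =>
    t / 2 * (artanh (m + t) - artanh (m - t)) - 2 * gapEnt (m + t) (m - t) with hG
  set G1 : ℝ → ℝ := fun t => t / 2 * (1 / (1 - (m + t) ^ 2) + 1 / (1 - (m - t) ^ 2))
    - (artanh (m + t) - artanh (m - t)) / 2 with hG1
  have hp : ∀ t ∈ Icc 0 d, (-1 < m + t ∧ m + t < 1) ∧ (-1 < m - t ∧ m - t < 1) := fun t ht =>
    ⟨⟨by linarith [ht.1], by linarith [ht.2]⟩, ⟨by linarith [ht.2], by linarith [ht.1, ht.2]⟩⟩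
  have hd1 : ∀ t ∈ Icc 0 d, HasDerivAt G (G1 t) t := by
    intro t ht
    obtain ⟨⟨a1, a2⟩, b1, b2⟩ := hp t ht
    have ha := (hasDerivAt_id' t).const_add m
    have hb := (hasDerivAt_id' t).const_sub m
    have hgap : HasDerivAt (fun t => gapEnt (m + t) (m - t))
        (-((-artanh (m + t) * 1 + -artanh (m - t) * -1) / 2)) t := by
      have he : (fun t => gapEnt (m + t) (m - t))
          = fun t => ent m - (ent (m + t) + ent (m - t)) / 2 := by
        funext t; rw [gapEnt]; ring_nf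
      rw [he]
      exact ((((Skel.hasDerivAt_hbin a1 a2).comp t ha).add
        ((Skel.hasDerivAt_hbin b1 b2).comp t hb)).div_const 2).const_sub (ent m)
    refine ((((hasDerivAt_id' t).div_const 2).mul (((hasDerivAt_artanh' a1 a2).comp t ha).sub
      ((hasDerivAt_artanh' b1 b2).comp t hb))).sub (hgap.const_mul 2)).congr_deriv ?_
    simp only [hG1, Pi.sub_apply, Function.comp_apply]
    ring
  have hd2 : ∀ t ∈ Icc 0 d, HasDerivAt G1
      (t * ((m + t) / (1 - (m + t) ^ 2) ^ 2 - (m - t) / (1 - (m - t) ^ 2) ^ 2)) t := by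
    intro t ht
    obtain ⟨⟨a1, a2⟩, b1, b2⟩ := hp t ht
    have ha := (hasDerivAt_id' t).const_add m
    have hb := (hasDerivAt_id' t).const_sub m
    have na : (1 : ℝ) - (m + t) ^ 2 ≠ 0 := by nlinarith
    have nb : (1 : ℝ) - (m - t) ^ 2 ≠ 0 := by nlinarith
    refine ((((hasDerivAt_id' t).div_const 2).mul
      ((((ha.pow 2).const_sub 1).inv na).add (((hb.pow 2).const_sub 1).inv nb))).sub
      ((((hasDerivAt_artanh' a1 a2).comp t ha).sub
        ((hasDerivAt_artanh' b1 b2).comp t hb)).div_const 2)).congr_deriv ?_ |>.congr_of_eventuallyEq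
        (Filter.Eventually.of_forall fun x => by simp [hG1, one_div])
    simp only [Pi.add_apply, Pi.inv_apply, Pi.pow_apply]
    field_simp
    norm_num
    ring
  have hm1 : ∀ t ∈ Icc 0 d, 0 ≤ G1 t := by
    have hmon : MonotoneOn G1 (Icc 0 d) :=
      monotoneOn_of_hasDerivWithinAt_nonneg (convex_Icc 0 d)
        (fun t ht => (hd2 t ht).continuousAt.continuousWithinAt)
        (fun t ht => (hd2 t (interior_subset ht)).hasDerivWithinAt) fun t ht => by
          have ht := interior_subset ht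
          exact mul_nonneg ht.1 (sub_nonneg.2 (artanh_slope_mono (by linarith) (by linarith [ht.1])
            (hp t ht).1.2))
    intro t ht
    have := hmon (left_mem_Icc.2 hd) ht ht.1
    simp [hG1] at this ⊢
    linarith
  have hmon : MonotoneOn G (Icc 0 d) :=
    monotoneOn_of_hasDerivWithinAt_nonneg (convex_Icc 0 d)
      (fun t ht => (hd1 t ht).continuousAt.continuousWithinAt)
      (fun t ht => (hd1 t (interior_subset ht)).hasDerivWithinAt)
      fun t ht => hm1 t (interior_subset ht)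
  have := hmon (left_mem_Icc.2 hd) (right_mem_Icc.2 hd) hd
  simp [hG, gapEnt] at this
  simp [gapEnt]
  linarith

/-- The condition along the symmetric path. -/
theorem path_cond_sym {m d D : ℝ} (hm : 0 ≤ m) (hd : 0 ≤ d) (hmd : m + d < 1)
    (hD0 : gapEnt (m + d) (m - d) ≤ D) (hD : D ≤ log 2 - 1 / 4) :
    (rate (log 2 - D) - rate (log 2 - (D - gapEnt (m + d) (m - d))))
        * (ent m - (D - gapEnt (m + d) (m - d) / 2))
      ≤ rate (log 2 - (D - gapEnt (m + d) (m - d)))
        * (d / 2 * (artanh (m + d) - artanh (m - d)) - gapEnt (m + d) (m - d)) := by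
  set g := gapEnt (m + d) (m - d) with hg
  have hg0 : 0 ≤ g := gapEnt_nonneg ⟨by linarith, hmd.le⟩ ⟨by linarith, by linarith⟩
  have h0 := rate_sub_le (e := log 2 - D) (e' := log 2 - (D - g)) (by linarith) (by linarith)
    (by linarith)
  have hJ := two_mul_gapEnt_le hm hd hmd
  set R := rate (log 2 - D)
  set R' := rate (log 2 - (D - g))
  have hRR : 0 ≤ R - R' := sub_nonneg.2 (antitoneOn_rate
    (show (0 : ℝ) < log 2 - D by linarith) (show (0 : ℝ) < log 2 - (D - g) by linarith)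
    (by linarith))
  have hR' : 0 ≤ R' := (zero_le_two.trans (two_le_rate _))
  have hw : ent m - (D - g / 2) ≤ log 2 - (D - g / 2) := by linarith [ent_le_log_two m]
  refine (mul_le_mul_of_nonneg_left hw hRR).trans (le_trans ?_
    (mul_le_mul_of_nonneg_left (show g ≤ _ by linarith) hR'))
  have hL := log_two_lt_d9
  have hL2 := log_two_gt_d9
  have hc : 0 < 1 - 503 / 500 * (log 2 - (log 2 - D)) := by linarith
  have hM : 0 ≤ log 2 - (D - g / 2) := by linarith
  refine le_of_mul_le_mul_right ?_ hc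
  calc (R - R') * (log 2 - (D - g / 2)) * (1 - 503 / 500 * (log 2 - (log 2 - D)))
      ≤ R' * (2 * ((log 2 - (D - g) - (log 2 - D))
          * (1 / 3 + (log 2 - (log 2 - D + (log 2 - (D - g))) / 2))))
          * (log 2 - (D - g / 2)) := by
        rw [mul_right_comm]; exact mul_le_mul_of_nonneg_right h0 hM
    _ = R' * g * (2 * ((1 / 3 + (D - g / 2)) * (log 2 - (D - g / 2)))) := by ring
    _ ≤ R' * g * (1 - 503 / 500 * (log 2 - (log 2 - D))) := by
        refine mul_le_mul_of_nonneg_left ?_ (mul_nonneg hR' hg0)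
        nlinarith [sq_nonneg (D - g / 2 - (log 2 - 1 / 3) / 2)]
    _ = _ := by ring

/-- The polynomial core of the tilted condition. -/
lemma tilt_key {u t M g l J x : ℝ} (hu0 : 0 < u) (hu1 : u ≤ 1) (ht0 : 0 ≤ t) (ht1 : t ≤ 1)
    (hlo : u * t / 4 ≤ M) (hhi : M ≤ 44315 / 100000 - u * t / 4)
    (hg : g ≤ u * t * tiltK u t) (hMl : M ≤ l) (hl : l ≤ u * (6 + u) / (6 + 4 * u))
    (hJ : u ^ 2 * t * (1 / 2 + u ^ 2 * t / 4 + u ^ 4 * t ^ 2 / 6) ≤ J)
    (hx : x ≤ M + u * t * tiltK u t / 2) (hc : 0 ≤ 1 - 503 / 500 * x) :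
    2 * (g * ((1 / 3 + M) * (l - M))) ≤ J * (1 - 503 / 500 * x) := by
  have hk6 : 0 < 6 + 4 * u := by positivity
  have hut : 0 ≤ u * t := mul_nonneg hu0.le ht0
  have hlin : 0 ≤ tiltLin u t M := by
    have a := tiltLin_low hu0.le hu1 ht0 ht1
    have b := tiltLin_high hu0.le hu1 ht0 ht1
    have e : (44315 / 100000 - u * t / 4 - u * t / 4) * tiltLin u t M
        = (44315 / 100000 - u * t / 4 - M) * tiltLin u t (u * t / 4)
          + (M - u * t / 4) * tiltLin u t (44315 / 100000 - u * t / 4) := by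
      unfold tiltLin; ring
    rcases (hlo.trans hhi).eq_or_lt with heq | hlt
    · have : M = u * t / 4 := by linarith
      rw [this]; exact a
    · refine nonneg_of_mul_nonneg_right ?_ (sub_pos.2 hlt)
      rw [e]
      exact add_nonneg (mul_nonneg (by linarith) a) (mul_nonneg (by linarith) b)
  have htan : 2 * tiltK u t * ((1 / 3 + M) * (u * (6 + u) - M * (6 + 4 * u)))
      ≤ u * (6 + 4 * u) * (1 / 2 + u ^ 2 * t / 4 + u ^ 4 * t ^ 2 / 6)
        * (1 - 503 / 500 * (M + u * t * tiltK u t / 2)) := by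
    have hK : 0 ≤ tiltK u t := by
      unfold tiltK; nlinarith [mul_nonneg ht0 (show 0 ≤ 1 - u + u * u by nlinarith)]
    have := mul_nonneg (mul_nonneg hK hk6.le) (sq_nonneg (M - 7 * u / 25))
    unfold tiltLin at hlin
    nlinarith
  have hK : 0 ≤ tiltK u t := by
    unfold tiltK; nlinarith [mul_nonneg ht0 (show 0 ≤ 1 - u + u * u by nlinarith)]
  have h1 : g * ((1 / 3 + M) * (l - M))
      ≤ u * t * tiltK u t * ((1 / 3 + M) * (u * (6 + u) / (6 + 4 * u) - M)) :=
    mul_le_mul hg (mul_le_mul_of_nonneg_left (by linarith) (by linarith))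
      (mul_nonneg (by linarith) (by linarith)) (mul_nonneg hut hK)
  have h2 := mul_le_mul_of_nonneg_left htan (show 0 ≤ u * t / (6 + 4 * u) by positivity)
  have h3 : u * t / (6 + 4 * u)
      * (2 * tiltK u t * ((1 / 3 + M) * (u * (6 + u) - M * (6 + 4 * u))))
      = 2 * (u * t * tiltK u t * ((1 / 3 + M) * (u * (6 + u) / (6 + 4 * u) - M))) := by
    field_simp
  have h4 : u * t / (6 + 4 * u) * (u * (6 + 4 * u) * (1 / 2 + u ^ 2 * t / 4 + u ^ 4 * t ^ 2 / 6)
        * (1 - 503 / 500 * (M + u * t * tiltK u t / 2)))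
      = u ^ 2 * t * (1 / 2 + u ^ 2 * t / 4 + u ^ 4 * t ^ 2 / 6)
        * (1 - 503 / 500 * (M + u * t * tiltK u t / 2)) := by
    field_simp
  have h5 : u ^ 2 * t * (1 / 2 + u ^ 2 * t / 4 + u ^ 4 * t ^ 2 / 6)
      * (1 - 503 / 500 * (M + u * t * tiltK u t / 2))
      ≤ u ^ 2 * t * (1 / 2 + u ^ 2 * t / 4 + u ^ 4 * t ^ 2 / 6) * (1 - 503 / 500 * x) :=
    mul_le_mul_of_nonneg_left (by linarith) (by positivity)
  have h6 := mul_le_mul_of_nonneg_right hJ hc
  linarith

/-- The condition along the tilted path. -/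
theorem path_cond_tilt {m d D : ℝ} (hm : 0 ≤ m) (hd : 0 ≤ d) (hmd : m + d < 1)
    (hD0 : gapEnt (m + d) (m - d) ≤ D) (hD : D ≤ log 2 - 1 / 4) :
    (rate (log 2 - D) - rate (log 2 - (D - gapEnt (m + d) (m - d))))
        * (-log ((1 + m) / 2) - (D - gapEnt (m + d) (m - d) / 2))
      ≤ rate (log 2 - (D - gapEnt (m + d) (m - d)))
        * (-(1 / 2) * log (1 - (d / (1 + m)) ^ 2)) := by
  set g := gapEnt (m + d) (m - d) with hg
  have hg0 : 0 ≤ g := gapEnt_nonneg ⟨by linarith, hmd.le⟩ ⟨by linarith, by linarith⟩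
  have hm1 : 0 < 1 - m := by linarith
  have hp1 : 0 < 1 + m := by linarith
  set u := (1 - m) / (1 + m) with hu
  set p := d / (1 - m) with hp
  set q := d / (1 + m) with hqd
  have hu0 : 0 < u := div_pos hm1 hp1
  have hu1 : u ≤ 1 := by rw [hu, div_le_one hp1]; linarith
  have hp0 : 0 ≤ p := div_nonneg hd hm1.le
  have hp1' : p ≤ 1 := by rw [hp, div_le_one hm1]; linarith
  have hqu : q = u * p := by rw [hqd, hu, hp]; field_simp
  have hq0 : 0 ≤ q := by rw [hqu]; positivity
  have hq1 : q < 1 := by rw [hqd, div_lt_one hp1]; linarith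
  set t := p ^ 2 with ht
  have ht0 : 0 ≤ t := sq_nonneg p
  have ht1 : t ≤ 1 := pow_le_one₀ hp0 hp1'
  have em1 : 1 + m = 2 / (1 + u) := by rw [hu]; field_simp; ring
  have em2 : 1 - m = 2 * u / (1 + u) := by rw [hu]; field_simp; ring
  have hgap : g = (phiFn q + u * phiFn p) / (1 + u) := by
    rw [hg, gapEnt_split hp1.ne' hm1.ne', ← hqd, ← hp, em1, em2]
    field_simp
  have hglo : u * t / 2 ≤ g := by
    rw [hgap, le_div_iff₀ (by positivity)]
    have a := sq_half_le_phiFn (x := p) ⟨by linarith, hp1'⟩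
    have b := sq_half_le_phiFn (x := q) ⟨by linarith, hq1.le⟩
    rw [hqu] at b ⊢
    nlinarith [mul_le_mul_of_nonneg_left a hu0.le]
  have hghi : g ≤ u * t * tiltK u t := by
    rw [hgap, div_le_iff₀ (by positivity)]
    have a := phiFn_le_quartic (x := p) ⟨hp0, hp1'⟩
    have b := phiFn_le_quartic (x := q) ⟨hq0, hq1.le⟩
    rw [hqu] at b ⊢
    rw [tiltK, ht]
    nlinarith [mul_le_mul_of_nonneg_left a hu0.le]
  set R := rate (log 2 - D)
  set R' := rate (log 2 - (D - g))
  have hRR : 0 ≤ R - R' := sub_nonneg.2 (antitoneOn_rate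
    (show (0 : ℝ) < log 2 - D by linarith) (show (0 : ℝ) < log 2 - (D - g) by linarith)
    (by linarith))
  have hR' : 0 ≤ R' := zero_le_two.trans (two_le_rate _)
  have hJ0 : 0 ≤ -(1 / 2) * log (1 - q ^ 2) := by
    have : log (1 - q ^ 2) ≤ 0 := log_nonpos (by nlinarith) (by nlinarith)
    linarith
  have hk : -log ((1 + m) / 2) = log (1 + u) := by
    rw [← log_inv]; congr 1; rw [em1]; field_simp
  rw [hk]
  set M := D - g / 2 with hM
  rcases le_or_gt (log (1 + u)) M with hkM | hkM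
  · exact (mul_nonpos_of_nonneg_of_nonpos hRR (by linarith)).trans (mul_nonneg hR' hJ0)
  · have h0 := rate_sub_le (e := log 2 - D) (e' := log 2 - (D - g)) (by linarith) (by linarith)
      (by linarith)
    have hL := log_two_lt_d9
    have hpade := log_one_add_le_pade hu0.le
    have hlo : u * t / 4 ≤ M := by linarith
    have hhi : M ≤ 44315 / 100000 - u * t / 4 := by linarith
    have hser := cubic_le_neg_log_one_sub (x := q ^ 2) (sq_nonneg q) (by nlinarith)
    have hJ : u ^ 2 * t * (1 / 2 + u ^ 2 * t / 4 + u ^ 4 * t ^ 2 / 6)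
        ≤ -(1 / 2) * log (1 - q ^ 2) := by
      rw [hqu] at hser ⊢; rw [ht]
      refine le_trans (le_of_eq ?_) (le_trans (mul_le_mul_of_nonneg_left hser
        (by norm_num : (0 : ℝ) ≤ 1 / 2)) (le_of_eq (by ring)))
      ring
    have hc : 0 < 1 - 503 / 500 * (log 2 - (log 2 - D)) := by linarith
    have hkey := tilt_key hu0 hu1 ht0 ht1 hlo hhi hghi hkM.le hpade hJ
      (x := log 2 - (log 2 - D)) (by linarith) hc.le
    refine le_of_mul_le_mul_right ?_ hc
    calc (R - R') * (log (1 + u) - M) * (1 - 503 / 500 * (log 2 - (log 2 - D)))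
        ≤ R' * (2 * ((log 2 - (D - g) - (log 2 - D))
            * (1 / 3 + (log 2 - (log 2 - D + (log 2 - (D - g))) / 2))))
            * (log (1 + u) - M) := by
          rw [mul_right_comm]; exact mul_le_mul_of_nonneg_right h0 (by linarith)
      _ = R' * (2 * (g * ((1 / 3 + M) * (log (1 + u) - M)))) := by rw [hM]; ring
      _ ≤ R' * ((-(1 / 2) * log (1 - q ^ 2)) * (1 - 503 / 500 * (log 2 - (log 2 - D)))) :=
          mul_le_mul_of_nonneg_left hkey hR'
      _ = _ := by ring

end Vale.Agent.P322
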