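import Vale.Agent.P322.Scalar.Defs

/-!
# Courtade–Kumar: auxiliary functions for the analysis of `Phi`
-/

namespace Vale.Agent.P322

open Real

open Classical in
/-- The `b ≥ 0` with `ent (tanh b) = e` (`0` if there is none). -/
noncomputable def zOf (e : ℝ) : ℝ :=
  if h : ∃ r ∈ Set.Ico (0 : ℝ) 1, ent r = e then artanh h.choose else 0

/-- `-Phi' e`; it is `1 + sinh 2b / 2b` at `b = zOf e`, and `2` at `b = 0`. -/
noncomputable def rate (e : ℝ) : ℝ :=
  if zOf e = 0 then 2 else 1 + sinh (2 * zOf e) / (2 * zOf e)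

/-- Perspective of `Phi`. -/
noncomputable def perspPhi (u H : ℝ) : ℝ := u * Phi (H / u)

/-- The information carried by one pair: `ent` of the midpoint minus the mean entropy. -/
noncomputable def gapEnt (x y : ℝ) : ℝ := ent ((x + y) / 2) - (ent x + ent y) / 2

end Vale.Agent.P322
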