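import Vale.Agent.P322.Scalar.Cert
import Vale.Agent.P322.Scalar.PhiDefs
import Vale.Agent.P322.Basic

/-!
# Courtade–Kumar: properties of `Phi`, `rate`, `perspPhi` and the profile

`zOf` inverts `b ↦ ent (tanh b)` on `b ≥ 0`, so that `Phi = (b ↦ b * tanh b) ∘ zOf` and
`Phi' = -rate`. Convexity of `Phi` and of `rate` gives the tangent and Legendre-type bounds.
-/

namespace Vale.Agent.P322

open Real Set

/-! ### Entropy -/

lemma ent_neg (x : ℝ) : ent (-x) = ent x := Skel.hbin_neg x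

lemma ent_zero : ent 0 = log 2 := Skel.hbin_zero

lemma ent_one : ent 1 = 0 := Skel.hbin_one

lemma ent_le_log_two (x : ℝ) : ent x ≤ log 2 := Skel.hbin_le_log_two x

lemma continuous_ent : Continuous ent := Skel.continuous_hbin

lemma ent_tanh_pos (b : ℝ) : 0 < ent (tanh b) :=
  Skel.hbin_pos (neg_one_lt_tanh b) (tanh_lt_one b)

lemma hasDerivAt_tanh' (b : ℝ) : HasDerivAt tanh (1 / cosh b ^ 2) b := by
  have h := (hasDerivAt_sinh b).div (hasDerivAt_cosh b) (cosh_pos b).ne'
  rw [show tanh = fun x => sinh x / cosh x from funext tanh_eq_sinh_div_cosh]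
  refine h.congr_deriv ?_
  rw [← cosh_sq_sub_sinh_sq b]; ring

lemma strictMono_tanh' : StrictMono tanh :=
  strictMono_of_deriv_pos fun b => by
    rw [(hasDerivAt_tanh' b).deriv]; exact div_pos one_pos (pow_pos (cosh_pos b) 2)

lemma continuous_tanh' : Continuous tanh :=
  continuous_iff_continuousAt.2 fun b => (hasDerivAt_tanh' b).continuousAt

lemma tanh_nonneg' {b : ℝ} (hb : 0 ≤ b) : 0 ≤ tanh b := by
  simpa using strictMono_tanh'.monotone hb

lemma tanh_mem_Ico {b : ℝ} (hb : 0 ≤ b) : tanh b ∈ Ico (0 : ℝ) 1 :=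
  ⟨tanh_nonneg' hb, tanh_lt_one b⟩

lemma ent_tanh_le_ent_tanh {a b : ℝ} (ha : 0 ≤ a) (h : a ≤ b) : ent (tanh b) ≤ ent (tanh a) :=
  Skel.strictAntiOn_hbin.antitoneOn (Ico_subset_Icc_self (tanh_mem_Ico ha))
    (Ico_subset_Icc_self (tanh_mem_Ico (ha.trans h))) (strictMono_tanh'.monotone h)

lemma ent_tanh_lt_ent_tanh {a b : ℝ} (ha : 0 ≤ a) (h : a < b) : ent (tanh b) < ent (tanh a) :=
  Skel.strictAntiOn_hbin (Ico_subset_Icc_self (tanh_mem_Ico ha))
    (Ico_subset_Icc_self (tanh_mem_Ico (ha.trans h.le))) (strictMono_tanh' h)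

lemma hasDerivAt_ent_tanh (b : ℝ) :
    HasDerivAt (fun t => ent (tanh t)) (-b / cosh b ^ 2) b := by
  have h := (Skel.hasDerivAt_hbin (neg_one_lt_tanh b) (tanh_lt_one b)).comp b (hasDerivAt_tanh' b)
  refine h.congr_deriv ?_
  rw [artanh_tanh]; ring

lemma concaveOn_ent : ConcaveOn ℝ (Icc (-1 : ℝ) 1) ent := by
  refine ⟨convex_Icc _ _, fun x hx y hy s t hs ht hst => ?_⟩
  have h := strictConcave_binEntropy.concaveOn.2
    (x := (1 + x) / 2) ⟨by linarith [hx.1], by linarith [hx.2]⟩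
    (y := (1 + y) / 2) ⟨by linarith [hy.1], by linarith [hy.2]⟩ hs ht hst
  simp only [smul_eq_mul] at h ⊢
  have hm : (1 + (s * x + t * y)) / 2 = s * ((1 + x) / 2) + t * ((1 + y) / 2) := by
    linear_combination (-(1 : ℝ) / 2) * hst
  rw [ent, ent, ent, hm]
  exact h

lemma phiFn_neg (x : ℝ) : phiFn (-x) = phiFn x := by rw [phiFn, phiFn, ent_neg]

lemma phiFn_nonneg (x : ℝ) : 0 ≤ phiFn x := sub_nonneg.2 (ent_le_log_two x)

lemma hasDerivAt_phiFn {x : ℝ} (h1 : -1 < x) (h2 : x < 1) :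
    HasDerivAt phiFn (artanh x) x := by
  exact ((Skel.hasDerivAt_hbin h1 h2).const_sub (log 2)).congr_deriv (neg_neg _)

lemma hasDerivAt_artanh' {x : ℝ} (h1 : -1 < x) (h2 : x < 1) :
    HasDerivAt artanh (1 / (1 - x ^ 2)) x := by
  have hp : (1 + x) / (1 - x) ≠ 0 := div_ne_zero (by linarith) (by linarith)
  have h := ((((hasDerivAt_id' x).const_add 1).div ((hasDerivAt_id' x).const_sub 1)
    (by linarith : (1 - x) ≠ 0)).log hp).const_mul (1 / 2 : ℝ)
  have h' : HasDerivAt artanh _ x := h.congr_of_eventuallyEq (by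
    filter_upwards [Ioo_mem_nhds h1 h2] with t ht using artanh_eq_half_log ⟨ht.1.le, ht.2.le⟩)
  refine h'.congr_deriv ?_
  have : (1 : ℝ) - x ≠ 0 := by linarith
  have : (1 : ℝ) + x ≠ 0 := by linarith
  simp only [Pi.div_apply]
  rw [show (1 : ℝ) - x ^ 2 = (1 - x) * (1 + x) by ring]
  field_simp
  ring

lemma self_le_artanh {x : ℝ} (h0 : 0 ≤ x) (h1 : x < 1) : x ≤ artanh x := by
  have h : MonotoneOn (fun t => artanh t - t) (Ico 0 1) := by
    have hd : ∀ t ∈ Ico (0 : ℝ) 1, HasDerivAt (fun t => artanh t - t) (1 / (1 - t ^ 2) - 1) t :=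
      fun t ht => (hasDerivAt_artanh' (by linarith [ht.1]) ht.2).sub (hasDerivAt_id' t)
    refine monotoneOn_of_hasDerivWithinAt_nonneg (convex_Ico 0 1)
      (fun t ht => (hd t ht).continuousAt.continuousWithinAt)
      (fun t ht => (hd t (interior_subset ht)).hasDerivWithinAt) fun t ht => ?_
    have ht := interior_subset ht
    have : 0 < 1 - t ^ 2 := by nlinarith [ht.1, ht.2]
    rw [sub_nonneg, le_div_iff₀ this]
    nlinarith
  have := h ⟨le_rfl, zero_lt_one⟩ ⟨h0, h1⟩ h0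
  simp only [artanh_zero] at this
  linarith

lemma sq_half_le_phiFn {x : ℝ} (hx : x ∈ Icc (-1 : ℝ) 1) : x ^ 2 / 2 ≤ phiFn x := by
  have hm : MonotoneOn (fun t => phiFn t - t ^ 2 / 2) (Icc 0 1) := by
    have hc : Continuous fun t => phiFn t - t ^ 2 / 2 := by
      unfold phiFn; exact ((continuous_const.sub continuous_ent).sub (by fun_prop))
    refine monotoneOn_of_hasDerivWithinAt_nonneg (f' := fun t => artanh t - t) (convex_Icc 0 1)
      hc.continuousOn (fun t ht => ?_) fun t ht => ?_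
    · rw [interior_Icc] at ht
      exact (((hasDerivAt_phiFn (by linarith [ht.1]) ht.2).sub
        ((hasDerivAt_pow 2 t).div_const 2)).congr_deriv (by norm_num)).hasDerivWithinAt
    · rw [interior_Icc] at ht
      exact sub_nonneg.2 (self_le_artanh ht.1.le ht.2)
  have main : ∀ y ∈ Icc (0 : ℝ) 1, y ^ 2 / 2 ≤ phiFn y := fun y hy => by
    have := hm (left_mem_Icc.2 zero_le_one) hy hy.1
    simp only [phiFn, ent_zero] at this ⊢
    linarith
  rcases le_total 0 x with h | h
  · exact main x ⟨h, hx.2⟩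
  · have := main (-x) ⟨by linarith, by linarith [hx.1]⟩
    rwa [neg_sq, phiFn_neg] at this

/-- The saturation weight times `log 2` is a minorant of the entropy. -/
lemma satWeight_mul_log_two_le_ent {x : ℝ} (hx : x ∈ Icc (-1 : ℝ) 1) :
    satWeight x * log 2 ≤ ent x := by
  have hL := log_two_gt_d9
  have hL' := log_two_lt_d9
  set g : ℝ → ℝ := fun t => ent t - (1 - t ^ 2) * (8 + t ^ 2) / 8 * log 2 with hg
  suffices main : ∀ y ∈ Icc (0 : ℝ) 1, 0 ≤ g y by
    rcases le_total 0 x with h | h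
    · simpa [hg, satWeight] using main x ⟨h, hx.2⟩
    · simpa [hg, satWeight, ent_neg] using main (-x) ⟨by linarith, by linarith [hx.1]⟩
  set g1 : ℝ → ℝ := fun t => log 2 * (7 * t / 4 + t ^ 3 / 2) - artanh t with hg1
  have hd1 : ∀ t ∈ Ico (0 : ℝ) 1, HasDerivAt g (g1 t) t := by
    intro t ht
    have h := (Skel.hasDerivAt_hbin (by linarith [ht.1]) ht.2).sub
      (((((hasDerivAt_pow 2 t).const_sub 1).mul ((hasDerivAt_pow 2 t).const_add 8)).div_const
        8).mul_const (log 2))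
    refine h.congr_deriv ?_
    simp only [hg1]; ring
  have hd2 : ∀ t ∈ Ico (0 : ℝ) 1,
      HasDerivAt g1 (log 2 * (7 / 4 + 3 * t ^ 2 / 2) - 1 / (1 - t ^ 2)) t := by
    intro t ht
    have h := (((((hasDerivAt_id' t).const_mul (7 : ℝ)).div_const 4).add
      ((hasDerivAt_pow 3 t).div_const 2)).const_mul (log 2)).sub
        (hasDerivAt_artanh' (by linarith [ht.1]) ht.2)
    refine h.congr_deriv ?_
    ring
  -- the sign of the second derivative changes once
  set P : ℝ → ℝ := fun s => log 2 * (7 / 4 + 3 * s / 2) * (1 - s) - 1 with hP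
  have hanti : ∀ s t, 0 ≤ s → s ≤ t → P t ≤ P s := fun s t hs hst => by
    simp only [hP]; nlinarith [mul_nonneg (show 0 ≤ log 2 by linarith) (sub_nonneg.2 hst)]
  obtain ⟨s, hs, hs0⟩ := intermediate_value_Ioo' zero_le_one
    (f := P) (by simp only [hP]; fun_prop) (show (0 : ℝ) ∈ Ioo (P 1) (P 0) by
      simp only [hP]; constructor <;> linarith)
  set m := √s with hm
  have hm0 : 0 < m := sqrt_pos.2 hs.1
  have hm1 : m < 1 := by rw [hm, sqrt_lt' zero_lt_one]; linarith [hs.2]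
  have hms : m ^ 2 = s := sq_sqrt hs.1.le
  have hsign : ∀ t ∈ Ico (0 : ℝ) 1,
      (t ≤ m → 0 ≤ log 2 * (7 / 4 + 3 * t ^ 2 / 2) - 1 / (1 - t ^ 2)) ∧
      (m ≤ t → log 2 * (7 / 4 + 3 * t ^ 2 / 2) - 1 / (1 - t ^ 2) ≤ 0) := by
    intro t ht
    have h1 : 0 < 1 - t ^ 2 := by nlinarith [ht.1, ht.2]
    have e : log 2 * (7 / 4 + 3 * t ^ 2 / 2) - 1 / (1 - t ^ 2) = P (t ^ 2) / (1 - t ^ 2) := by
      simp only [hP]; field_simp
    rw [e]
    refine ⟨fun h => div_nonneg ?_ h1.le, fun h => div_nonpos_of_nonpos_of_nonneg ?_ h1.le⟩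
    · have := hanti (t ^ 2) s (sq_nonneg t) (by rw [← hms]; exact pow_le_pow_left₀ ht.1 h 2)
      linarith
    · have := hanti s (t ^ 2) hs.1.le (by rw [← hms]; exact pow_le_pow_left₀ hm0.le h 2)
      linarith
  have hgc : Continuous g := continuous_ent.sub (by fun_prop)
  have g0 : g 0 = 0 := by simp [hg, ent_zero]
  have g10 : g1 0 = 0 := by simp [hg1]
  have hmono1 : ∀ t ∈ Icc 0 m, 0 ≤ g1 t := by
    have hmon : MonotoneOn g1 (Icc 0 m) := by
      refine monotoneOn_of_hasDerivWithinAt_nonneg (convex_Icc 0 m)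
        (fun t ht => (hd2 t ⟨ht.1, ht.2.trans_lt hm1⟩).continuousAt.continuousWithinAt)
        (fun t ht => (hd2 t ⟨(interior_subset ht).1,
          (interior_subset ht).2.trans_lt hm1⟩).hasDerivWithinAt) fun t ht => ?_
      exact (hsign t ⟨(interior_subset ht).1, (interior_subset ht).2.trans_lt hm1⟩).1
        (interior_subset ht).2
    intro t ht
    have := hmon (left_mem_Icc.2 hm0.le) ht ht.1
    rwa [g10] at this
  have hlo : ∀ t ∈ Icc 0 m, 0 ≤ g t := by
    have hmon : MonotoneOn g (Icc 0 m) :=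
      monotoneOn_of_hasDerivWithinAt_nonneg (convex_Icc 0 m) hgc.continuousOn
        (fun t ht => (hd1 t ⟨(interior_subset ht).1,
          (interior_subset ht).2.trans_lt hm1⟩).hasDerivWithinAt)
        fun t ht => hmono1 t (interior_subset ht)
    intro t ht
    have := hmon (left_mem_Icc.2 hm0.le) ht ht.1
    rwa [g0] at this
  have hconc : ConcaveOn ℝ (Icc m 1) g := by
    refine concaveOn_of_hasDerivWithinAt2_nonpos (convex_Icc m 1) hgc.continuousOn
      (f' := g1) (f'' := fun t => log 2 * (7 / 4 + 3 * t ^ 2 / 2) - 1 / (1 - t ^ 2))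
      (fun t ht => ?_) (fun t ht => ?_) fun t ht => ?_
    all_goals rw [interior_Icc] at ht
    · exact (hd1 t ⟨hm0.le.trans ht.1.le, ht.2⟩).hasDerivWithinAt
    · exact (hd2 t ⟨hm0.le.trans ht.1.le, ht.2⟩).hasDerivWithinAt
    · exact (hsign t ⟨hm0.le.trans ht.1.le, ht.2⟩).2 ht.1.le
  intro y hy
  rcases le_total y m with h | h
  · exact hlo y ⟨hy.1, h⟩
  · have h1 : 0 ≤ g 1 := by simp [hg, ent_one]
    exact (le_min (hlo m (right_mem_Icc.2 hm0.le)) h1).trans
      (hconc.min_le_of_mem_Icc (left_mem_Icc.2 hm1.le) (right_mem_Icc.2 hm1.le) ⟨h, hy.2⟩)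

lemma phiFn_le_sq_mul_log_two {x : ℝ} (hx : x ∈ Icc (-1 : ℝ) 1) :
    phiFn x ≤ x ^ 2 * log 2 := by
  have h := satWeight_mul_log_two_le_ent hx
  have hL : 0 ≤ log 2 := (log_pos one_lt_two).le
  have hx2 : x ^ 2 ≤ 1 := by nlinarith [hx.1, hx.2]
  have : (1 - x ^ 2) * log 2 ≤ satWeight x * log 2 := by
    refine mul_le_mul_of_nonneg_right ?_ hL
    unfold satWeight; nlinarith [mul_nonneg (sq_nonneg x) (sub_nonneg.2 hx2)]
  unfold phiFn; linarith

lemma satWeight_neg (m : ℝ) : satWeight (-m) = satWeight m := by simp [satWeight]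

lemma satWeight_pos {m : ℝ} (hm : m ∈ Ioo (-1 : ℝ) 1) : 0 < satWeight m := by
  have : 0 < 1 - m ^ 2 := by nlinarith [hm.1, hm.2]
  unfold satWeight; positivity

lemma satWeight_avg (m d : ℝ) :
    (satWeight (m + d) + satWeight (m - d)) / 2
      = satWeight m - d ^ 2 * (7 / 8 + 3 * m ^ 2 / 4 + d ^ 2 / 8) := by
  unfold satWeight; ring

/-! ### The inverse `zOf` -/

lemma exists_ent_eq {e : ℝ} (he : e ∈ Ioc 0 (log 2)) : ∃ r ∈ Ico (0 : ℝ) 1, ent r = e := by
  obtain ⟨r, hr, hre⟩ := intermediate_value_Icc' zero_le_one (continuous_ent.continuousOn)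
    (show e ∈ Icc (ent 1) (ent 0) by rw [ent_one, ent_zero]; exact ⟨he.1.le, he.2⟩)
  refine ⟨r, ⟨hr.1, lt_of_le_of_ne hr.2 fun h => ?_⟩, hre⟩
  rw [h, ent_one] at hre
  linarith [he.1]

lemma ent_tanh_zOf {e : ℝ} (he : e ∈ Ioc 0 (log 2)) : ent (tanh (zOf e)) = e := by
  have h := exists_ent_eq he
  obtain ⟨⟨h0, h1⟩, h2⟩ := h.choose_spec
  rw [zOf, dif_pos h, tanh_artanh ⟨by linarith, h1⟩, h2]

lemma zOf_eq_zero {e : ℝ} (he : e ∉ Ioc 0 (log 2)) : zOf e = 0 := by
  rw [zOf, dif_neg]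
  rintro ⟨r, hr, rfl⟩
  exact he ⟨Skel.hbin_pos (by linarith [hr.1]) hr.2, ent_le_log_two r⟩

lemma zOf_nonneg (e : ℝ) : 0 ≤ zOf e := by
  by_cases h : ∃ r ∈ Ico (0 : ℝ) 1, ent r = e
  · rw [zOf, dif_pos h]; exact artanh_nonneg h.choose_spec.1.1
  · rw [zOf, dif_neg h]

lemma zOf_ent_tanh {b : ℝ} (hb : 0 ≤ b) : zOf (ent (tanh b)) = b := by
  have h : ∃ r ∈ Ico (0 : ℝ) 1, ent r = ent (tanh b) := ⟨_, tanh_mem_Ico hb, rfl⟩
  obtain ⟨hr, hre⟩ := h.choose_spec
  have : h.choose = tanh b := Skel.strictAntiOn_hbin.injOn (Ico_subset_Icc_self hr)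
    (Ico_subset_Icc_self (tanh_mem_Ico hb)) hre
  rw [zOf, dif_pos h, this, artanh_tanh]

lemma zOf_of_log_two_le {e : ℝ} (he : log 2 ≤ e) : zOf e = 0 := by
  rcases eq_or_lt_of_le he with rfl | h
  · simpa [ent_zero] using zOf_ent_tanh (le_refl (0 : ℝ))
  · exact zOf_eq_zero fun h' => absurd h'.2 (not_le.2 h)

lemma zOf_pos {e : ℝ} (h0 : 0 < e) (h1 : e < log 2) : 0 < zOf e := by
  refine (zOf_nonneg e).lt_of_ne fun h => ?_
  have := ent_tanh_zOf ⟨h0, h1.le⟩
  rw [← h, tanh_zero, ent_zero] at this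
  linarith

lemma lt_zOf_iff {a e : ℝ} (ha : 0 ≤ a) (he : 0 < e) : a < zOf e ↔ e < ent (tanh a) := by
  rcases le_or_gt e (log 2) with h | h
  · constructor
    · intro h'
      have := ent_tanh_lt_ent_tanh ha h'
      rwa [ent_tanh_zOf ⟨he, h⟩] at this
    · intro h'
      by_contra h''
      push Not at h''
      have := ent_tanh_le_ent_tanh (zOf_nonneg e) h''
      rw [ent_tanh_zOf ⟨he, h⟩] at this
      linarith
  · rw [zOf_of_log_two_le h.le]
    exact iff_of_false (by linarith) (by linarith [ent_le_log_two (tanh a)])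

lemma zOf_lt_iff {a e : ℝ} (ha : 0 < a) (he : 0 < e) : zOf e < a ↔ ent (tanh a) < e := by
  rcases le_or_gt e (log 2) with h | h
  · constructor
    · intro h'
      have := ent_tanh_lt_ent_tanh (zOf_nonneg e) h'
      rwa [ent_tanh_zOf ⟨he, h⟩] at this
    · intro h'
      by_contra h''
      push Not at h''
      have := ent_tanh_le_ent_tanh ha.le h''
      rw [ent_tanh_zOf ⟨he, h⟩] at this
      linarith
  · rw [zOf_of_log_two_le h.le]
    exact iff_of_true ha (by linarith [ent_le_log_two (tanh a)])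

lemma antitoneOn_zOf : AntitoneOn zOf (Ioi 0) := by
  intro e he e' he' hee
  by_contra h
  push Not at h
  have h1 := (lt_zOf_iff (zOf_nonneg e) he').1 h
  rcases le_or_gt e (log 2) with h2 | h2
  · rw [ent_tanh_zOf ⟨he, h2⟩] at h1; linarith
  · linarith [ent_le_log_two (tanh (zOf e))]

lemma continuousOn_zOf : ContinuousOn zOf (Ioi 0) := by
  intro e he
  refine ContinuousAt.continuousWithinAt ?_
  rw [ContinuousAt, tendsto_order]
  refine ⟨fun a ha => ?_, fun a ha => ?_⟩
  · rcases lt_or_ge a 0 with h | h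
    · exact Filter.Eventually.of_forall fun x => h.trans_le (zOf_nonneg x)
    · have := (lt_zOf_iff h he).1 ha
      filter_upwards [Ioo_mem_nhds (show (0 : ℝ) < e from he) this] with x hx
      exact (lt_zOf_iff h hx.1).2 hx.2
  · have ha0 : 0 < a := (zOf_nonneg e).trans_lt ha
    have := (zOf_lt_iff ha0 he).1 ha
    filter_upwards [Ioi_mem_nhds (show (0 : ℝ) < e from he), Ioi_mem_nhds this] with x hx hx'
    exact (zOf_lt_iff ha0 hx).2 hx'

/-! ### `Phi` and `rate` -/

lemma Phi_eq (e : ℝ) : Phi e = zOf e * tanh (zOf e) := by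
  by_cases h : ∃ r ∈ Ico (0 : ℝ) 1, ent r = e
  · obtain ⟨h0, h1⟩ := h.choose_spec.1
    rw [Phi, zOf, dif_pos h, dif_pos h, tanh_artanh ⟨by linarith, h1⟩, mul_comm]
  · rw [Phi, zOf, dif_neg h, dif_neg h]; simp

lemma Phi_ent_tanh {b : ℝ} (hb : 0 ≤ b) : Phi (ent (tanh b)) = b * tanh b := by
  rw [Phi_eq, zOf_ent_tanh hb]

lemma Phi_nonneg (e : ℝ) : 0 ≤ Phi e := by
  rw [Phi_eq]; exact mul_nonneg (zOf_nonneg e) (tanh_nonneg' (zOf_nonneg e))

lemma Phi_of_log_two_le {e : ℝ} (he : log 2 ≤ e) : Phi e = 0 := by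
  rw [Phi_eq, zOf_of_log_two_le he, zero_mul]

lemma continuousOn_Phi : ContinuousOn Phi (Ioi 0) := by
  refine ContinuousOn.congr (continuousOn_zOf.mul ?_) fun e _ => Phi_eq e
  exact continuous_tanh'.comp_continuousOn continuousOn_zOf

lemma antitoneOn_Phi : AntitoneOn Phi (Ioi 0) := by
  intro e he e' he' h
  rw [Phi_eq, Phi_eq]
  have := antitoneOn_zOf he he' h
  exact mul_le_mul this (strictMono_tanh'.monotone this) (tanh_nonneg' (zOf_nonneg _))
    (zOf_nonneg _)

lemma one_add_dslope_sinh {b : ℝ} (hb : b ≠ 0) :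
    1 + dslope sinh 0 (2 * b) = 1 + sinh (2 * b) / (2 * b) := by
  rw [dslope_of_ne _ (mul_ne_zero two_ne_zero hb), slope_def_field]; simp

lemma rate_eq (e : ℝ) : rate e = 1 + dslope sinh 0 (2 * zOf e) := by
  unfold rate
  split_ifs with h
  · rw [h, mul_zero, dslope_same, Real.deriv_sinh]; simp; norm_num
  · rw [one_add_dslope_sinh h]

lemma continuousOn_rate : ContinuousOn rate (Ioi 0) := by
  refine ContinuousOn.congr ?_ fun e _ => rate_eq e
  have hc : Continuous (dslope sinh 0) := by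
    refine continuous_iff_continuousAt.2 fun x => ?_
    rcases eq_or_ne x 0 with rfl | hx
    · exact continuousAt_dslope_same.2 (differentiable_sinh 0)
    · exact (continuousAt_dslope_of_ne hx).2 continuous_sinh.continuousAt
  exact continuousOn_const.add (hc.comp_continuousOn (continuousOn_const.mul continuousOn_zOf))

lemma two_le_rate (e : ℝ) : 2 ≤ rate e := by
  unfold rate
  split_ifs with h
  · exact le_rfl
  · have hz : 0 < 2 * zOf e := by have := (zOf_nonneg e).lt_of_ne' h; linarith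
    linarith [(one_le_div hz).2 (self_le_sinh_iff.2 hz.le)]

lemma monotoneOn_dslope_sinh : MonotoneOn (fun x => sinh x / x) (Ioi 0) := by
  have hd : ∀ x ∈ Ioi (0 : ℝ),
      HasDerivAt (fun x => sinh x / x) ((x * cosh x - sinh x) / x ^ 2) x := fun x hx =>
    ((hasDerivAt_sinh x).div (hasDerivAt_id' x) (ne_of_gt hx)).congr_deriv (by ring)
  refine monotoneOn_of_hasDerivWithinAt_nonneg (convex_Ioi 0)
    (fun x hx => (hd x hx).continuousAt.continuousWithinAt)
    (fun x hx => (hd x (interior_subset hx)).hasDerivWithinAt) fun x hx => ?_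
  exact div_nonneg (sub_nonneg.2 (sinh_le_mul_cosh (le_of_lt (interior_subset (s := Ioi 0) hx))))
    (sq_nonneg x)
where
  sinh_le_mul_cosh {x : ℝ} (hx : 0 ≤ x) : sinh x ≤ x * cosh x := by
    have hd : ∀ t, HasDerivAt (fun t => t * cosh t - sinh t) (t * sinh t) t := fun t =>
      (((hasDerivAt_id' t).mul (hasDerivAt_cosh t)).sub (hasDerivAt_sinh t)).congr_deriv (by ring)
    have hm : MonotoneOn (fun t => t * cosh t - sinh t) (Ici 0) :=
      monotoneOn_of_hasDerivWithinAt_nonneg (convex_Ici 0)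
        (fun t _ => (hd t).continuousAt.continuousWithinAt) (fun t _ => (hd t).hasDerivWithinAt)
        fun t ht => by
          rw [interior_Ici] at ht
          exact mul_nonneg (le_of_lt ht) (sinh_nonneg_iff.2 (le_of_lt ht))
    have := hm (mem_Ici.2 le_rfl) hx hx
    simpa using this

lemma antitoneOn_rate : AntitoneOn rate (Ioi 0) := by
  intro e he e' he' h
  rcases (zOf_nonneg e').eq_or_lt with h0 | h0
  · rw [show rate e' = 2 from if_pos h0.symm]; exact two_le_rate e
  · have h1 := antitoneOn_zOf he he' h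
    rw [rate, rate, if_neg h0.ne', if_neg (h0.trans_le h1).ne']
    have := monotoneOn_dslope_sinh (show (0 : ℝ) < 2 * zOf e' by linarith)
      (show (0 : ℝ) < 2 * zOf e by linarith) (by linarith)
    simpa using this

lemma hasDerivAt_zOf {e : ℝ} (h0 : 0 < e) (h1 : e < log 2) :
    HasDerivAt zOf (-cosh (zOf e) ^ 2 / zOf e) e := by
  have hz := zOf_pos h0 h1
  have hc := cosh_pos (zOf e)
  have hne : -zOf e / cosh (zOf e) ^ 2 ≠ 0 := div_ne_zero (neg_ne_zero.2 hz.ne') (by positivity)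
  have h := HasDerivAt.of_local_left_inverse
    (continuousOn_zOf.continuousAt (Ioi_mem_nhds h0)) (hasDerivAt_ent_tanh (zOf e)) hne
    (by
      filter_upwards [Ioo_mem_nhds h0 h1] with x hx
      exact ent_tanh_zOf ⟨hx.1, hx.2.le⟩)
  refine h.congr_deriv ?_
  field_simp

lemma hasDerivAt_Phi {e : ℝ} (h0 : 0 < e) (h1 : e < log 2) :
    HasDerivAt Phi (-rate e) e := by
  have hz := zOf_pos h0 h1
  have hc := (cosh_pos (zOf e)).ne'
  have h := ((hasDerivAt_id' (zOf e)).mul (hasDerivAt_tanh' (zOf e))).comp e (hasDerivAt_zOf h0 h1)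
  have h2 : HasDerivAt Phi _ e := h.congr_of_eventuallyEq
    (Filter.Eventually.of_forall fun x => by simp [Phi_eq])
  refine h2.congr_deriv ?_
  rw [rate, if_neg hz.ne', sinh_two_mul, tanh_eq_sinh_div_cosh]
  field_simp
  ring

/-- Tangent lines of `Phi` lie below it. -/
lemma Phi_tangent {e e' : ℝ} (he : e ∈ Ioc 0 (log 2)) (he' : 0 < e') :
    Phi e - rate e * (e' - e) ≤ Phi e' := by
  have main : ∀ u v, 0 < u → u < v → v ≤ log 2 →
      ∃ c ∈ Ioo u v, Phi v - Phi u = -rate c * (v - u) := fun u v hu huv hv => by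
    obtain ⟨c, hc, hcd⟩ := exists_hasDerivAt_eq_slope Phi (fun t => -rate t) huv
      (continuousOn_Phi.mono fun t ht => hu.trans_le ht.1)
      fun t ht => hasDerivAt_Phi (hu.trans ht.1) (ht.2.trans_le hv)
    exact ⟨c, hc, by rw [hcd, div_mul_cancel₀ _ (sub_pos.2 huv).ne']⟩
  rcases lt_trichotomy e' e with h | h | h
  · obtain ⟨c, hc, hcd⟩ := main e' e he' h he.2
    have := antitoneOn_rate (he'.trans hc.1) he.1 hc.2.le
    nlinarith [mul_le_mul_of_nonneg_right this (sub_pos.2 h).le]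
  · simp [h]
  · set v := min e' (log 2) with hv
    have hev : Phi e - rate e * (v - e) ≤ Phi v := by
      rcases (le_min h.le he.2 : e ≤ v).eq_or_lt with h' | h'
      · rw [show v = e from h'.symm]; simp
      · obtain ⟨c, hc, hcd⟩ := main e v he.1 h' (min_le_right _ _)
        have := antitoneOn_rate he.1 (he.1.trans hc.1) hc.1.le
        nlinarith [mul_le_mul_of_nonneg_right this (sub_pos.2 h').le]
    rcases le_total e' (log 2) with h' | h'
    · rwa [hv, min_eq_left h'] at hev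
    · rw [hv, min_eq_right h', Phi_of_log_two_le le_rfl] at hev
      rw [Phi_of_log_two_le h']
      nlinarith [mul_nonneg (zero_le_two.trans (two_le_rate e)) (sub_nonneg.2 h')]

lemma two_mul_sub_le_Phi {e : ℝ} (he : 0 < e) : 2 * (log 2 - e) ≤ Phi e := by
  have h := Phi_tangent ⟨log_pos one_lt_two, le_rfl⟩ he
  rw [Phi_of_log_two_le le_rfl, rate, if_pos (zOf_of_log_two_le le_rfl)] at h
  linarith

lemma convexOn_Phi : ConvexOn ℝ (Ioi 0) Phi := by
  refine ⟨convex_Ioi 0, fun x hx y hy a b ha hb hab => ?_⟩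
  have hz : 0 < a * x + b * y := convex_Ioi (0 : ℝ) hx hy ha hb hab
  simp only [smul_eq_mul]
  rcases le_or_gt (log 2) (a * x + b * y) with h | h
  · rw [Phi_of_log_two_le h]
    exact add_nonneg (mul_nonneg ha (Phi_nonneg x)) (mul_nonneg hb (Phi_nonneg y))
  · have h1 := mul_le_mul_of_nonneg_left (Phi_tangent ⟨hz, h.le⟩ (show 0 < x from hx)) ha
    have h2 := mul_le_mul_of_nonneg_left (Phi_tangent ⟨hz, h.le⟩ (show 0 < y from hy)) hb
    calc Phi (a * x + b * y) = a * (Phi (a * x + b * y) - rate (a * x + b * y)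
            * (x - (a * x + b * y))) + b * (Phi (a * x + b * y) - rate (a * x + b * y)
            * (y - (a * x + b * y))) := by
          linear_combination (-(Phi (a * x + b * y))) * hab
            - rate (a * x + b * y) * (a * x + b * y) * hab
      _ ≤ _ := add_le_add h1 h2

/-! ### Convexity of `rate` -/

/-- `-d rate / de` as a function of `b = zOf e`. -/
noncomputable def rateSlope (b : ℝ) : ℝ :=
  (2 * b * cosh (2 * b) - sinh (2 * b)) / (2 * b) ^ 3 * (4 * cosh b ^ 2)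

lemma monotoneOn_rateSlope : MonotoneOn rateSlope (Ioi 0) := by
  have hd : ∀ x ∈ Ioi (0 : ℝ), HasDerivAt (fun x => (x * cosh x - sinh x) / x ^ 3)
      (((x ^ 2 + 3) * sinh x - 3 * x * cosh x) / x ^ 4) x := fun x hx =>
    ((((hasDerivAt_id' x).mul (hasDerivAt_cosh x)).sub (hasDerivAt_sinh x)).div
      (hasDerivAt_pow 3 x) (pow_ne_zero 3 (ne_of_gt hx))).congr_deriv (by
        have := ne_of_gt (show (0 : ℝ) < x from hx)
        simp only [Pi.sub_apply, Pi.mul_apply]
        field_simp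
        ring)
  have hd' : ∀ x, HasDerivAt (fun x => (x ^ 2 + 3) * sinh x - 3 * x * cosh x)
      (x * (x * cosh x - sinh x)) x := fun x =>
    ((((hasDerivAt_pow 2 x).add_const 3).mul (hasDerivAt_sinh x)).sub
      (((hasDerivAt_id' x).const_mul 3).mul (hasDerivAt_cosh x))).congr_deriv (by ring)
  have hnum : ∀ x, 0 ≤ x → 0 ≤ (x ^ 2 + 3) * sinh x - 3 * x * cosh x := fun x hx => by
    have hm := monotoneOn_of_hasDerivWithinAt_nonneg (convex_Ici (0 : ℝ))
      (fun t _ => (hd' t).continuousAt.continuousWithinAt) (fun t _ => (hd' t).hasDerivWithinAt)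
      fun t ht => by
        rw [interior_Ici] at ht
        exact mul_nonneg (le_of_lt ht)
          (sub_nonneg.2 (monotoneOn_dslope_sinh.sinh_le_mul_cosh (le_of_lt ht)))
    simpa using hm (mem_Ici.2 le_rfl) hx hx
  have hm : MonotoneOn (fun x => (x * cosh x - sinh x) / x ^ 3) (Ioi 0) :=
    monotoneOn_of_hasDerivWithinAt_nonneg (convex_Ioi 0)
      (fun x hx => (hd x hx).continuousAt.continuousWithinAt)
      (fun x hx => (hd x (interior_subset hx)).hasDerivWithinAt)
      fun x hx => div_nonneg (hnum x (le_of_lt (interior_subset (s := Ioi 0) hx))) (by positivity)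
  intro x hx y hy hxy
  have hx0 : (0 : ℝ) < x := hx
  have hy0 : (0 : ℝ) < y := hy
  have h1 := hm (show (0 : ℝ) < 2 * x by linarith) (show (0 : ℝ) < 2 * y by linarith)
    (by linarith)
  have h2 : cosh x ≤ cosh y := by
    rw [cosh_le_cosh, abs_of_pos hx0, abs_of_pos hy0]; exact hxy
  refine mul_le_mul h1 (by gcongr) (by positivity) (div_nonneg (sub_nonneg.2 ?_) (by positivity))
  exact monotoneOn_dslope_sinh.sinh_le_mul_cosh (by linarith)

lemma hasDerivAt_rate {e : ℝ} (h0 : 0 < e) (h1 : e < log 2) :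
    HasDerivAt rate (-rateSlope (zOf e)) e := by
  have hz := zOf_pos h0 h1
  have hd : HasDerivAt (fun b => 1 + sinh (2 * b) / (2 * b))
      ((cosh (2 * zOf e) * 2 * (2 * zOf e) - sinh (2 * zOf e) * 2) / (2 * zOf e) ^ 2) (zOf e) :=
    ((hasDerivAt_two_mul _).sinh.div (hasDerivAt_two_mul _) (by positivity)).const_add 1
  have h := hd.comp e (hasDerivAt_zOf h0 h1)
  have h2 : HasDerivAt rate _ e := h.congr_of_eventuallyEq (by
    filter_upwards [Ioo_mem_nhds h0 h1] with x hx
    simp [rate, (zOf_pos hx.1 hx.2).ne'])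
  refine h2.congr_deriv ?_
  unfold rateSlope
  field_simp
  ring

lemma monotoneOn_deriv_rate :
    MonotoneOn (fun e => -rateSlope (zOf e)) (Ioo 0 (log 2)) := by
  intro e he e' he' h
  exact neg_le_neg (monotoneOn_rateSlope (zOf_pos he'.1 he'.2) (zOf_pos he.1 he.2)
    (antitoneOn_zOf he.1 he'.1 h))

lemma convexOn_rate : ConvexOn ℝ (Ioo 0 (log 2)) rate := by
  refine MonotoneOn.convexOn_of_deriv (convex_Ioo _ _)
    (continuousOn_rate.mono fun t ht => ht.1) ?_ ?_
  · rw [interior_Ioo]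
    exact fun t ht => (hasDerivAt_rate ht.1 ht.2).differentiableAt.differentiableWithinAt
  · rw [interior_Ioo]
    exact monotoneOn_deriv_rate.congr fun t ht => (hasDerivAt_rate ht.1 ht.2).deriv.symm

/-- Trapezoidal bound on the growth of `e ↦ (log 2 - e) * rate e - Phi e`. -/
lemma legendre_bound {e1 e2 : ℝ} (h1 : 0 < e1) (h12 : e1 ≤ e2) (h2 : e2 ≤ log 2) :
    (rate e1 - rate e2) * (log 2 - (e1 + e2) / 2)
      ≤ ((log 2 - e1) * rate e1 - Phi e1) - ((log 2 - e2) * rate e2 - Phi e2) := by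
  set L := log 2
  set h : ℝ → ℝ := fun t => ((L - t) * rate t - Phi t) - ((L - e2) * rate e2 - Phi e2)
    - (rate t - rate e2) * (L - (t + e2) / 2) with hh
  have hd : ∀ t ∈ Ioo e1 e2, HasDerivAt h
      ((-rateSlope (zOf t) * (e2 - t) + (rate t - rate e2)) / 2) t := by
    intro t ht
    have t0 : 0 < t := h1.trans ht.1
    have t1 : t < log 2 := ht.2.trans_le h2
    have hid := hasDerivAt_id' t
    have := ((((hid.const_sub L).mul (hasDerivAt_rate t0 t1)).sub (hasDerivAt_Phi t0 t1)).sub_const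
      ((L - e2) * rate e2 - Phi e2)).sub
        (((hasDerivAt_rate t0 t1).sub_const (rate e2)).mul
          (((hid.add_const e2).div_const 2).const_sub L))
    refine this.congr_deriv ?_
    ring
  have hc : ContinuousOn h (Icc e1 e2) := by
    have hs : Icc e1 e2 ⊆ Ioi 0 := fun t ht => h1.trans_le ht.1
    have := continuousOn_rate.mono hs
    have := continuousOn_Phi.mono hs
    simp only [hh]
    fun_prop
  have hm : AntitoneOn h (Icc e1 e2) := by
    refine antitoneOn_of_hasDerivWithinAt_nonpos (convex_Icc e1 e2) hc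
      (fun t ht => (hd t (interior_Icc (a := e1) (b := e2) ▸ ht)).hasDerivWithinAt) fun t ht => ?_
    rw [interior_Icc] at ht
    have t0 : 0 < t := h1.trans ht.1
    obtain ⟨c, hc, hcd⟩ := exists_hasDerivAt_eq_slope rate (fun s => -rateSlope (zOf s)) ht.2
      (continuousOn_rate.mono fun s hs => t0.trans_le hs.1)
      fun s hs => hasDerivAt_rate (t0.trans hs.1) (hs.2.trans_le h2)
    rw [eq_div_iff (sub_pos.2 ht.2).ne'] at hcd
    have := monotoneOn_deriv_rate ⟨t0, ht.2.trans_le h2⟩ ⟨t0.trans hc.1, hc.2.trans_le h2⟩ hc.1.le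
    have := mul_le_mul_of_nonneg_right this (sub_pos.2 ht.2).le
    linarith
  have := hm (left_mem_Icc.2 h12) (right_mem_Icc.2 h12) h12
  simp only [hh] at this
  linarith

/-! ### The perspective and the profile -/

lemma perspPhi_midpoint {u0 u1 H0 H1 : ℝ} (hu0 : 0 < u0) (hu1 : 0 < u1) (hH0 : 0 < H0)
    (hH1 : 0 < H1) :
    perspPhi ((u0 + u1) / 2) ((H0 + H1) / 2) ≤ (perspPhi u0 H0 + perspPhi u1 H1) / 2 := by
  have hu : 0 < u0 + u1 := by positivity
  have h := convexOn_Phi.2 (div_pos hH0 hu0 : H0 / u0 ∈ Ioi 0) (div_pos hH1 hu1 : H1 / u1 ∈ Ioi 0)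
    (show 0 ≤ u0 / (u0 + u1) by positivity) (show 0 ≤ u1 / (u0 + u1) by positivity)
    (by field_simp)
  simp only [smul_eq_mul] at h
  have e : (H0 + H1) / 2 / ((u0 + u1) / 2)
      = u0 / (u0 + u1) * (H0 / u0) + u1 / (u0 + u1) * (H1 / u1) := by field_simp
  unfold perspPhi
  rw [e]
  refine (mul_le_mul_of_nonneg_left h (by positivity)).trans (le_of_eq ?_)
  field_simp

lemma monotoneOn_perspPhi {H : ℝ} (hH : 0 < H) :
    MonotoneOn (fun u => perspPhi u H) (Ioi 0) := by
  intro u hu u' hu' h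
  have hu0 : (0 : ℝ) < u := hu
  exact mul_le_mul h (antitoneOn_Phi (div_pos hH hu') (div_pos hH hu0)
    (div_le_div_of_nonneg_left hH.le hu0 h)) (Phi_nonneg _) (le_of_lt hu')

lemma profile_neg (m H : ℝ) : profile (-m) H = profile m H := by
  rw [profile, profile, phiFn_neg, satWeight_neg]

theorem profile_base : ∀ m ∈ Ioo (-1 : ℝ) 1, profile m (ent m) ≤ 0 := by
  intro m hm
  have hw := satWeight_pos hm
  refine max_le ?_ (mul_nonpos_of_nonneg_of_nonpos hw.le ?_)
  · rw [show ent m + phiFn m = log 2 by rw [phiFn]; ring, Phi_of_log_two_le le_rfl]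
  · rw [Phi_of_log_two_le]
    rw [le_div_iff₀ hw, mul_comm]
    exact satWeight_mul_log_two_le_ent ⟨hm.1.le, hm.2.le⟩

theorem F0_le_profile (m H : ℝ) : F0 (ent m - H) ≤ profile m H := by
  refine le_trans (le_of_eq ?_) (le_max_left _ _)
  rw [F0, phiFn]
  ring_nf

end Vale.Agent.P322
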